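import Mathlib

/-! The Fabius smooth step function: `fab x = 0` for `x ≤ 0`, `fab x = 1` for `x ≥ 1`,
`fab' x = 2 (fab (2x) - fab (2x-1))`, built as a uniform limit of explicit piecewise polynomials. -/

set_option autoImplicit false

open MeasureTheory Set Filter Topology

namespace Crest.Agent.Lib.BoxFlow

noncomputable section

/-- Piecewise-polynomial approximants, via the integral recursion. -/
def fabA : ℕ → ℝ → ℝ
  | 0, x => max 0 (min 1 x)
  | n + 1, x => ∫ u in (2 * x - 1)..(2 * x), fabA n u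

lemma fabA_zero (x : ℝ) : fabA 0 x = max 0 (min 1 x) := rfl

lemma fabA_succ (n : ℕ) (x : ℝ) : fabA (n + 1) x = ∫ u in (2 * x - 1)..(2 * x), fabA n u := rfl

/-- A primitive of a continuous function gives the "window integral" a derivative. -/
lemma hasDerivAt_window {f : ℝ → ℝ} (hf : Continuous f) (x : ℝ) :
    HasDerivAt (fun x => ∫ u in (2 * x - 1)..(2 * x), f u) (2 * (f (2 * x) - f (2 * x - 1))) x := by
  have hW : ∀ y, HasDerivAt (fun y => ∫ u in (0:ℝ)..y, f u) (f y) y := fun y =>
    intervalIntegral.integral_hasDerivAt_right (hf.intervalIntegrable _ _)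
      (hf.stronglyMeasurableAtFilter _ _) hf.continuousAt
  have h1 : HasDerivAt (fun x : ℝ => 2 * x) 2 x := by
    simpa using (hasDerivAt_id x).const_mul (2:ℝ)
  have h2 : HasDerivAt (fun x : ℝ => 2 * x - 1) 2 x := h1.sub_const 1
  have h3 := (hW (2 * x)).comp x h1
  have h4 := (hW (2 * x - 1)).comp x h2
  have h5 := h3.sub h4
  have e : (fun x => ∫ u in (2 * x - 1)..(2 * x), f u)
      = ((fun y => ∫ u in (0:ℝ)..y, f u) ∘ fun x : ℝ => 2 * x)
        - ((fun y => ∫ u in (0:ℝ)..y, f u) ∘ fun x : ℝ => 2 * x - 1) := by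
    funext y
    simp only [Pi.sub_apply, Function.comp]
    rw [intervalIntegral.integral_interval_sub_left (hf.intervalIntegrable _ _)
      (hf.intervalIntegrable _ _)]
  rw [e]
  exact h5.congr_deriv (by ring)

lemma continuous_window {f : ℝ → ℝ} (hf : Continuous f) :
    Continuous (fun x => ∫ u in (2 * x - 1)..(2 * x), f u) :=
  continuous_iff_continuousAt.2 fun x => (hasDerivAt_window hf x).continuousAt

lemma fabA_continuous (n : ℕ) : Continuous (fabA n) := by
  induction n with
  | zero =>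
    have : fabA 0 = fun x => max 0 (min 1 x) := rfl
    rw [this]
    fun_prop
  | succ n ih =>
    have : fabA (n + 1) = fun x => ∫ u in (2 * x - 1)..(2 * x), fabA n u := rfl
    rw [this]
    exact continuous_window ih

lemma fabA_eq_zero (n : ℕ) {x : ℝ} (hx : x ≤ 0) : fabA n x = 0 := by
  induction n generalizing x with
  | zero =>
    rw [fabA_zero]
    have : min 1 x ≤ 0 := (min_le_right _ _).trans hx
    exact max_eq_left this
  | succ n ih =>
    rw [fabA_succ]
    have : ∀ u ∈ uIcc (2 * x - 1) (2 * x), fabA n u = 0 := by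
      intro u hu
      rw [uIcc_of_le (by linarith)] at hu
      exact ih (by linarith [hu.2])
    rw [intervalIntegral.integral_congr this]
    simp

lemma fabA_eq_one (n : ℕ) {x : ℝ} (hx : 1 ≤ x) : fabA n x = 1 := by
  induction n generalizing x with
  | zero =>
    rw [fabA_zero]
    have h1 : min 1 x = 1 := min_eq_left hx
    rw [h1]
    simp
  | succ n ih =>
    rw [fabA_succ]
    have : ∀ u ∈ uIcc (2 * x - 1) (2 * x), fabA n u = 1 := by
      intro u hu
      rw [uIcc_of_le (by linarith)] at hu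
      exact ih (by linarith [hu.1])
    rw [intervalIntegral.integral_congr this]
    simp

lemma fabA_mem (n : ℕ) (x : ℝ) : 0 ≤ fabA n x ∧ fabA n x ≤ 1 := by
  induction n generalizing x with
  | zero =>
    rw [fabA_zero]
    constructor
    · exact le_max_left _ _
    · exact max_le zero_le_one (min_le_left _ _)
  | succ n ih =>
    rw [fabA_succ]
    have hc := fabA_continuous n
    have hle : 2 * x - 1 ≤ 2 * x := by linarith
    constructor
    · exact intervalIntegral.integral_nonneg hle fun u _ => (ih u).1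
    · have := intervalIntegral.integral_mono_on (μ := volume) hle (hc.intervalIntegrable _ _)
        (intervalIntegrable_const (c := (1:ℝ))) (fun u _ => (ih u).2)
      simpa using this

lemma fabA_symm (n : ℕ) (x : ℝ) : fabA n (1 - x) = 1 - fabA n x := by
  induction n generalizing x with
  | zero =>
    rw [fabA_zero, fabA_zero]
    rcases le_total x 0 with h | h
    · rw [min_eq_right (a := (1:ℝ)) (b := x) (by linarith), max_eq_left (a := (0:ℝ)) h,
        min_eq_left (a := (1:ℝ)) (b := 1 - x) (by linarith), max_eq_right (a := (0:ℝ)) zero_le_one]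
      simp
    · rcases le_total x 1 with h2 | h2
      · rw [min_eq_right (a := (1:ℝ)) (b := x) h2, max_eq_right (a := (0:ℝ)) h,
          min_eq_right (a := (1:ℝ)) (b := 1 - x) (by linarith),
          max_eq_right (a := (0:ℝ)) (by linarith)]
      · rw [min_eq_left (a := (1:ℝ)) (b := x) h2, max_eq_right (a := (0:ℝ)) zero_le_one,
          min_eq_right (a := (1:ℝ)) (b := 1 - x) (by linarith),
          max_eq_left (a := (0:ℝ)) (by linarith)]
        simp
  | succ n ih =>
    rw [fabA_succ, fabA_succ]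
    have hc := fabA_continuous n
    have e1 : ∫ u in (2 * (1 - x) - 1)..(2 * (1 - x)), fabA n u
        = ∫ u in (2 * x - 1)..(2 * x), fabA n (1 - u) := by
      rw [intervalIntegral.integral_comp_sub_left (fun u => fabA n u) 1]
      congr 1 <;> ring
    rw [e1]
    have e2 : ∀ u ∈ uIcc (2 * x - 1) (2 * x), fabA n (1 - u) = 1 - fabA n u := fun u _ => ih u
    rw [intervalIntegral.integral_congr e2,
      intervalIntegral.integral_sub (continuous_const.intervalIntegrable _ _)
        (hc.intervalIntegrable _ _)]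
    simp

lemma fabA_half (n : ℕ) : fabA n (1 / 2) = 1 / 2 := by
  have h := fabA_symm n (1 / 2)
  have e : (1 : ℝ) - 1 / 2 = 1 / 2 := by norm_num
  rw [e] at h
  linarith

lemma fabA_integral (n : ℕ) : ∫ u in (0:ℝ)..1, fabA n u = 1 / 2 := by
  have h := fabA_half (n + 1)
  rw [fabA_succ] at h
  have e1 : (2 : ℝ) * (1 / 2) - 1 = 0 := by norm_num
  have e2 : (2 : ℝ) * (1 / 2) = 1 := by norm_num
  rwa [e1, e2] at h

/-- Mean-zero window contraction. -/
lemma window_small {D : ℝ → ℝ} (hD : Continuous D) {ε : ℝ} (hε : ∀ u, |D u| ≤ ε)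
    (h0 : ∀ u, u ≤ 0 → D u = 0) (h1 : ∀ u, 1 ≤ u → D u = 0)
    (hI : ∫ u in (0:ℝ)..1, D u = 0) (y : ℝ) :
    |∫ u in (y - 1)..y, D u| ≤ ε / 2 := by
  have hε0 : 0 ≤ ε := (abs_nonneg _).trans (hε 0)
  have hint : ∀ a b : ℝ, IntervalIntegrable D volume a b := fun a b => hD.intervalIntegrable a b
  have hbd : ∀ a b : ℝ, a ≤ b → |∫ u in a..b, D u| ≤ ε * (b - a) := by
    intro a b hab
    have := intervalIntegral.norm_integral_le_of_norm_le_const (a := a) (b := b) (C := ε) (f := D)
      (fun x _ => by simpa using hε x)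
    rw [abs_of_nonneg (by linarith : 0 ≤ b - a)] at this
    simpa using this
  have hzero0 : ∀ a b : ℝ, a ≤ b → b ≤ 0 → ∫ u in a..b, D u = 0 := by
    intro a b hab hb
    have : ∀ u ∈ uIcc a b, D u = 0 := by
      intro u hu
      rw [uIcc_of_le hab] at hu
      exact h0 u (hu.2.trans hb)
    rw [intervalIntegral.integral_congr this]
    simp
  have hzero1 : ∀ a b : ℝ, a ≤ b → 1 ≤ a → ∫ u in a..b, D u = 0 := by
    intro a b hab ha
    have : ∀ u ∈ uIcc a b, D u = 0 := by
      intro u hu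
      rw [uIcc_of_le hab] at hu
      exact h1 u (ha.trans hu.1)
    rw [intervalIntegral.integral_congr this]
    simp
  -- the primitive is small on [0,1]
  have hP : ∀ z : ℝ, 0 ≤ z → z ≤ 1 → |∫ u in (0:ℝ)..z, D u| ≤ ε / 2 := by
    intro z hz0 hz1
    rcases le_total z (1 / 2) with hz | hz
    · have := hbd 0 z hz0
      nlinarith
    · have e : ∫ u in (0:ℝ)..z, D u = - ∫ u in z..1, D u := by
        have := intervalIntegral.integral_add_adjacent_intervals (hint 0 z) (hint z 1)
        rw [hI] at this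
        linarith
      rw [e, abs_neg]
      have := hbd z 1 hz1
      nlinarith
  rcases le_total y 0 with hy | hy
  · rw [hzero0 (y - 1) y (by linarith) hy]
    simpa using by linarith
  rcases le_total y 1 with hy1 | hy1
  · have e : ∫ u in (y - 1)..y, D u = ∫ u in (0:ℝ)..y, D u := by
      have := intervalIntegral.integral_add_adjacent_intervals (hint (y - 1) 0) (hint 0 y)
      rw [hzero0 (y - 1) 0 (by linarith) le_rfl] at this
      linarith
    rw [e]
    exact hP y hy hy1
  rcases le_total y 2 with hy2 | hy2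
  · have e : ∫ u in (y - 1)..y, D u = - ∫ u in (0:ℝ)..(y - 1), D u := by
      have h1' := intervalIntegral.integral_add_adjacent_intervals (hint (y - 1) 1) (hint 1 y)
      rw [hzero1 1 y hy1 le_rfl] at h1'
      have h2' := intervalIntegral.integral_add_adjacent_intervals (hint 0 (y - 1)) (hint (y - 1) 1)
      rw [hI] at h2'
      linarith
    rw [e, abs_neg]
    exact hP (y - 1) (by linarith) (by linarith)
  · rw [hzero1 (y - 1) y (by linarith) (by linarith)]
    simpa using by linarith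

lemma fabA_step (n : ℕ) (x : ℝ) : |fabA (n + 1) x - fabA n x| ≤ (1 / 2) ^ n := by
  induction n generalizing x with
  | zero =>
    have h1 := fabA_mem 1 x
    have h2 := fabA_mem 0 x
    simp only [zero_add, pow_zero]
    rw [abs_le]
    constructor <;> linarith [h1.1, h1.2, h2.1, h2.2]
  | succ n ih =>
    have hc0 := fabA_continuous n
    have hc1 := fabA_continuous (n + 1)
    have e : fabA (n + 1 + 1) x - fabA (n + 1) x
        = ∫ u in (2 * x - 1)..(2 * x), (fabA (n + 1) u - fabA n u) := by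
      rw [fabA_succ (n + 1), fabA_succ n,
        intervalIntegral.integral_sub (hc1.intervalIntegrable _ _) (hc0.intervalIntegrable _ _)]
    rw [e]
    have := window_small (D := fun u => fabA (n + 1) u - fabA n u) (hc1.sub hc0) (ε := (1 / 2) ^ n) ih
      (fun u hu => by simp [fabA_eq_zero _ hu])
      (fun u hu => by simp [fabA_eq_one _ hu])
      (by
        rw [intervalIntegral.integral_sub (hc1.intervalIntegrable _ _) (hc0.intervalIntegrable _ _),
          fabA_integral, fabA_integral]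
        simp)
      (2 * x)
    rw [pow_succ]
    calc _ ≤ (1 / 2 : ℝ) ^ n / 2 := this
      _ = _ := by ring

lemma fabA_dist (n : ℕ) (x : ℝ) : dist (fabA n x) (fabA (n + 1) x) ≤ 2 / 2 / 2 ^ n := by
  rw [Real.dist_eq, abs_sub_comm]
  refine (fabA_step n x).trans (le_of_eq ?_)
  simp [one_div]

lemma fabA_cauchy (x : ℝ) : CauchySeq (fun n => fabA n x) :=
  cauchySeq_of_le_geometric_two (C := 2) (fabA_dist · x)

/-- The Fabius step function. -/
def fab (x : ℝ) : ℝ := limUnder atTop (fun n => fabA n x)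

lemma fabA_tendsto (x : ℝ) : Tendsto (fun n => fabA n x) atTop (𝓝 (fab x)) :=
  (fabA_cauchy x).tendsto_limUnder

lemma fabA_sub_fab (n : ℕ) (x : ℝ) : |fabA n x - fab x| ≤ 2 / 2 ^ n := by
  have := dist_le_of_le_geometric_two_of_tendsto (C := 2) (f := fun n => fabA n x)
    (fabA_dist · x) (fabA_tendsto x) n
  rwa [Real.dist_eq] at this

lemma fab_continuous : Continuous fab := by
  have hu : TendstoUniformly fabA fab atTop := by
    rw [Metric.tendstoUniformly_iff]
    intro ε hε
    have hlim : Tendsto (fun n : ℕ => (2 : ℝ) / 2 ^ n) atTop (𝓝 0) := by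
      have := tendsto_pow_atTop_nhds_zero_of_lt_one (r := (1 / 2 : ℝ)) (by norm_num) (by norm_num)
      have h2 := this.const_mul 2
      simp only [mul_zero] at h2
      refine h2.congr (fun n => ?_)
      simp [one_div]
      ring
    have hev := hlim.eventually (gt_mem_nhds hε)
    filter_upwards [hev] with n hn x
    rw [Real.dist_eq, abs_sub_comm]
    exact (fabA_sub_fab n x).trans_lt hn
  exact hu.continuous (Frequently.of_forall fabA_continuous)

lemma fab_window (x : ℝ) : fab x = ∫ u in (2 * x - 1)..(2 * x), fab u := by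
  have h1 : Tendsto (fun n => fabA (n + 1) x) atTop (𝓝 (fab x)) :=
    (fabA_tendsto x).comp (tendsto_add_atTop_nat 1)
  have h2 : Tendsto (fun n => fabA (n + 1) x) atTop (𝓝 (∫ u in (2 * x - 1)..(2 * x), fab u)) := by
    have hlim : Tendsto (fun n : ℕ => (2 : ℝ) / 2 ^ n) atTop (𝓝 0) := by
      have := tendsto_pow_atTop_nhds_zero_of_lt_one (r := (1 / 2 : ℝ)) (by norm_num) (by norm_num)
      have h2 := this.const_mul 2
      simp only [mul_zero] at h2
      refine h2.congr (fun n => ?_)
      simp [one_div]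
      ring
    rw [tendsto_iff_dist_tendsto_zero]
    refine squeeze_zero (fun _ => dist_nonneg) (fun n => ?_) hlim
    rw [Real.dist_eq, fabA_succ,
      ← intervalIntegral.integral_sub ((fabA_continuous n).intervalIntegrable _ _)
        (fab_continuous.intervalIntegrable _ _)]
    have := intervalIntegral.norm_integral_le_of_norm_le_const (a := 2 * x - 1) (b := 2 * x)
      (C := 2 / 2 ^ n) (f := fun u => fabA n u - fab u)
      (fun u _ => by simpa using fabA_sub_fab n u)
    have e : |2 * x - (2 * x - 1)| = 1 := by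
      rw [show 2 * x - (2 * x - 1) = 1 by ring]
      simp
    rw [e, mul_one] at this
    simpa using this
  exact tendsto_nhds_unique h1 h2

lemma fab_eq_zero {x : ℝ} (hx : x ≤ 0) : fab x = 0 := by
  have h := fabA_tendsto x
  simp only [fabA_eq_zero _ hx] at h
  exact (tendsto_nhds_unique h tendsto_const_nhds)

lemma fab_eq_one {x : ℝ} (hx : 1 ≤ x) : fab x = 1 := by
  have h := fabA_tendsto x
  simp only [fabA_eq_one _ hx] at h
  exact (tendsto_nhds_unique h tendsto_const_nhds)

lemma fab_nonneg (x : ℝ) : 0 ≤ fab x :=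
  ge_of_tendsto' (fabA_tendsto x) fun n => (fabA_mem n x).1

lemma fab_le_one (x : ℝ) : fab x ≤ 1 :=
  le_of_tendsto' (fabA_tendsto x) fun n => (fabA_mem n x).2

lemma fab_hasDerivAt (x : ℝ) : HasDerivAt fab (2 * (fab (2 * x) - fab (2 * x - 1))) x := by
  have e : fab = fun x => ∫ u in (2 * x - 1)..(2 * x), fab u := funext fab_window
  have := hasDerivAt_window fab_continuous x
  rwa [← e] at this

/-- The derivative tower of `fab`. -/
def fabD : ℕ → ℝ → ℝ
  | 0, x => fab x
  | m + 1, x => 2 ^ (m + 1) * (fabD m (2 * x) - fabD m (2 * x - 1))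

lemma fabD_zero (x : ℝ) : fabD 0 x = fab x := rfl

lemma fabD_succ (m : ℕ) (x : ℝ) :
    fabD (m + 1) x = 2 ^ (m + 1) * (fabD m (2 * x) - fabD m (2 * x - 1)) := rfl

lemma fabD_hasDerivAt (m : ℕ) (x : ℝ) : HasDerivAt (fabD m) (fabD (m + 1) x) x := by
  induction m generalizing x with
  | zero =>
    have e : fabD 0 = fab := rfl
    rw [e, fabD_succ]
    have := fab_hasDerivAt x
    simpa [fabD_zero] using this
  | succ m ih =>
    have h1 : HasDerivAt (fun x : ℝ => 2 * x) 2 x := by
      simpa using (hasDerivAt_id x).const_mul (2:ℝ)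
    have h2 : HasDerivAt (fun x : ℝ => 2 * x - 1) 2 x := h1.sub_const 1
    have h3 := (ih (2 * x)).comp x h1
    have h4 := (ih (2 * x - 1)).comp x h2
    have h5 := (h3.sub h4).const_mul ((2:ℝ) ^ (m + 1))
    have e : fabD (m + 1) = fun x => (2:ℝ) ^ (m + 1) * ((fabD m ∘ fun x => 2 * x) - (fabD m ∘ fun x => 2 * x - 1)) x := by
      funext y
      simp [fabD_succ]
    rw [e]
    refine h5.congr_deriv ?_
    rw [fabD_succ (m + 1)]
    ring

lemma fabD_vanish (m : ℕ) {x : ℝ} (hx : x ≤ 0 ∨ 1 ≤ x) : fabD (m + 1) x = 0 := by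
  induction m generalizing x with
  | zero =>
    rw [fabD_succ, fabD_zero, fabD_zero]
    rcases hx with hx | hx
    · rw [fab_eq_zero (by linarith : 2 * x ≤ 0), fab_eq_zero (by linarith : 2 * x - 1 ≤ 0)]
      simp
    · rw [fab_eq_one (by linarith : 1 ≤ 2 * x), fab_eq_one (by linarith : 1 ≤ 2 * x - 1)]
      simp
  | succ m ih =>
    rw [fabD_succ]
    rcases hx with hx | hx
    · rw [ih (Or.inl (by linarith : 2 * x ≤ 0)), ih (Or.inl (by linarith : 2 * x - 1 ≤ 0))]
      simp
    · rw [ih (Or.inr (by linarith : 1 ≤ 2 * x)), ih (Or.inr (by linarith : 1 ≤ 2 * x - 1))]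
      simp

lemma fabD_bound (m : ℕ) (x : ℝ) : |fabD m x| ≤ 2 ^ ((m + 1) ^ 2) := by
  induction m generalizing x with
  | zero =>
    rw [fabD_zero, abs_of_nonneg (fab_nonneg x)]
    have := fab_le_one x
    norm_num
    linarith
  | succ m ih =>
    rw [fabD_succ, abs_mul, abs_of_pos (by positivity : (0:ℝ) < 2 ^ (m + 1))]
    have h1 := ih (2 * x)
    have h2 := ih (2 * x - 1)
    have h3 : |fabD m (2 * x) - fabD m (2 * x - 1)| ≤ 2 * 2 ^ ((m + 1) ^ 2) :=
      (abs_sub _ _).trans (by linarith)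
    have e : ((2:ℝ) ^ (m + 1 + 1) ^ 2) = 2 ^ (m + 1) * (2 * 2 ^ ((m + 1) ^ 2)) * 2 ^ (m + 1) := by
      rw [← pow_succ', ← pow_add, ← pow_add]
      congr 1
      ring
    rw [e]
    have h4 : (1:ℝ) ≤ 2 ^ (m + 1) := one_le_pow₀ (by norm_num)
    have h5 : (0:ℝ) ≤ 2 ^ (m + 1) * (2 * 2 ^ ((m + 1) ^ 2)) := by positivity
    calc (2:ℝ) ^ (m + 1) * |fabD m (2 * x) - fabD m (2 * x - 1)|
        ≤ 2 ^ (m + 1) * (2 * 2 ^ ((m + 1) ^ 2)) :=
          mul_le_mul_of_nonneg_left h3 (by positivity)
      _ ≤ _ := le_mul_of_one_le_right h5 h4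

/-! ### Closed forms of the approximants -/

lemma hasDerivAt_maxPow (k : ℕ) (x : ℝ) :
    HasDerivAt (fun y : ℝ => (max y 0) ^ (k + 2)) (((k + 2 : ℕ) : ℝ) * (max x 0) ^ (k + 1)) x := by
  have hpow : ∀ y : ℝ, HasDerivAt (fun y : ℝ => y ^ (k + 2)) (((k + 2 : ℕ) : ℝ) * y ^ (k + 1)) y := by
    intro y
    simpa using hasDerivAt_pow (k + 2) y
  rcases lt_trichotomy x 0 with hx | hx | hx
  · have h0 : (fun y : ℝ => (max y 0) ^ (k + 2)) =ᶠ[𝓝 x] fun _ => (0:ℝ) := by
      filter_upwards [Iio_mem_nhds hx] with y hy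
      rw [max_eq_right (le_of_lt hy)]
      simp
    rw [max_eq_right hx.le]
    have : HasDerivAt (fun _ : ℝ => (0:ℝ)) 0 x := hasDerivAt_const x 0
    simpa using this.congr_of_eventuallyEq h0
  · subst hx
    have hL : HasDerivWithinAt (fun y : ℝ => (max y 0) ^ (k + 2))
        (((k + 2 : ℕ) : ℝ) * (max 0 0) ^ (k + 1)) (Iic 0) 0 := by
      have : HasDerivWithinAt (fun _ : ℝ => (0:ℝ)) 0 (Iic 0) 0 := hasDerivWithinAt_const _ _ _
      simp only [max_self]
      have e : ((k + 2 : ℕ) : ℝ) * (0:ℝ) ^ (k + 1) = 0 := by simp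
      rw [e]
      refine this.congr (fun y hy => ?_) (by simp)
      rw [max_eq_right hy]
      simp
    have hR : HasDerivWithinAt (fun y : ℝ => (max y 0) ^ (k + 2))
        (((k + 2 : ℕ) : ℝ) * (max 0 0) ^ (k + 1)) (Ici 0) 0 := by
      simp only [max_self]
      refine (hpow 0).hasDerivWithinAt.congr (fun y hy => ?_) (by simp)
      rw [max_eq_left hy]
    have := hL.union hR
    rwa [Iic_union_Ici, hasDerivWithinAt_univ] at this
  · have h0 : (fun y : ℝ => (max y 0) ^ (k + 2)) =ᶠ[𝓝 x] fun y => y ^ (k + 2) := by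
      filter_upwards [Ioi_mem_nhds hx] with y hy
      rw [max_eq_left (le_of_lt hy)]
    rw [max_eq_left hx.le]
    exact (hpow x).congr_of_eventuallyEq h0

/-- Signed sums of truncated powers. -/
def pP : ℕ → ℕ → ℝ → ℝ
  | 0, N, x => (max x 0) ^ N - (max (x - 1) 0) ^ N
  | M + 1, N, x => pP M N (2 * x) - pP M N (2 * x - 1)

lemma pP_zero (N : ℕ) (x : ℝ) : pP 0 N x = (max x 0) ^ N - (max (x - 1) 0) ^ N := rfl

lemma pP_succ (M N : ℕ) (x : ℝ) : pP (M + 1) N x = pP M N (2 * x) - pP M N (2 * x - 1) := rfl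

lemma pP_hasDerivAt (M N : ℕ) (x : ℝ) :
    HasDerivAt (pP M (N + 2)) (((N + 2 : ℕ) : ℝ) * 2 ^ M * pP M (N + 1) x) x := by
  induction M generalizing x with
  | zero =>
    have h1 := hasDerivAt_maxPow N x
    have h2 := (hasDerivAt_maxPow N (x - 1)).comp x ((hasDerivAt_id x).sub_const 1)
    have h3 := h1.sub h2
    have e : pP 0 (N + 2) = (fun y : ℝ => (max y 0) ^ (N + 2))
        - ((fun y : ℝ => (max y 0) ^ (N + 2)) ∘ fun x => id x - 1) := by
      funext y
      simp [pP_zero]
    rw [e]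
    refine h3.congr_deriv ?_
    rw [pP_zero]
    simp
    ring
  | succ M ih =>
    have h1 : HasDerivAt (fun x : ℝ => 2 * x) 2 x := by
      simpa using (hasDerivAt_id x).const_mul (2:ℝ)
    have h2 : HasDerivAt (fun x : ℝ => 2 * x - 1) 2 x := h1.sub_const 1
    have h3 := (ih (2 * x)).comp x h1
    have h4 := (ih (2 * x - 1)).comp x h2
    have h5 := h3.sub h4
    have e : pP (M + 1) (N + 2) = (pP M (N + 2) ∘ fun x => 2 * x) - (pP M (N + 2) ∘ fun x => 2 * x - 1) := by
      funext y
      simp [pP_succ]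
    rw [e]
    refine h5.congr_deriv ?_
    rw [pP_succ]
    ring

/-- Normalised signed sums: these are the approximants and their derivatives. -/
def gF (M N : ℕ) (x : ℝ) : ℝ :=
  2 ^ (M * (M + 3) / 2) / (2 ^ (M * N) * (N.factorial : ℝ)) * pP M N x

lemma gF_exp (M : ℕ) : (M + 1) * (M + 1 + 3) / 2 = M * (M + 3) / 2 + (M + 2) := by
  have : (M + 1) * (M + 1 + 3) = M * (M + 3) + 2 * (M + 2) := by ring
  rw [this, Nat.add_mul_div_left _ _ (by norm_num : 0 < 2)]

lemma gF_succ (M N : ℕ) (x : ℝ) :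
    gF (M + 1) N x = 2 ^ (M + 2) / 2 ^ N * (gF M N (2 * x) - gF M N (2 * x - 1)) := by
  simp only [gF, pP_succ, gF_exp]
  have h : ((N.factorial : ℝ)) ≠ 0 := by positivity
  rw [pow_add (2:ℝ) (M * (M + 3) / 2), show (M + 1) * N = M * N + N by ring, pow_add (2:ℝ) (M * N)]
  field_simp

lemma gF_hasDerivAt (M N : ℕ) (x : ℝ) : HasDerivAt (gF M (N + 2)) (gF M (N + 1) x) x := by
  have h := (pP_hasDerivAt M N x).const_mul
    ((2:ℝ) ^ (M * (M + 3) / 2) / (2 ^ (M * (N + 2)) * ((N + 2).factorial : ℝ)))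
  have e : gF M (N + 2) = fun x => (2:ℝ) ^ (M * (M + 3) / 2) / (2 ^ (M * (N + 2)) * ((N + 2).factorial : ℝ))
      * pP M (N + 2) x := rfl
  rw [e]
  refine h.congr_deriv ?_
  simp only [gF]
  have h1 : ((N + 1).factorial : ℝ) ≠ 0 := by positivity
  rw [show M * (N + 2) = M * (N + 1) + M by ring, pow_add (2:ℝ) (M * (N + 1)),
    Nat.factorial_succ (N + 1)]
  push_cast
  field_simp
  ring

lemma pP_continuous (M N : ℕ) : Continuous (pP M N) := by
  induction M with
  | zero =>
    have e : pP 0 N = fun x => (max x 0) ^ N - (max (x - 1) 0) ^ N := rfl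
    rw [e]
    fun_prop
  | succ M ih =>
    have e : pP (M + 1) N = fun x => pP M N (2 * x) - pP M N (2 * x - 1) := rfl
    rw [e]
    fun_prop

lemma gF_continuous (M N : ℕ) : Continuous (gF M N) := by
  have e : gF M N = fun x => 2 ^ (M * (M + 3) / 2) / (2 ^ (M * N) * (N.factorial : ℝ)) * pP M N x := rfl
  rw [e]
  exact continuous_const.mul (pP_continuous M N)

lemma fabA_eq_gF (n : ℕ) (x : ℝ) : fabA n x = gF n (n + 1) x := by
  induction n generalizing x with
  | zero =>
    simp only [fabA_zero, gF, pP_zero]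
    norm_num
    rcases le_total x 0 with h | h
    · rw [min_eq_right (a := (1:ℝ)) (by linarith), max_eq_left (a := (0:ℝ)) h,
        max_eq_right (a := x) h, max_eq_right (a := x - 1) (by linarith)]
      simp
    · rcases le_total x 1 with h2 | h2
      · rw [min_eq_right (a := (1:ℝ)) h2, max_eq_right (a := (0:ℝ)) h,
          max_eq_left (a := x) h, max_eq_right (a := x - 1) (by linarith)]
        simp
      · rw [min_eq_left (a := (1:ℝ)) h2, max_eq_right (a := (0:ℝ)) zero_le_one,
          max_eq_left (a := x) h, max_eq_left (a := x - 1) (by linarith)]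
        ring
  | succ n ih =>
    rw [fabA_succ, intervalIntegral.integral_congr (fun u _ => ih u),
      intervalIntegral.integral_eq_sub_of_hasDerivAt (f := gF n (n + 2))
        (fun u _ => gF_hasDerivAt n n u) ((gF_continuous _ _).intervalIntegrable _ _),
      gF_succ]
    have : (2:ℝ) ^ (n + 2) / 2 ^ (n + 1 + 1) = 1 := by
      rw [show n + 1 + 1 = n + 2 by ring]
      exact div_self (by positivity)
    rw [this, one_mul]

/-- Uniform approximation of the derivative tower by the closed forms. -/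
lemma fabD_sub_gF (K m : ℕ) (x : ℝ) :
    |fabD m x - gF (K + m) (K + 1) x| ≤ 2 ^ ((m + 1) ^ 2) * (2 / 2 ^ K) := by
  induction m generalizing x with
  | zero =>
    simp only [add_zero]
    rw [fabD_zero, ← fabA_eq_gF, abs_sub_comm]
    have h := fabA_sub_fab K x
    have h2 : (0:ℝ) ≤ 2 / 2 ^ K := by positivity
    norm_num
    linarith
  | succ m ih =>
    rw [show K + (m + 1) = (K + m) + 1 by ring, gF_succ, fabD_succ]
    have e0 : (2:ℝ) ^ (K + m + 2) / 2 ^ (K + 1) = 2 ^ (m + 1) := by
      rw [show K + m + 2 = (K + 1) + (m + 1) by ring, pow_add]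
      field_simp
    rw [e0, ← mul_sub, abs_mul, abs_of_pos (by positivity : (0:ℝ) < 2 ^ (m + 1))]
    set E : ℝ := 2 ^ ((m + 1) ^ 2) * (2 / 2 ^ K) with hE
    have h1 := ih (2 * x)
    have h2 := ih (2 * x - 1)
    have h3 : |fabD m (2 * x) - fabD m (2 * x - 1)
        - (gF (K + m) (K + 1) (2 * x) - gF (K + m) (K + 1) (2 * x - 1))| ≤ 2 * E := by
      have : fabD m (2 * x) - fabD m (2 * x - 1)
        - (gF (K + m) (K + 1) (2 * x) - gF (K + m) (K + 1) (2 * x - 1))
        = (fabD m (2 * x) - gF (K + m) (K + 1) (2 * x))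
          - (fabD m (2 * x - 1) - gF (K + m) (K + 1) (2 * x - 1)) := by ring
      rw [this]
      exact (abs_sub _ _).trans (by linarith)
    have e : ((2:ℝ) ^ (m + 1 + 1) ^ 2) * (2 / 2 ^ K) = 2 ^ (m + 1) * (2 * E) * 2 ^ (m + 1) := by
      rw [hE, show (m + 1 + 1) ^ 2 = (m + 1) + 1 + (m + 1) ^ 2 + (m + 1) by ring, pow_add, pow_add, pow_add]
      ring
    rw [e]
    have h4 : (1:ℝ) ≤ 2 ^ (m + 1) := one_le_pow₀ (by norm_num)
    have h5 : (0:ℝ) ≤ 2 ^ (m + 1) * (2 * E) := by positivity
    calc (2:ℝ) ^ (m + 1) * _ ≤ 2 ^ (m + 1) * (2 * E) := mul_le_mul_of_nonneg_left h3 (by positivity)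
      _ ≤ _ := le_mul_of_one_le_right h5 h4

/-- The precision parameter used for rational approximation. -/
def fabK (m n : ℕ) : ℕ := (m + 1) ^ 2 + n + 2

lemma fabD_approx (m n : ℕ) (x : ℝ) :
    |fabD m x - gF (fabK m n + m) (fabK m n + 1) x| ≤ 1 / ((n : ℝ) + 1) := by
  refine (fabD_sub_gF (fabK m n) m x).trans ?_
  have e : (2:ℝ) ^ ((m + 1) ^ 2) * (2 / 2 ^ fabK m n) = 1 / 2 ^ (n + 1) := by
    rw [fabK, show (m + 1) ^ 2 + n + 2 = (m + 1) ^ 2 + (n + 2) by ring, pow_add, pow_succ (2:ℝ) (n + 1)]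
    field_simp
  rw [e]
  apply one_div_le_one_div_of_le (by positivity)
  have h : ((n + 1 : ℕ) : ℝ) ≤ 2 ^ (n + 1) := by
    exact_mod_cast (Nat.lt_two_pow_self).le
  push_cast at h
  linarith

/-! ### Natural-number form of the closed forms -/

/-- The lists of positive and of negative shifts. -/
def shiftL : ℕ → List ℕ × List ℕ
  | 0 => ([0], [1])
  | M + 1 => ((shiftL M).1 ++ (shiftL M).2.map (· + 2 ^ M), (shiftL M).2 ++ (shiftL M).1.map (· + 2 ^ M))

lemma pP_eq_sum (M N : ℕ) (x : ℝ) :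
    pP M N x = ((shiftL M).1.map fun j : ℕ => (max (2 ^ M * x - j) 0) ^ N).sum
      - ((shiftL M).2.map fun j : ℕ => (max (2 ^ M * x - j) 0) ^ N).sum := by
  induction M generalizing x with
  | zero => simp [shiftL, pP_zero]
  | succ M ih =>
    rw [pP_succ, ih, ih]
    simp only [shiftL, List.map_append, List.sum_append, List.map_map]
    have e1 : ∀ j : ℕ, (2:ℝ) ^ M * (2 * x) - j = 2 ^ (M + 1) * x - j := by
      intro j; rw [pow_succ]; ring
    have e2 : ∀ j : ℕ, (2:ℝ) ^ M * (2 * x - 1) - j = 2 ^ (M + 1) * x - ((j + 2 ^ M : ℕ) : ℝ) := by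
      intro j; push_cast; rw [pow_succ]; ring
    simp only [e1, e2, Function.comp_def]
    ring

/-- The natural truncated power: `((2^M p) ∸ (2^M m + j D))^N`. -/
def natF (M N p m D j : ℕ) : ℕ := (2 ^ M * p - (2 ^ M * m + j * D)) ^ N

lemma max_eq_natF (M N p m D j : ℕ) (hD : 0 < D) :
    (max ((2:ℝ) ^ M * (((p:ℝ) - m) / D) - j) 0) ^ N = (natF M N p m D j : ℝ) / (D:ℝ) ^ N := by
  have hD' : (0:ℝ) < D := by exact_mod_cast hD
  have key : max ((2:ℝ) ^ M * (((p:ℝ) - m) / D) - j) 0 = ((2 ^ M * p - (2 ^ M * m + j * D) : ℕ) : ℝ) / D := by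
    rcases le_total (2 ^ M * m + j * D) (2 ^ M * p) with h | h
    · rw [Nat.cast_sub h]
      push_cast
      have h' : ((2:ℝ) ^ M * m + j * D) ≤ 2 ^ M * p := by exact_mod_cast h
      have e : (2:ℝ) ^ M * (((p:ℝ) - m) / D) - j = (2 ^ M * p - (2 ^ M * m + j * D)) / D := by
        field_simp
        ring
      rw [e]
      apply max_eq_left
      apply div_nonneg _ hD'.le
      linarith
    · rw [Nat.sub_eq_zero_of_le h]
      simp only [Nat.cast_zero, zero_div]
      apply max_eq_right
      have h' : (2:ℝ) ^ M * p ≤ (2 ^ M * m + j * D) := by exact_mod_cast h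
      have e : (2:ℝ) ^ M * (((p:ℝ) - m) / D) - j = (2 ^ M * p - (2 ^ M * m + j * D)) / D := by
        field_simp
        ring
      rw [e]
      apply div_nonpos_of_nonpos_of_nonneg _ hD'.le
      linarith
  rw [key, natF, div_pow]
  push_cast
  rfl

/-- The natural sum over a list. -/
def natS (M N p m D : ℕ) (L : List ℕ) : ℕ := (L.map (natF M N p m D)).sum

lemma natS_cast (M N p m D : ℕ) (hD : 0 < D) (L : List ℕ) :
    (L.map fun j : ℕ => (max ((2:ℝ) ^ M * (((p:ℝ) - m) / D) - j) 0) ^ N).sum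
      = (natS M N p m D L : ℝ) / (D:ℝ) ^ N := by
  induction L with
  | nil => simp [natS]
  | cons a L ih =>
    simp only [List.map_cons, List.sum_cons, ih, natS]
    rw [max_eq_natF M N p m D a hD]
    push_cast
    rw [add_div]

lemma pP_nat (M N p m D : ℕ) (hD : 0 < D) :
    pP M N (((p:ℝ) - m) / D) = ((natS M N p m D (shiftL M).1 : ℝ) - natS M N p m D (shiftL M).2) / (D:ℝ) ^ N := by
  rw [pP_eq_sum, natS_cast _ _ _ _ _ hD, natS_cast _ _ _ _ _ hD, sub_div]

lemma gF_nat (M N p m D : ℕ) (hD : 0 < D) :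
    gF M N (((p:ℝ) - m) / D)
      = ((2 ^ (M * (M + 3) / 2) * natS M N p m D (shiftL M).1 : ℕ) - (2 ^ (M * (M + 3) / 2) * natS M N p m D (shiftL M).2 : ℕ) : ℝ)
        / ((2 ^ (M * N) * N.factorial * D ^ N : ℕ) : ℝ) := by
  have hD' : (D:ℝ) ≠ 0 := by exact_mod_cast hD.ne'
  have hf : (N.factorial : ℝ) ≠ 0 := by positivity
  rw [gF, pP_nat _ _ _ _ _ hD]
  push_cast
  field_simp

end

end Crest.Agent.Lib.BoxFlow
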