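import Crest.Agent.Lib.BoxFlow.RankQ
import Crest.Agent.Lib.BoxFlow.Fabius

/-! Computably approximable real functions on a `Primcodable` type; the Fabius tower is one. -/

set_option autoImplicit false

open Encodable Denumerable

namespace Crest.Agent.Lib.BoxFlow

variable {α β : Type*} [Primcodable α] [Primcodable β]

/-- `f : α → ℝ` has computable rational approximations at precision `1/(n+1)`. -/
def CompReal (f : α → ℝ) : Prop :=
  ∃ A : α × ℕ → ℚ, Computable A ∧ ∀ a n, |f a - (A (a, n) : ℝ)| ≤ 1 / ((n : ℝ) + 1)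

theorem CompReal.ofRat {r : α → ℚ} (hr : Computable r) : CompReal (fun a => (r a : ℝ)) := by
  refine ⟨fun p => r p.1, hr.comp Computable.fst, fun a n => ?_⟩
  simp only [sub_self, abs_zero]
  positivity

theorem CompReal.comp {f : β → ℝ} (hf : CompReal f) {g : α → β} (hg : Computable g) :
    CompReal (fun a => f (g a)) := by
  obtain ⟨A, hA, h⟩ := hf
  refine ⟨fun p => A (g p.1, p.2), hA.comp ((hg.comp Computable.fst).pair Computable.snd), fun a n => h _ _⟩

theorem CompReal.of_eq {f g : α → ℝ} (hf : CompReal f) (h : ∀ a, f a = g a) : CompReal g := by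
  have : f = g := funext h
  rwa [← this]

lemma two_mul_succ_bound (n : ℕ) : 1 / (((2 * n + 1 : ℕ) : ℝ) + 1) + 1 / (((2 * n + 1 : ℕ) : ℝ) + 1) = 1 / ((n : ℝ) + 1) := by
  push_cast
  field_simp
  ring

theorem CompReal.add {f g : α → ℝ} (hf : CompReal f) (hg : CompReal g) :
    CompReal (fun a => f a + g a) := by
  obtain ⟨A, hA, h⟩ := hf
  obtain ⟨B, hB, k⟩ := hg
  refine ⟨fun p => A (p.1, 2 * p.2 + 1) + B (p.1, 2 * p.2 + 1), ?_, fun a n => ?_⟩
  · have hn : Computable (fun p : α × ℕ => 2 * p.2 + 1) :=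
      cNatAdd (cNatMul (Computable.const 2) Computable.snd) (Computable.const 1)
    exact cRatAdd (hA.comp (Computable.fst.pair hn)) (hB.comp (Computable.fst.pair hn))
  · have h1 := h a (2 * n + 1)
    have h2 := k a (2 * n + 1)
    have e : f a + g a - ((A (a, 2 * n + 1) + B (a, 2 * n + 1) : ℚ) : ℝ)
        = (f a - A (a, 2 * n + 1)) + (g a - B (a, 2 * n + 1)) := by
      push_cast; ring
    simp only
    rw [e, ← two_mul_succ_bound]
    exact (abs_add_le _ _).trans (add_le_add h1 h2)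

theorem CompReal.neg {f : α → ℝ} (hf : CompReal f) : CompReal (fun a => - f a) := by
  obtain ⟨A, hA, h⟩ := hf
  refine ⟨fun p => - A p, cRatNeg hA, fun b n => ?_⟩
  have e : - f b - ((- A (b, n) : ℚ) : ℝ) = - (f b - A (b, n)) := by push_cast; ring
  simp only
  rw [e, abs_neg]
  exact h b n

theorem CompReal.sub {f g : α → ℝ} (hf : CompReal f) (hg : CompReal g) :
    CompReal (fun a => f a - g a) :=
  (hf.add hg.neg).of_eq fun a => (sub_eq_add_neg _ _).symm

theorem CompReal.mul {f g : α → ℝ} (hf : CompReal f) (hg : CompReal g) :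
    CompReal (fun a => f a * g a) := by
  obtain ⟨A, hA, h⟩ := hf
  obtain ⟨B, hB, k⟩ := hg
  -- magnitude bound, read from precision-zero approximations
  let M : α → ℕ := fun a => qBd (A (a, 0)) + qBd (B (a, 0)) + 2
  have hM : Computable M := by
    refine cNatAdd (cNatAdd (cQBd (hA.comp (Computable.id.pair (Computable.const 0))))
      (cQBd (hB.comp (Computable.id.pair (Computable.const 0))))) (Computable.const 2)
  let N : α × ℕ → ℕ := fun p => (2 * M p.1 + 1) * (p.2 + 1)
  have hN : Computable N := by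
    refine cNatMul (cNatAdd (cNatMul (Computable.const 2) (hM.comp Computable.fst)) (Computable.const 1))
      (cNatAdd Computable.snd (Computable.const 1))
  refine ⟨fun p => A (p.1, N p) * B (p.1, N p), ?_, fun a n => ?_⟩
  · exact cRatMul (hA.comp (Computable.fst.pair hN)) (hB.comp (Computable.fst.pair hN))
  · simp only
    set n' := N (a, n) with hn'
    have hMf : |f a| ≤ M a := by
      have h0 := h a 0
      have h1 := abs_le_qBd (A (a, 0))
      simp only [Nat.cast_zero, zero_add, div_one] at h0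
      have : |f a| ≤ |f a - (A (a, 0) : ℝ)| + |(A (a, 0) : ℝ)| := by
        have := abs_add_le (f a - (A (a, 0) : ℝ)) (A (a, 0) : ℝ)
        simpa using this
      simp only [M]
      push_cast
      have h3 : (0:ℝ) ≤ qBd (B (a, 0)) := Nat.cast_nonneg _
      linarith
    have hMg : |g a| ≤ M a := by
      have h0 := k a 0
      have h1 := abs_le_qBd (B (a, 0))
      simp only [Nat.cast_zero, zero_add, div_one] at h0
      have : |g a| ≤ |g a - (B (a, 0) : ℝ)| + |(B (a, 0) : ℝ)| := by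
        have := abs_add_le (g a - (B (a, 0) : ℝ)) (B (a, 0) : ℝ)
        simpa using this
      simp only [M]
      push_cast
      have h3 : (0:ℝ) ≤ qBd (A (a, 0)) := Nat.cast_nonneg _
      linarith
    set ε : ℝ := 1 / ((n' : ℝ) + 1) with hε
    have hε0 : 0 < ε := by positivity
    have hε1 : ε ≤ 1 := by
      rw [hε, div_le_one (by positivity)]
      have : (0:ℝ) ≤ n' := Nat.cast_nonneg _
      linarith
    have h1 := h a n'
    have h2 := k a n'
    have hAa : |(A (a, n') : ℝ)| ≤ M a + ε := by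
      have : |(A (a, n') : ℝ)| ≤ |f a| + |f a - (A (a, n') : ℝ)| := by
        have := abs_sub_abs_le_abs_sub (A (a, n') : ℝ) (f a)
        rw [abs_sub_comm] at this
        linarith
      linarith
    have e : f a * g a - ((A (a, n') * B (a, n') : ℚ) : ℝ)
        = (f a - A (a, n')) * g a + (A (a, n') : ℝ) * (g a - B (a, n')) := by
      push_cast; ring
    rw [e]
    have hM0 : (0:ℝ) ≤ M a := Nat.cast_nonneg _
    have step : |(f a - (A (a, n') : ℝ)) * g a + (A (a, n') : ℝ) * (g a - B (a, n'))|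
        ≤ ε * M a + (M a + ε) * ε := by
      refine (abs_add_le _ _).trans (add_le_add ?_ ?_)
      · rw [abs_mul]
        exact mul_le_mul h1 hMg (abs_nonneg _) hε0.le
      · rw [abs_mul]
        exact mul_le_mul hAa h2 (abs_nonneg _) (by linarith)
    refine step.trans ?_
    -- `ε * (2 M + 1) ≤ 1 / (n + 1)`
    have hN' : (n' : ℝ) + 1 ≥ (2 * (M a : ℝ) + 1) * ((n : ℝ) + 1) := by
      have : ((n' : ℕ) : ℝ) = (2 * (M a : ℝ) + 1) * ((n : ℝ) + 1) := by
        simp only [hn', N]
        push_cast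
        ring
      linarith
    have hfin : ε * (2 * (M a : ℝ) + 1) ≤ 1 / ((n : ℝ) + 1) := by
      rw [hε, div_mul_eq_mul_div, one_mul, div_le_div_iff₀ (by positivity) (by positivity)]
      nlinarith
    nlinarith

theorem CompReal.const (c : ℚ) : CompReal (fun _ : α => (c : ℝ)) :=
  CompReal.ofRat (Computable.const c)

/-! ### The Fabius tower is computably approximable -/

/-- The code-level rational approximation of `fabD m q`. -/
noncomputable def fabApprox (m : ℕ) (q : ℚ) (n : ℕ) : ℚ :=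
  let M := fabK m n + m
  let N := fabK m n + 1
  ofCode (2 ^ (M * (M + 3) / 2) * natS M N (qP q) (qM q) (qD q) (shiftL M).1,
    2 ^ (M * (M + 3) / 2) * natS M N (qP q) (qM q) (qD q) (shiftL M).2,
    2 ^ (M * N) * N.factorial * (qD q) ^ N - 1)

lemma rat_cast_code (q : ℚ) : (q : ℝ) = ((qP q : ℝ) - qM q) / qD q := by
  conv_lhs => rw [rat_eq_code q]
  push_cast
  rfl

lemma fabApprox_spec (m : ℕ) (q : ℚ) (n : ℕ) :
    |fabD m (q : ℝ) - (fabApprox m q n : ℝ)| ≤ 1 / ((n : ℝ) + 1) := by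
  have h := fabD_approx m n (q : ℝ)
  have e : gF (fabK m n + m) (fabK m n + 1) (q : ℝ) = (fabApprox m q n : ℝ) := by
    rw [rat_cast_code q, gF_nat _ _ _ _ _ (qD_pos q)]
    simp only [fabApprox, ofCode]
    set M := fabK m n + m
    set N := fabK m n + 1
    have hpos : 1 ≤ 2 ^ (M * N) * N.factorial * (qD q) ^ N := by
      have h1 : 0 < 2 ^ (M * N) := by positivity
      have h2 : 0 < N.factorial := N.factorial_pos
      have h3 : 0 < (qD q) ^ N := pow_pos (qD_pos q) _
      exact Nat.mul_pos (Nat.mul_pos h1 h2) h3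
    have hc : (((2 ^ (M * N) * N.factorial * (qD q) ^ N - 1 : ℕ) : ℚ) + 1)
        = ((2 ^ (M * N) * N.factorial * (qD q) ^ N : ℕ) : ℚ) := by
      rw [Nat.cast_sub hpos]
      simp
    rw [hc]
    push_cast
    rfl
  rwa [e] at h

abbrev P5 := ℕ × ℕ × ℕ × ℕ × ℕ

def natFT (t : P5 × ℕ) : ℕ := natF t.1.1 t.1.2.1 t.1.2.2.1 t.1.2.2.2.1 t.1.2.2.2.2 t.2

lemma primrec_natFT : Primrec natFT := by
  have hM : Primrec (fun t : P5 × ℕ => t.1.1) := Primrec.fst.comp Primrec.fst
  have hN : Primrec (fun t : P5 × ℕ => t.1.2.1) :=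
    Primrec.fst.comp (Primrec.snd.comp Primrec.fst)
  have hp : Primrec (fun t : P5 × ℕ => t.1.2.2.1) :=
    Primrec.fst.comp (Primrec.snd.comp (Primrec.snd.comp Primrec.fst))
  have hm : Primrec (fun t : P5 × ℕ => t.1.2.2.2.1) :=
    Primrec.fst.comp (Primrec.snd.comp (Primrec.snd.comp (Primrec.snd.comp Primrec.fst)))
  have hD : Primrec (fun t : P5 × ℕ => t.1.2.2.2.2) :=
    Primrec.snd.comp (Primrec.snd.comp (Primrec.snd.comp (Primrec.snd.comp Primrec.fst)))
  have hj : Primrec (fun t : P5 × ℕ => t.2) := Primrec.snd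
  have h2M : Primrec (fun t : P5 × ℕ => 2 ^ t.1.1) :=
    primrec_nat_pow.comp (Primrec.const 2) hM
  exact primrec_nat_pow.comp
    (Primrec.nat_sub.comp (Primrec.nat_mul.comp h2M hp)
      (Primrec.nat_add.comp (Primrec.nat_mul.comp h2M hm) (Primrec.nat_mul.comp hj hD))) hN

def natST (t : P5 × List ℕ) : ℕ := natS t.1.1 t.1.2.1 t.1.2.2.1 t.1.2.2.2.1 t.1.2.2.2.2 t.2

lemma natST_eq (t : P5 × List ℕ) : natST t = t.2.foldr (fun j s => natFT (t.1, j) + s) 0 := by
  obtain ⟨p, L⟩ := t
  induction L with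
  | nil => rfl
  | cons a L ih =>
    simp only [List.foldr_cons]
    rw [← ih]
    simp only [natST, natS, List.map_cons, List.sum_cons, natFT]

lemma primrec_natST : Primrec natST := by
  have h1 : Primrec (fun u : (P5 × List ℕ) × (ℕ × ℕ) => ((u.1.1, u.2.1) : P5 × ℕ)) :=
    (Primrec.fst.comp Primrec.fst).pair (Primrec.fst.comp Primrec.snd)
  have h2 : Primrec (fun u : (P5 × List ℕ) × (ℕ × ℕ) => natFT (u.1.1, u.2.1)) := primrec_natFT.comp h1
  have h : Primrec₂ (fun (t : P5 × List ℕ) (x : ℕ × ℕ) => natFT (t.1, x.1) + x.2) :=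
    Primrec.nat_add.comp h2 (Primrec.snd.comp Primrec.snd)
  exact (Primrec.list_foldr (f := fun t : P5 × List ℕ => t.2)
    (g := fun _ => 0) Primrec.snd (Primrec.const 0) h).of_eq fun t => (natST_eq t).symm

lemma primrec_shiftL : Primrec shiftL := by
  have hf : Primrec₂ (fun (M : ℕ) (IH : List ℕ × List ℕ) =>
      (IH.1 ++ IH.2.map (· + 2 ^ M), IH.2 ++ IH.1.map (· + 2 ^ M))) := by
    have hadd : Primrec₂ (fun (u : ℕ × (List ℕ × List ℕ)) (j : ℕ) => j + 2 ^ u.1) :=
      Primrec.nat_add.comp Primrec.snd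
        (primrec_nat_pow.comp (Primrec.const 2) (Primrec.fst.comp Primrec.fst))
    have hP : Primrec (fun u : ℕ × (List ℕ × List ℕ) => u.2.1) := Primrec.fst.comp Primrec.snd
    have hQ : Primrec (fun u : ℕ × (List ℕ × List ℕ) => u.2.2) := Primrec.snd.comp Primrec.snd
    exact (Primrec.list_append.comp hP (Primrec.list_map hQ hadd)).pair
      (Primrec.list_append.comp hQ (Primrec.list_map hP hadd))
  refine (Primrec.nat_rec₁ (([0], [1]) : List ℕ × List ℕ) hf).of_eq fun M => ?_
  induction M with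
  | zero => rfl
  | succ M ih =>
    change (fun (M : ℕ) (IH : List ℕ × List ℕ) =>
      (IH.1 ++ IH.2.map (· + 2 ^ M), IH.2 ++ IH.1.map (· + 2 ^ M))) M (Nat.rec _ _ M) = _
    rw [ih]
    rfl

lemma primrec_factorial : Primrec Nat.factorial := by
  have hf : Primrec₂ (fun (n IH : ℕ) => (n + 1) * IH) :=
    Primrec.nat_mul.comp (Primrec.nat_add.comp Primrec.fst (Primrec.const 1)) Primrec.snd
  refine (Primrec.nat_rec₁ (1 : ℕ) hf).of_eq fun M => ?_
  induction M with
  | zero => rfl
  | succ M ih =>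
    change (M + 1) * (Nat.rec _ _ M) = _
    rw [ih, Nat.factorial_succ]

lemma computable_fabK : Computable (fun p : ℕ × ℕ => fabK p.1 p.2) :=
  cNatAdd (cNatAdd (cNatPow (cNatAdd Computable.fst (Computable.const 1)) (Computable.const 2))
    Computable.snd) (Computable.const 2)

lemma computable_fabApprox : Computable (fun p : (ℕ × ℚ) × ℕ => fabApprox p.1.1 p.1.2 p.2) := by
  have hm : Computable (fun p : (ℕ × ℚ) × ℕ => p.1.1) := cFst Computable.fst
  have hq : Computable (fun p : (ℕ × ℚ) × ℕ => p.1.2) := cSnd Computable.fst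
  have hn : Computable (fun p : (ℕ × ℚ) × ℕ => p.2) := Computable.snd
  have hK : Computable (fun p : (ℕ × ℚ) × ℕ => fabK p.1.1 p.2) :=
    (computable_fabK.comp (hm.pair hn)).of_eq fun _ => rfl
  have hMM : Computable (fun p : (ℕ × ℚ) × ℕ => fabK p.1.1 p.2 + p.1.1) := cNatAdd hK hm
  have hNN : Computable (fun p : (ℕ × ℚ) × ℕ => fabK p.1.1 p.2 + 1) := cNatAdd hK (Computable.const 1)
  have hP : Computable (fun p : (ℕ × ℚ) × ℕ => qP p.1.2) := computable_qP.comp hq
  have hQ : Computable (fun p : (ℕ × ℚ) × ℕ => qM p.1.2) := computable_qM.comp hq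
  have hD : Computable (fun p : (ℕ × ℚ) × ℕ => qD p.1.2) := computable_qD.comp hq
  have hE : Computable (fun p : (ℕ × ℚ) × ℕ =>
      2 ^ ((fabK p.1.1 p.2 + p.1.1) * ((fabK p.1.1 p.2 + p.1.1) + 3) / 2)) :=
    cNatPow (Computable.const 2) (cNatDiv (cNatMul hMM (cNatAdd hMM (Computable.const 3))) (Computable.const 2))
  have hTup : Computable (fun p : (ℕ × ℚ) × ℕ => ((fabK p.1.1 p.2 + p.1.1, fabK p.1.1 p.2 + 1, qP p.1.2, qM p.1.2, qD p.1.2) : P5)) :=
    hMM.pair (hNN.pair (hP.pair (hQ.pair hD)))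
  have hL : Computable (fun p : (ℕ × ℚ) × ℕ => shiftL (fabK p.1.1 p.2 + p.1.1)) :=
    primrec_shiftL.to_comp.comp hMM
  have hS1 : Computable (fun p : (ℕ × ℚ) × ℕ => natST ((fabK p.1.1 p.2 + p.1.1, fabK p.1.1 p.2 + 1, qP p.1.2, qM p.1.2, qD p.1.2),
      (shiftL (fabK p.1.1 p.2 + p.1.1)).1)) :=
    primrec_natST.to_comp.comp (hTup.pair (cFst hL))
  have hS2 : Computable (fun p : (ℕ × ℚ) × ℕ => natST ((fabK p.1.1 p.2 + p.1.1, fabK p.1.1 p.2 + 1, qP p.1.2, qM p.1.2, qD p.1.2),
      (shiftL (fabK p.1.1 p.2 + p.1.1)).2)) :=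
    primrec_natST.to_comp.comp (hTup.pair (cSnd hL))
  have hfin := cCode (cNatMul hE hS1) (cNatMul hE hS2)
    (cNatSub (cNatMul (cNatMul (cNatPow (Computable.const 2) (cNatMul hMM hNN))
      (primrec_factorial.to_comp.comp hNN)) (cNatPow hD hNN)) (Computable.const 1))
  refine hfin.of_eq fun p => ?_
  simp only [fabApprox, natST]

/-- The whole Fabius tower is computably approximable at rationals. -/
theorem compReal_fabD : CompReal (fun p : ℕ × ℚ => fabD p.1 (p.2 : ℝ)) :=
  ⟨fun x => fabApprox x.1.1 x.1.2 x.2, computable_fabApprox, fun a n => fabApprox_spec a.1 a.2 n⟩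

end Crest.Agent.Lib.BoxFlow
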