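import Crest.Agent.Lib.BoxFlow.Track

/-!
# Configurations of boxes and moves between them
-/

set_option autoImplicit false
open scoped ContDiff

namespace Crest.Agent.BF

open Set
open Crest.AnalysisR.BoxFlow
open Crest.Agent.Lib.BoxFlow

/-- A configuration of boxes. -/
structure Cfg (n : ℕ) where
  c : Fin n → Fin 3 → ℚ
  h : Fin n → Fin 3 → ℚ
  pos : ∀ i j, 0 < h i j

/-- The affine map taking one box to another. -/
noncomputable def aff (c h c' h' : Fin 3 → ℚ) (x : E3) : E3 :=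
  fun j => (c' j : ℝ) + ((h' j / h j : ℚ) : ℝ) * (x j - (c j : ℝ))

theorem aff_apply (c h c' h' : Fin 3 → ℚ) (x : E3) (j : Fin 3) :
    aff c h c' h' x j = (c' j : ℝ) + ((h' j / h j : ℚ) : ℝ) * (x j - (c j : ℝ)) := rfl

theorem aff_self {c h : Fin 3 → ℚ} (hh : ∀ j, 0 < h j) (x : E3) : aff c h c h x = x := by
  funext j
  have : h j / h j = 1 := div_self (hh j).ne'
  simp [aff, this]

theorem aff_comp {c h c' h' c'' h'' : Fin 3 → ℚ} (hh : ∀ j, 0 < h j) (hh' : ∀ j, 0 < h' j) (x : E3) :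
    aff c' h' c'' h'' (aff c h c' h' x) = aff c h c'' h'' x := by
  funext j
  simp only [aff]
  have h1 : (h j : ℝ) ≠ 0 := by exact_mod_cast (hh j).ne'
  have h2 : (h' j : ℝ) ≠ 0 := by exact_mod_cast (hh' j).ne'
  push_cast
  field_simp
  ring

theorem aff_continuous (c h c' h' : Fin 3 → ℚ) : Continuous (aff c h c' h') := by
  refine continuous_pi fun j => ?_
  simp only [aff]
  fun_prop

theorem aff_mem_box {c h c' h' : Fin 3 → ℚ} (hh : ∀ j, 0 < h j) (hh' : ∀ j, 0 < h' j) {x : E3}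
    (hx : x ∈ box c h) : aff c h c' h' x ∈ box c' h' := by
  intro j
  have h1 : (0 : ℝ) < h j := by exact_mod_cast hh j
  have h2 : (0 : ℝ) < h' j := by exact_mod_cast hh' j
  have hxj := hx j
  simp only [aff, add_sub_cancel_left]
  push_cast
  rw [abs_mul, abs_of_pos (div_pos h2 h1)]
  calc (h' j : ℝ) / h j * |x j - (c j : ℝ)| ≤ (h' j : ℝ) / h j * h j :=
        mul_le_mul_of_nonneg_left hxj (div_pos h2 h1).le
    _ = h' j := by field_simp

/-- Moves between configurations, realised by a list of steps. -/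
def Moves {n : ℕ} (A B : Cfg n) : Prop :=
  ∃ L : List StepData, ∀ i, ∃ O : Set E3, IsOpen O ∧ box (A.c i) (A.h i) ⊆ O ∧
    ∀ x ∈ O, TrackOK L x ∧ runL L x = aff (A.c i) (A.h i) (B.c i) (B.h i) x

theorem Moves.refl {n : ℕ} (A : Cfg n) : Moves A A := by
  refine ⟨[], fun i => ⟨univ, isOpen_univ, subset_univ _, fun x _ => ⟨trivial, ?_⟩⟩⟩
  exact (aff_self (A.pos i) x).symm

theorem Moves.trans {n : ℕ} {A B C : Cfg n} (h₁ : Moves A B) (h₂ : Moves B C) : Moves A C := by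
  obtain ⟨L₁, h₁⟩ := h₁
  obtain ⟨L₂, h₂⟩ := h₂
  refine ⟨L₁ ++ L₂, fun i => ?_⟩
  obtain ⟨O₁, hO₁, hb₁, hx₁⟩ := h₁ i
  obtain ⟨O₂, hO₂, hb₂, hx₂⟩ := h₂ i
  refine ⟨O₁ ∩ aff (A.c i) (A.h i) (B.c i) (B.h i) ⁻¹' O₂,
    hO₁.inter (hO₂.preimage (aff_continuous _ _ _ _)), fun x hx => ⟨hb₁ hx, ?_⟩, fun x hx => ?_⟩
  · exact hb₂ (aff_mem_box (A.pos i) (B.pos i) hx)
  · obtain ⟨h1, h2⟩ := hx₁ x hx.1
    have hy : runL L₁ x ∈ O₂ := by rw [h2]; exact hx.2
    obtain ⟨h3, h4⟩ := hx₂ _ hy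
    refine ⟨trackOK_append _ _ _ h1 h3, ?_⟩
    rw [runL_append, h4, h2, aff_comp (A.pos i) (B.pos i)]

theorem Moves.symm {n : ℕ} {A B : Cfg n} (h : Moves A B) : Moves B A := by
  obtain ⟨L, h⟩ := h
  refine ⟨revL L, fun i => ?_⟩
  obtain ⟨O, hO, hb, hx⟩ := h i
  refine ⟨aff (B.c i) (B.h i) (A.c i) (A.h i) ⁻¹' O, hO.preimage (aff_continuous _ _ _ _),
    fun x hxb => hb (aff_mem_box (B.pos i) (A.pos i) hxb), fun y hy => ?_⟩
  obtain ⟨h1, h2⟩ := hx _ hy
  have e : aff (A.c i) (A.h i) (B.c i) (B.h i) (aff (B.c i) (B.h i) (A.c i) (A.h i) y) = y := by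
    rw [aff_comp (B.pos i) (A.pos i), aff_self (B.pos i)]
  rw [e] at h2
  have := trackOK_rev L _ h1
  rw [h2] at this
  exact this

/-! ### Cleanliness -/

theorem clean_of_flat {s : StepData} {x : E3} (h1 : ∀ i, (s.lo i : ℝ) ≤ x i ∧ x i ≤ s.hi i)
    (h2 : ∀ i, (s.lo i : ℝ) ≤ (x + (Pi.single s.k ((s.α : ℝ) + s.a * x s.l) : E3)) i ∧
      (x + (Pi.single s.k ((s.α : ℝ) + s.a * x s.l) : E3)) i ≤ s.hi i) :
    Clean s x ∧ stepV s x = Pi.single s.k ((s.α : ℝ) + s.a * x s.l) := by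
  have hV := stepV_flat h1
  refine ⟨fun r hr => ?_, hV⟩
  rw [hV]
  set w : ℝ := (s.α : ℝ) + s.a * x s.l with hw
  have hy : ∀ i, (x + r • (Pi.single s.k w : E3)) i = x i + r * (Pi.single s.k w : E3) i := by
    intro i; simp
  have hl : (x + r • (Pi.single s.k w : E3)) s.l = x s.l := by
    rw [hy, Pi.single_eq_of_ne s.hkl.symm]; simp
  have hflat : ∀ i, (s.lo i : ℝ) ≤ (x + r • (Pi.single s.k w : E3)) i ∧
      (x + r • (Pi.single s.k w : E3)) i ≤ s.hi i := by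
    intro i
    rw [hy]
    have h1i := h1 i
    have h2i := h2 i
    simp only [Pi.add_apply] at h2i
    set v := (Pi.single s.k w : E3) i
    have hr0 := hr.1
    have hr1 := hr.2
    constructor
    · nlinarith [h1i.1, h2i.1]
    · nlinarith [h1i.2, h2i.2]
  rw [stepV_flat hflat, hl]

theorem clean_of_zero {s : StepData} {x : E3} (h : stepV s x = 0) : Clean s x := by
  intro r _
  rw [h]; simp [h]

/-- Points far from the support of a list of steps do not move. -/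
theorem track_of_out {L : List StepData} {x : E3}
    (h : ∀ s ∈ L, ∃ i, x i ≤ (s.lo i : ℝ) - 1 / (s.c : ℝ) ∨ (s.hi i : ℝ) + 1 / (s.c : ℝ) ≤ x i) :
    TrackOK L x ∧ runL L x = x := by
  induction L with
  | nil => exact ⟨trivial, rfl⟩
  | cons s L ih =>
    have h0 : stepV s x = 0 := stepV_zero (h s (by simp))
    obtain ⟨h1, h2⟩ := ih fun s' hs' => h s' (by simp [hs'])
    refine ⟨⟨clean_of_zero h0, ?_⟩, ?_⟩
    · rw [h0, add_zero]; exact h1
    · show runL L (x + stepV s x) = x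
      rw [h0, add_zero]; exact h2

/-! ### One-box moves -/

/-- The open set of points away from the rational box `[lo,hi]` by more than `ε`. -/
def outSet (lo hi : Fin 3 → ℚ) (ε : ℚ) : Set E3 :=
  {x | ∃ j, x j < (lo j : ℝ) - ε ∨ (hi j : ℝ) + ε < x j}

theorem isOpen_outSet (lo hi : Fin 3 → ℚ) (ε : ℚ) : IsOpen (outSet lo hi ε) := by
  have : outSet lo hi ε = ⋃ j, ({x : E3 | x j < (lo j : ℝ) - ε} ∪ {x : E3 | (hi j : ℝ) + ε < x j}) := by
    ext x; simp [outSet]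
  rw [this]
  refine isOpen_iUnion fun j => IsOpen.union ?_ ?_
  · exact isOpen_lt (continuous_apply j) continuous_const
  · exact isOpen_lt continuous_const (continuous_apply j)

theorem exists_pos_forall {ι : Type*} [Finite ι] {P : ι → ℚ → Prop}
    (h : ∀ i, ∃ ε : ℚ, 0 < ε ∧ ∀ δ, 0 < δ → δ ≤ ε → P i δ) : ∃ ε : ℚ, 0 < ε ∧ ∀ i, P i ε := by
  choose e he hP using h
  rcases isEmpty_or_nonempty ι with hι | hι
  · exact ⟨1, one_pos, fun i => (hι.false i).elim⟩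
  · obtain ⟨i₀, hi₀⟩ := Finite.exists_min e
    exact ⟨e i₀, he i₀, fun i => hP i _ (he i₀) (hi₀ i)⟩

/-- The general one-box move. -/
theorem move_one_box {n : ℕ} {A B : Cfg n} (i₀ : Fin n) (L : List StepData) (lo hi : Fin 3 → ℚ)
    (ε : ℚ) (hL : ∀ s ∈ L, s.lo = lo ∧ s.hi = hi ∧ 1 / s.c = ε)
    (hother : ∀ m, m ≠ i₀ → ∃ j, A.c m j + A.h m j < lo j - ε ∨ hi j + ε < A.c m j - A.h m j)
    (hsame : ∀ m, m ≠ i₀ → B.c m = A.c m ∧ B.h m = A.h m)
    (hmoved : ∃ O : Set E3, IsOpen O ∧ box (A.c i₀) (A.h i₀) ⊆ O ∧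
      ∀ x ∈ O, TrackOK L x ∧ runL L x = aff (A.c i₀) (A.h i₀) (B.c i₀) (B.h i₀) x) :
    Moves A B := by
  refine ⟨L, fun i => ?_⟩
  by_cases hi₀ : i = i₀
  · subst hi₀; exact hmoved
  refine ⟨outSet lo hi ε, isOpen_outSet _ _ _, fun x hx => ?_, fun x hx => ?_⟩
  · obtain ⟨j, hj⟩ := hother i hi₀
    refine ⟨j, ?_⟩
    have hxj := abs_le.1 (hx j)
    rcases hj with hj | hj
    · left
      have : ((A.c i j + A.h i j : ℚ) : ℝ) < ((lo j - ε : ℚ) : ℝ) := by exact_mod_cast hj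
      push_cast at this
      linarith [hxj.2]
    · right
      have : ((hi j + ε : ℚ) : ℝ) < ((A.c i j - A.h i j : ℚ) : ℝ) := by exact_mod_cast hj
      push_cast at this
      linarith [hxj.1]
  · obtain ⟨e1, e2⟩ := hsame i hi₀
    rw [e1, e2, aff_self (A.pos i)]
    refine track_of_out fun s hs => ?_
    obtain ⟨hlo, hhi, hc⟩ := hL s hs
    obtain ⟨j, hj⟩ := hx
    have hc' : (1 : ℝ) / (s.c : ℝ) = ε := by
      rw [← hc]; push_cast; rfl
    refine ⟨j, ?_⟩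
    rw [hlo, hhi, hc']
    rcases hj with hj | hj
    · exact Or.inl hj.le
    · exact Or.inr hj.le

end Crest.Agent.BF
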