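import Mathlib

/-!
# The smooth step `Real.smoothTransition`: derivative bounds and closed form
-/

set_option autoImplicit false

namespace Crest.Agent.BF

open Real
open scoped ContDiff

noncomputable section

/-- The smooth step. -/
abbrev S : ℝ → ℝ := Real.smoothTransition

theorem S_contDiff : ContDiff ℝ ∞ S := Real.smoothTransition.contDiff

theorem S_contDiff' (n : ℕ) : ContDiff ℝ n S := S_contDiff.of_le (by exact_mod_cast le_top)

theorem iteratedDeriv_S_continuous (m : ℕ) : Continuous (iteratedDeriv m S) :=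
  S_contDiff.continuous_iteratedDeriv m (by exact_mod_cast le_top)

theorem iteratedDeriv_S_differentiable (m : ℕ) : Differentiable ℝ (iteratedDeriv m S) :=
  S_contDiff.differentiable_iteratedDeriv m (by exact_mod_cast WithTop.coe_lt_top _)

/-- Formula on `(0,1)`. -/
theorem S_eq_on {x : ℝ} (h0 : 0 < x) (h1 : x < 1) :
    S x = exp (-x⁻¹) / (exp (-x⁻¹) + exp (-(1 - x)⁻¹)) := by
  have h2 : 0 < 1 - x := by linarith
  have e1 : expNegInvGlue x = exp (-x⁻¹) := by simp [expNegInvGlue, not_le.2 h0]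
  have e2 : expNegInvGlue (1 - x) = exp (-(1 - x)⁻¹) := by simp [expNegInvGlue, not_le.2 h2]
  simp only [S, Real.smoothTransition, e1, e2]

theorem one_sub_S_eq_on {x : ℝ} (h0 : 0 < x) (h1 : x < 1) :
    1 - S x = exp (-(1 - x)⁻¹) / (exp (-x⁻¹) + exp (-(1 - x)⁻¹)) := by
  rw [S_eq_on h0 h1]
  have : 0 < exp (-x⁻¹) + exp (-(1 - x)⁻¹) := by positivity
  field_simp
  ring

theorem S_pos {x : ℝ} (h0 : 0 < x) : 0 < S x := Real.smoothTransition.pos_of_pos h0
theorem S_lt_one {x : ℝ} (h1 : x < 1) : S x < 1 := Real.smoothTransition.lt_one_of_lt_one h1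
theorem S_nonneg (x : ℝ) : 0 ≤ S x := Real.smoothTransition.nonneg x
theorem S_le_one (x : ℝ) : S x ≤ 1 := Real.smoothTransition.le_one x
theorem S_of_nonpos {x : ℝ} (h : x ≤ 0) : S x = 0 := Real.smoothTransition.zero_of_nonpos h
theorem S_of_one_le {x : ℝ} (h : 1 ≤ x) : S x = 1 := Real.smoothTransition.one_of_one_le h

/-- Derivatives of the ingredients on `(0,1)`. -/
theorem hasDerivAt_u {x : ℝ} (h0 : 0 < x) : HasDerivAt (fun y : ℝ => y⁻¹) (-(x⁻¹) ^ 2) x := by
  have := hasDerivAt_inv h0.ne'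
  refine this.congr_deriv ?_
  rw [inv_pow]

theorem hasDerivAt_v {x : ℝ} (h1 : x < 1) :
    HasDerivAt (fun y : ℝ => (1 - y)⁻¹) (((1 - x)⁻¹) ^ 2) x := by
  have h2 : 1 - x ≠ 0 := (sub_pos.2 h1).ne'
  have hb : HasDerivAt (fun y : ℝ => 1 - y) (-1) x := by
    simpa using (hasDerivAt_id x).const_sub 1
  have := hb.fun_inv h2
  refine this.congr_deriv ?_
  rw [inv_pow]; ring

theorem hasDerivAt_S {x : ℝ} (h0 : 0 < x) (h1 : x < 1) :
    HasDerivAt S (S x * (1 - S x) * ((x⁻¹) ^ 2 + ((1 - x)⁻¹) ^ 2)) x := by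
  have hu := hasDerivAt_u h0
  have hv := hasDerivAt_v h1
  have hA : HasDerivAt (fun y : ℝ => exp (-y⁻¹)) (exp (-x⁻¹) * (x⁻¹) ^ 2) x := by
    have := (hu.fun_neg).exp
    refine this.congr_deriv ?_
    ring
  have hB : HasDerivAt (fun y : ℝ => exp (-(1 - y)⁻¹)) (exp (-(1 - x)⁻¹) * (-((1 - x)⁻¹) ^ 2)) x :=
    (hv.fun_neg).exp
  have hden : exp (-x⁻¹) + exp (-(1 - x)⁻¹) ≠ 0 := by positivity
  have hq := hA.fun_div (hA.fun_add hB) hden
  have hev : S =ᶠ[nhds x] (fun y : ℝ => exp (-y⁻¹) / (exp (-y⁻¹) + exp (-(1 - y)⁻¹))) := by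
    have : Set.Ioo (0 : ℝ) 1 ∈ nhds x := Ioo_mem_nhds h0 h1
    filter_upwards [this] with y hy
    exact S_eq_on hy.1 hy.2
  have hq' := hq.congr_of_eventuallyEq hev
  refine hq'.congr_deriv ?_
  rw [one_sub_S_eq_on h0 h1, S_eq_on h0 h1]
  field_simp
  ring

/-! ### Monomials in `u = 1/x`, `v = 1/(1-x)`, `s = S x`, `t = 1 - S x` -/

/-- A monomial `c u^a v^b s^e t^f`. -/
abbrev Mono := ℝ × ℕ × ℕ × ℕ × ℕ

/-- Evaluation of a monomial. -/
def evMono (M : Mono) (x : ℝ) : ℝ :=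
  M.1 * (x⁻¹) ^ M.2.1 * ((1 - x)⁻¹) ^ M.2.2.1 * (S x) ^ M.2.2.2.1 * (1 - S x) ^ M.2.2.2.2

/-- Evaluation of a list of monomials. -/
def evL (l : List Mono) (x : ℝ) : ℝ := (l.map fun M => evMono M x).sum

/-- The formal derivative of a monomial. -/
def DMono (M : Mono) : List Mono :=
  match M with
  | (c, a, b, e, f) =>
    [(-(c * a), a + 1, b, e, f), (c * b, a, b + 1, e, f),
      (c * e, a + 2, b, e, f + 1), (c * e, a, b + 2, e, f + 1),
      (-(c * f), a + 2, b, e + 1, f), (-(c * f), a, b + 2, e + 1, f)]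

theorem hasDerivAt_evMono (M : Mono) {x : ℝ} (h0 : 0 < x) (h1 : x < 1) :
    HasDerivAt (evMono M) (evL (DMono M) x) x := by
  obtain ⟨c, a, b, e, f⟩ := M
  have hu := (hasDerivAt_u h0).fun_pow a
  have hv := (hasDerivAt_v h1).fun_pow b
  have hs := (hasDerivAt_S h0 h1).fun_pow e
  have ht := ((hasDerivAt_S h0 h1).const_sub 1).fun_pow f
  have := (((hu.const_mul c).fun_mul hv).fun_mul hs).fun_mul ht
  refine this.congr_deriv ?_
  simp only [evL, DMono, evMono, List.map_cons, List.map_nil, List.sum_cons, List.sum_nil]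
  set U := x⁻¹
  set V := (1 - x)⁻¹
  set s := S x
  rcases a with _ | a <;> rcases b with _ | b <;> rcases e with _ | e <;> rcases f with _ | f <;>
    simp only [Nat.add_sub_cancel, Nat.cast_add, Nat.cast_one, Nat.cast_zero, pow_zero, zero_add,
      Nat.zero_sub] <;> ring

theorem evL_append (l₁ l₂ : List Mono) (x : ℝ) : evL (l₁ ++ l₂) x = evL l₁ x + evL l₂ x := by
  simp [evL]

theorem evL_cons (M : Mono) (l : List Mono) (x : ℝ) : evL (M :: l) x = evMono M x + evL l x := by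
  simp [evL]

theorem hasDerivAt_evL (l : List Mono) {x : ℝ} (h0 : 0 < x) (h1 : x < 1) :
    HasDerivAt (evL l) (evL (l.flatMap DMono) x) x := by
  induction l with
  | nil =>
    have e : evL ([] : List Mono) = fun _ => (0 : ℝ) := by
      funext y; simp [evL]
    rw [List.flatMap_nil, e]
    simpa using hasDerivAt_const x (0 : ℝ)
  | cons M l ih =>
    have h := (hasDerivAt_evMono M h0 h1).fun_add ih
    have e : evL (M :: l) = fun y => evMono M y + evL l y := by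
      funext y; simp [evL_cons]
    rw [e, List.flatMap_cons, evL_append]
    exact h

/-- Weight of a list of monomials. -/
def wt (l : List Mono) : ℝ := (l.map fun M => |M.1|).sum

theorem wt_append (l₁ l₂ : List Mono) : wt (l₁ ++ l₂) = wt l₁ + wt l₂ := by simp [wt]

theorem wt_nonneg (l : List Mono) : 0 ≤ wt l := by
  induction l with
  | nil => simp [wt]
  | cons M l ih =>
    have : wt (M :: l) = |M.1| + wt l := by simp [wt]
    rw [this]; positivity

/-- The shape constraint on monomials. -/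
def goodM (d : ℕ) (M : Mono) : Prop :=
  M.2.1 + M.2.2.1 ≤ d ∧ 1 ≤ M.2.2.2.1 ∧ 1 ≤ M.2.2.2.2 ∧ M.2.2.2.1 + M.2.2.2.2 ≤ d

theorem good_DMono {d : ℕ} {M : Mono} (h : goodM d M) : ∀ N ∈ DMono M, goodM (d + 2) N := by
  obtain ⟨c, a, b, e, f⟩ := M
  obtain ⟨h1, h2, h3, h4⟩ := h
  simp only at h1 h2 h3 h4
  intro N hN
  simp only [DMono, List.mem_cons, List.not_mem_nil, or_false] at hN
  rcases hN with rfl | rfl | rfl | rfl | rfl | rfl <;>
    refine ⟨?_, ?_, ?_, ?_⟩ <;> simp only <;> omega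

theorem wt_DMono {d : ℕ} {M : Mono} (h : goodM d M) : wt (DMono M) ≤ |M.1| * (3 * d) := by
  obtain ⟨c, a, b, e, f⟩ := M
  obtain ⟨h1, h2, h3, h4⟩ := h
  simp only at h1 h2 h3 h4
  simp only [wt, DMono, List.map_cons, List.map_nil, List.sum_cons, List.sum_nil, abs_neg, abs_mul,
    Nat.abs_cast]
  have h1' : (a : ℝ) + b ≤ d := by exact_mod_cast h1
  have h4' : (e : ℝ) + f ≤ d := by exact_mod_cast h4
  have hc := abs_nonneg c
  nlinarith

theorem wt_flatMap {d : ℕ} {l : List Mono} (h : ∀ M ∈ l, goodM d M) :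
    wt (l.flatMap DMono) ≤ wt l * (3 * d) := by
  induction l with
  | nil => simp [wt]
  | cons M l ih =>
    have h1 : wt (M :: l) = |M.1| + wt l := by simp [wt]
    rw [List.flatMap_cons, wt_append, h1, add_mul]
    exact add_le_add (wt_DMono (h M (by simp))) (ih fun N hN => h N (by simp [hN]))

/-! ### The key pointwise bound -/

theorem S_le_exp {x : ℝ} (h0 : 0 < x) (h1 : x < 1) : S x ≤ exp ((1 - x)⁻¹ - x⁻¹) := by
  rw [S_eq_on h0 h1]
  rw [div_le_iff₀ (by positivity)]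
  have e : exp ((1 - x)⁻¹ - x⁻¹) * exp (-(1 - x)⁻¹) = exp (-x⁻¹) := by
    rw [← exp_add]; congr 1; ring
  have hpos : 0 < exp ((1 - x)⁻¹ - x⁻¹) * exp (-x⁻¹) := by positivity
  nlinarith

theorem one_sub_S_le_exp {x : ℝ} (h0 : 0 < x) (h1 : x < 1) :
    1 - S x ≤ exp (x⁻¹ - (1 - x)⁻¹) := by
  rw [one_sub_S_eq_on h0 h1]
  rw [div_le_iff₀ (by positivity)]
  have e : exp (x⁻¹ - (1 - x)⁻¹) * exp (-x⁻¹) = exp (-(1 - x)⁻¹) := by
    rw [← exp_add]; congr 1; ring
  have hpos : 0 < exp (x⁻¹ - (1 - x)⁻¹) * exp (-(1 - x)⁻¹) := by positivity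
  nlinarith

theorem exp_two_le : exp 2 ≤ 8 := by
  have h : exp 2 = exp 1 * exp 1 := by rw [← exp_add]; norm_num
  have h1 := exp_one_lt_d9
  have h2 := exp_pos 1
  rw [h]; nlinarith

/-- The bound on one monomial without constant. -/
def Kd (d : ℕ) : ℕ := 8 * 2 ^ d * d.factorial

theorem pow_mul_exp_le (a : ℕ) {y : ℝ} (hy : 0 ≤ y) : y ^ a * exp (-y) ≤ a.factorial := by
  have h := Real.pow_div_factorial_le_exp y hy a
  have hf : (0 : ℝ) < a.factorial := by exact_mod_cast a.factorial_pos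
  rw [div_le_iff₀ hf] at h
  have he := exp_pos y
  have : y ^ a * exp (-y) * exp y = y ^ a := by
    rw [mul_assoc, ← exp_add]; simp
  have h3 : y ^ a * exp (-y) * exp y ≤ a.factorial * exp y := by
    rw [this]; linarith
  exact le_of_mul_le_mul_right h3 he

theorem monomial_bound {x : ℝ} (h0 : 0 < x) (h1 : x < 1) (a b : ℕ) :
    (x⁻¹) ^ a * ((1 - x)⁻¹) ^ b * (S x * (1 - S x)) ≤ Kd (a + b) := by
  have h2 : 0 < 1 - x := by linarith
  have hu : 0 < x⁻¹ := inv_pos.2 h0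
  have hv : 0 < (1 - x)⁻¹ := inv_pos.2 h2
  have hs0 := S_nonneg x
  have hs1 := S_le_one x
  have hfac : ∀ n : ℕ, (n.factorial : ℝ) ≤ (a + b).factorial → True := fun _ _ => trivial
  have hKd : ((Kd (a + b) : ℕ) : ℝ) = 8 * 2 ^ (a + b) * ((a + b).factorial : ℝ) := by
    simp [Kd]
  rw [hKd]
  rcases le_total x (1 / 2) with hx | hx
  · -- v ≤ 2
    have hv2 : (1 - x)⁻¹ ≤ 2 := by
      rw [inv_le_comm₀ h2 (by norm_num)]; linarith
    have hvb : ((1 - x)⁻¹) ^ b ≤ 2 ^ b := pow_le_pow_left₀ hv.le hv2 b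
    have hs := S_le_exp h0 h1
    have hexp : exp ((1 - x)⁻¹ - x⁻¹) ≤ 8 * exp (-x⁻¹) := by
      have : exp ((1 - x)⁻¹ - x⁻¹) = exp ((1 - x)⁻¹) * exp (-x⁻¹) := by
        rw [← exp_add]; congr 1
      rw [this]
      have h8 : exp ((1 - x)⁻¹) ≤ 8 := (exp_le_exp.2 hv2).trans exp_two_le
      exact mul_le_mul_of_nonneg_right h8 (exp_pos _).le
    have hua := pow_mul_exp_le a hu.le
    have hf : (a.factorial : ℝ) ≤ (a + b).factorial := by
      exact_mod_cast Nat.factorial_le (Nat.le_add_right a b)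
    have h2b : (2 : ℝ) ^ b ≤ 2 ^ (a + b) := pow_le_pow_right₀ (by norm_num) (by omega)
    have hu0 : 0 ≤ (x⁻¹) ^ a := by positivity
    have hv0 : 0 ≤ ((1 - x)⁻¹) ^ b := by positivity
    calc (x⁻¹) ^ a * ((1 - x)⁻¹) ^ b * (S x * (1 - S x))
        ≤ (x⁻¹) ^ a * 2 ^ b * (8 * exp (-x⁻¹) * 1) := by
          apply mul_le_mul (mul_le_mul_of_nonneg_left hvb hu0) _ (by nlinarith) (by positivity)
          apply mul_le_mul (hs.trans hexp) (by linarith) (by linarith) (by positivity)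
      _ = 8 * 2 ^ b * ((x⁻¹) ^ a * exp (-x⁻¹)) := by ring
      _ ≤ 8 * 2 ^ b * (a.factorial : ℝ) := by
          apply mul_le_mul_of_nonneg_left hua (by positivity)
      _ ≤ 8 * 2 ^ (a + b) * ((a + b).factorial : ℝ) := by
          apply mul_le_mul (by linarith) hf (by positivity) (by positivity)
  · -- u ≤ 2
    have hu2 : x⁻¹ ≤ 2 := by
      rw [inv_le_comm₀ h0 (by norm_num)]; linarith
    have hua : (x⁻¹) ^ a ≤ 2 ^ a := pow_le_pow_left₀ hu.le hu2 a
    have ht := one_sub_S_le_exp h0 h1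
    have hexp : exp (x⁻¹ - (1 - x)⁻¹) ≤ 8 * exp (-(1 - x)⁻¹) := by
      have : exp (x⁻¹ - (1 - x)⁻¹) = exp (x⁻¹) * exp (-(1 - x)⁻¹) := by
        rw [← exp_add]; congr 1
      rw [this]
      have h8 : exp (x⁻¹) ≤ 8 := (exp_le_exp.2 hu2).trans exp_two_le
      exact mul_le_mul_of_nonneg_right h8 (exp_pos _).le
    have hvb := pow_mul_exp_le b hv.le
    have hf : (b.factorial : ℝ) ≤ (a + b).factorial := by
      exact_mod_cast Nat.factorial_le (Nat.le_add_left b a)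
    have h2a : (2 : ℝ) ^ a ≤ 2 ^ (a + b) := pow_le_pow_right₀ (by norm_num) (by omega)
    have hu0 : 0 ≤ (x⁻¹) ^ a := by positivity
    have hv0 : 0 ≤ ((1 - x)⁻¹) ^ b := by positivity
    calc (x⁻¹) ^ a * ((1 - x)⁻¹) ^ b * (S x * (1 - S x))
        ≤ 2 ^ a * ((1 - x)⁻¹) ^ b * (1 * (8 * exp (-(1 - x)⁻¹))) := by
          apply mul_le_mul (mul_le_mul_of_nonneg_right hua hv0) _ (by nlinarith) (by positivity)
          apply mul_le_mul hs1 (ht.trans hexp) (by linarith) (by norm_num)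
      _ = 8 * 2 ^ a * (((1 - x)⁻¹) ^ b * exp (-(1 - x)⁻¹)) := by ring
      _ ≤ 8 * 2 ^ a * (b.factorial : ℝ) := by
          apply mul_le_mul_of_nonneg_left hvb (by positivity)
      _ ≤ 8 * 2 ^ (a + b) * ((a + b).factorial : ℝ) := by
          apply mul_le_mul (by linarith) hf (by positivity) (by positivity)

theorem Kd_mono {d d' : ℕ} (h : d ≤ d') : (Kd d : ℝ) ≤ Kd d' := by
  have h1 : 2 ^ d ≤ 2 ^ d' := Nat.pow_le_pow_right (by norm_num) h
  have h2 := Nat.factorial_le h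
  have : Kd d ≤ Kd d' := by
    unfold Kd
    exact Nat.mul_le_mul (Nat.mul_le_mul le_rfl h1) h2
  exact_mod_cast this

theorem abs_evMono_le {d : ℕ} {M : Mono} (h : goodM d M) {x : ℝ} (h0 : 0 < x) (h1 : x < 1) :
    |evMono M x| ≤ |M.1| * Kd d := by
  obtain ⟨c, a, b, e, f⟩ := M
  obtain ⟨h1', h2, h3, h4⟩ := h
  simp only at h1' h2 h3 h4
  simp only [evMono]
  have hu : 0 < x⁻¹ := inv_pos.2 h0
  have hv : 0 < (1 - x)⁻¹ := inv_pos.2 (by linarith)
  have hs0 := S_nonneg x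
  have hs1 := S_le_one x
  have hse : (S x) ^ e ≤ S x := by
    obtain ⟨e', rfl⟩ : ∃ e', e = e' + 1 := ⟨e - 1, by omega⟩
    rw [pow_succ]
    have := pow_le_one₀ (n := e') hs0 hs1
    nlinarith
  have hte : (1 - S x) ^ f ≤ 1 - S x := by
    obtain ⟨f', rfl⟩ : ∃ f', f = f' + 1 := ⟨f - 1, by omega⟩
    rw [pow_succ]
    have := pow_le_one₀ (n := f') (by linarith : 0 ≤ 1 - S x) (by linarith)
    nlinarith
  have hsep : 0 ≤ (S x) ^ e := pow_nonneg hs0 _
  have htep : 0 ≤ (1 - S x) ^ f := pow_nonneg (by linarith) _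
  have hmb := monomial_bound h0 h1 a b
  have hmb2 := Kd_mono h1'
  have hu0 : 0 ≤ (x⁻¹) ^ a := by positivity
  have hv0 : 0 ≤ ((1 - x)⁻¹) ^ b := by positivity
  have heq : c * (x⁻¹) ^ a * ((1 - x)⁻¹) ^ b * (S x) ^ e * (1 - S x) ^ f
      = c * ((x⁻¹) ^ a * ((1 - x)⁻¹) ^ b * ((S x) ^ e * (1 - S x) ^ f)) := by ring
  rw [heq, abs_mul]
  apply mul_le_mul_of_nonneg_left _ (abs_nonneg c)
  rw [abs_of_nonneg (by positivity)]
  calc (x⁻¹) ^ a * ((1 - x)⁻¹) ^ b * ((S x) ^ e * (1 - S x) ^ f)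
      ≤ (x⁻¹) ^ a * ((1 - x)⁻¹) ^ b * (S x * (1 - S x)) := by
        apply mul_le_mul_of_nonneg_left _ (by positivity)
        exact mul_le_mul hse hte htep hs0
    _ ≤ Kd (a + b) := hmb
    _ ≤ Kd d := hmb2

theorem abs_evL_le {d : ℕ} {l : List Mono} (h : ∀ M ∈ l, goodM d M) {x : ℝ} (h0 : 0 < x)
    (h1 : x < 1) : |evL l x| ≤ wt l * Kd d := by
  induction l with
  | nil => simp [evL, wt]
  | cons M l ih =>
    have e1 : wt (M :: l) = |M.1| + wt l := by simp [wt]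
    rw [evL_cons, e1, add_mul]
    exact (abs_add_le _ _).trans (add_le_add (abs_evMono_le (h M (by simp)) h0 h1)
      (ih fun N hN => h N (by simp [hN])))

/-- Weight bound. -/
def Wd (m : ℕ) : ℕ := 2 * 6 ^ m * m.factorial

theorem iteratedDeriv_S_form (m : ℕ) : ∃ l : List Mono,
    (∀ x, 0 < x → x < 1 → iteratedDeriv (m + 1) S x = evL l x) ∧ wt l ≤ Wd m ∧
      ∀ M ∈ l, goodM (2 * m + 2) M := by
  induction m with
  | zero =>
    refine ⟨[(1, 2, 0, 1, 1), (1, 0, 2, 1, 1)], ?_, ?_, ?_⟩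
    · intro x h0 h1
      rw [iteratedDeriv_one, (hasDerivAt_S h0 h1).deriv]
      simp only [evL, evMono, List.map_cons, List.map_nil, List.sum_cons, List.sum_nil]
      ring
    · simp [wt, Wd]; norm_num
    · intro M hM
      simp only [List.mem_cons, List.not_mem_nil, or_false] at hM
      rcases hM with rfl | rfl <;> simp [goodM]
  | succ m ih =>
    obtain ⟨l, h1, h2, h3⟩ := ih
    refine ⟨l.flatMap DMono, ?_, ?_, ?_⟩
    · intro x h0 hx1
      rw [iteratedDeriv_succ]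
      have hev : iteratedDeriv (m + 1) S =ᶠ[nhds x] evL l := by
        filter_upwards [Ioo_mem_nhds h0 hx1] with y hy
        exact h1 y hy.1 hy.2
      rw [hev.deriv_eq]
      exact (hasDerivAt_evL l h0 hx1).deriv
    · have h4 := wt_flatMap h3
      have h5 : wt l * (3 * ((2 * m + 2 : ℕ) : ℝ)) ≤ (Wd m : ℝ) * (3 * ((2 * m + 2 : ℕ) : ℝ)) :=
        mul_le_mul_of_nonneg_right h2 (by positivity)
      have h6 : ((Wd (m + 1) : ℕ) : ℝ) = (Wd m : ℝ) * (3 * ((2 * m + 2 : ℕ) : ℝ)) := by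
        simp only [Wd, Nat.factorial_succ]
        push_cast
        ring
      rw [h6]
      exact h4.trans h5
    · intro N hN
      rw [List.mem_flatMap] at hN
      obtain ⟨M, hM, hNM⟩ := hN
      exact good_DMono (h3 M hM) N hNM

/-- The global bounds for the derivatives of `S`. -/
def Bd : ℕ → ℕ
  | 0 => 1
  | m + 1 => Wd m * Kd (2 * m + 2)

theorem iteratedDeriv_S_zero_of_neg {m : ℕ} {x : ℝ} (hx : x < 0) :
    iteratedDeriv (m + 1) S x = 0 := by
  have hev : S =ᶠ[nhds x] fun _ => (0 : ℝ) := by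
    filter_upwards [Iio_mem_nhds hx] with y hy
    exact S_of_nonpos (le_of_lt hy)
  rw [(hev.iteratedDeriv (m + 1)).eq_of_nhds]
  simp

theorem iteratedDeriv_S_zero_of_one_lt {m : ℕ} {x : ℝ} (hx : 1 < x) :
    iteratedDeriv (m + 1) S x = 0 := by
  have hev : S =ᶠ[nhds x] fun _ => (1 : ℝ) := by
    filter_upwards [Ioi_mem_nhds hx] with y hy
    exact S_of_one_le (le_of_lt hy)
  rw [(hev.iteratedDeriv (m + 1)).eq_of_nhds, iteratedDeriv_const]
  simp

theorem iteratedDeriv_S_zero_of_nonpos {m : ℕ} {x : ℝ} (hx : x ≤ 0) :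
    iteratedDeriv (m + 1) S x = 0 := by
  rcases hx.lt_or_eq with h | h
  · exact iteratedDeriv_S_zero_of_neg h
  · subst h
    have hc := (iteratedDeriv_S_continuous (m + 1)).continuousAt (x := (0 : ℝ))
    have hfreq : Filter.Tendsto (iteratedDeriv (m + 1) S) (nhdsWithin 0 (Set.Iio 0))
        (nhds (iteratedDeriv (m + 1) S 0)) := hc.tendsto.mono_left nhdsWithin_le_nhds
    have hzero : Filter.Tendsto (iteratedDeriv (m + 1) S) (nhdsWithin 0 (Set.Iio 0)) (nhds 0) := by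
      refine tendsto_const_nhds.congr' ?_
      filter_upwards [self_mem_nhdsWithin] with y hy
      exact (iteratedDeriv_S_zero_of_neg hy).symm
    exact tendsto_nhds_unique hfreq hzero

theorem iteratedDeriv_S_zero_of_one_le {m : ℕ} {x : ℝ} (hx : 1 ≤ x) :
    iteratedDeriv (m + 1) S x = 0 := by
  rcases hx.lt_or_eq with h | h
  · exact iteratedDeriv_S_zero_of_one_lt h
  · subst h
    have hc := (iteratedDeriv_S_continuous (m + 1)).continuousAt (x := (1 : ℝ))
    have hfreq : Filter.Tendsto (iteratedDeriv (m + 1) S) (nhdsWithin 1 (Set.Ioi 1))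
        (nhds (iteratedDeriv (m + 1) S 1)) := hc.tendsto.mono_left nhdsWithin_le_nhds
    have hzero : Filter.Tendsto (iteratedDeriv (m + 1) S) (nhdsWithin 1 (Set.Ioi 1)) (nhds 0) := by
      refine tendsto_const_nhds.congr' ?_
      filter_upwards [self_mem_nhdsWithin] with y hy
      exact (iteratedDeriv_S_zero_of_one_lt hy).symm
    exact tendsto_nhds_unique hfreq hzero

theorem abs_iteratedDeriv_S_le (m : ℕ) (x : ℝ) : |iteratedDeriv m S x| ≤ Bd m := by
  cases m with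
  | zero =>
    simp only [iteratedDeriv_zero, Bd, Nat.cast_one]
    rw [abs_of_nonneg (S_nonneg x)]
    exact S_le_one x
  | succ m =>
    rcases le_or_gt x 0 with h0 | h0
    · rw [iteratedDeriv_S_zero_of_nonpos h0]
      simp
    rcases le_or_gt 1 x with h1 | h1
    · rw [iteratedDeriv_S_zero_of_one_le h1]
      simp
    obtain ⟨l, hl1, hl2, hl3⟩ := iteratedDeriv_S_form m
    rw [hl1 x h0 h1]
    refine (abs_evL_le hl3 h0 h1).trans ?_
    have : ((Bd (m + 1) : ℕ) : ℝ) = (Wd m : ℝ) * (Kd (2 * m + 2) : ℝ) := by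
      simp [Bd]
    rw [this]
    exact mul_le_mul_of_nonneg_right hl2 (by positivity)

theorem deriv_S_zero_of_nonpos {x : ℝ} (hx : x ≤ 0) : deriv S x = 0 := by
  have := iteratedDeriv_S_zero_of_nonpos (m := 0) hx
  simpa [iteratedDeriv_one] using this

theorem deriv_S_zero_of_one_le {x : ℝ} (hx : 1 ≤ x) : deriv S x = 0 := by
  have := iteratedDeriv_S_zero_of_one_le (m := 0) hx
  simpa [iteratedDeriv_one] using this

/-- Logistic closed form. -/
theorem S_logistic {x : ℝ} (h0 : 0 < x) (h1 : x < 1) :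
    S x = 1 / (1 + exp (x⁻¹ - (1 - x)⁻¹)) := by
  rw [S_eq_on h0 h1]
  have h3 : exp (x⁻¹ - (1 - x)⁻¹) * exp (-x⁻¹) = exp (-(1 - x)⁻¹) := by
    rw [← exp_add]; congr 1; ring
  rw [← h3]
  have h4 : 0 < exp (-x⁻¹) := exp_pos _
  have h5 : 0 < exp (x⁻¹ - (1 - x)⁻¹) := exp_pos _
  field_simp

end

end Crest.Agent.BF
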