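import Crest.Agent.Lib.BoxFlow.RatComp
import Crest.Agent.Lib.BoxFlow.SmoothStep

/-!
# Effective one-variable smooth functions
-/

set_option autoImplicit false

namespace Crest.Agent.BF

open Real Finset
open scoped ContDiff

/-- Effective smooth function of one real variable. -/
def EffOne (g : ℝ → ℝ) : Prop :=
  ContDiff ℝ ∞ g ∧ ∃ (A : ℕ × ℚ × ℕ → ℚ) (B : ℕ → ℕ), Computable A ∧ Computable B ∧
    (∀ (m : ℕ) (q : ℚ) (k : ℕ), |iteratedDeriv m g (q : ℝ) - (A (m, q, k) : ℝ)| ≤ 1 / ((k : ℝ) + 1)) ∧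
    (∀ (m : ℕ) (x : ℝ), |iteratedDeriv m g x| ≤ (B m : ℝ))

/-! ### Partial sums of the exponential -/

/-- Partial sum of the exponential series at a rational point. -/
def expPartial (y : ℚ) (N : ℕ) : ℚ := ∑ j ∈ range N, y ^ j / (j.factorial : ℚ)

theorem expPartial_cast (y : ℚ) (N : ℕ) :
    ((expPartial y N : ℚ) : ℝ) = ∑ j ∈ range N, (y : ℝ) ^ j / (j.factorial : ℝ) := by
  simp [expPartial]

theorem exp_tail_le {y : ℝ} (hy : 0 ≤ y) (N : ℕ) :
    Real.exp y - ∑ j ∈ range N, y ^ j / (j.factorial : ℝ)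
      ≤ y ^ N / (N.factorial : ℝ) * Real.exp y := by
  have hs : HasSum (fun j : ℕ => y ^ j / (j.factorial : ℝ)) (Real.exp y) := by
    rw [Real.exp_eq_exp_ℝ]
    exact NormedSpace.expSeries_div_hasSum_exp y
  have h1 := (hasSum_nat_add_iff' N).2 hs
  have h2 := hs.mul_left (y ^ N / (N.factorial : ℝ))
  refine hasSum_le (fun i => ?_) h1 h2
  have hfac : (N.factorial : ℝ) * i.factorial ≤ ((i + N).factorial : ℝ) := by
    have : N.factorial * i.factorial ≤ (i + N).factorial := by
      rw [add_comm]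
      exact Nat.le_of_dvd (Nat.factorial_pos _) (Nat.factorial_mul_factorial_dvd_factorial_add N i)
    exact_mod_cast this
  have hN : (0 : ℝ) < N.factorial := by exact_mod_cast N.factorial_pos
  have hi : (0 : ℝ) < i.factorial := by exact_mod_cast i.factorial_pos
  have e : y ^ N / (N.factorial : ℝ) * (y ^ i / (i.factorial : ℝ))
      = y ^ (i + N) / ((N.factorial : ℝ) * i.factorial) := by
    rw [pow_add]; field_simp
  rw [e]
  exact div_le_div_of_nonneg_left (by positivity) (by positivity) hfac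

theorem pow_div_factorial_small {y : ℝ} (hy : 0 ≤ y) {N K : ℕ} (h1 : 6 * y ≤ N) (h2 : K ≤ N)
    (hN : 0 < N) : y ^ N / (N.factorial : ℝ) ≤ 1 / ((K : ℝ) + 1) := by
  have hNr : (0 : ℝ) < N := by exact_mod_cast hN
  have hf : (0 : ℝ) < N.factorial := by exact_mod_cast N.factorial_pos
  have h3 := Real.pow_div_factorial_le_exp (N : ℝ) hNr.le N
  have h4 : Real.exp (N : ℝ) ≤ 3 ^ N := by
    have : Real.exp (N : ℝ) = Real.exp 1 ^ N := by
      rw [← Real.exp_nat_mul]; simp
    rw [this]
    exact pow_le_pow_left₀ (Real.exp_pos 1).le (Real.exp_one_lt_d9.le.trans (by norm_num)) N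
  have h5 : y ^ N / (N.factorial : ℝ) = (y / N) ^ N * ((N : ℝ) ^ N / (N.factorial : ℝ)) := by
    rw [div_pow]; field_simp
  rw [h5]
  have h6 : y / N ≤ 1 / 6 := by
    rw [div_le_div_iff₀ hNr (by norm_num)]; linarith
  have h7 : (y / N) ^ N ≤ (1 / 6) ^ N := pow_le_pow_left₀ (by positivity) h6 N
  have h8 : (y / N) ^ N * ((N : ℝ) ^ N / (N.factorial : ℝ)) ≤ (1 / 6) ^ N * 3 ^ N := by
    apply mul_le_mul h7 (h3.trans h4) (by positivity) (by positivity)
  have h9 : ((1 : ℝ) / 6) ^ N * 3 ^ N = (1 / 2) ^ N := by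
    rw [← mul_pow]; norm_num
  rw [h9] at h8
  refine h8.trans ?_
  have h10 : N < 2 ^ N := Nat.lt_two_pow_self
  have h11 : ((K : ℝ) + 1) ≤ 2 ^ N := by
    have : K + 1 ≤ 2 ^ N := by omega
    exact_mod_cast this
  rw [one_div_pow]
  exact one_div_le_one_div_of_le (by positivity) h11

/-- number of terms -/
def nTerms (y : ℚ) (K : ℕ) : ℕ := 6 * (absBd y + 1) + K + 1

/-- approximation of `1/(1+exp y)` for `y ≥ 0`. -/
def Spos (y : ℚ) (K : ℕ) : ℚ := 1 / (1 + expPartial y (nTerms y K))

theorem Spos_err {y : ℚ} (hy : 0 ≤ y) (K : ℕ) :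
    |1 / (1 + Real.exp y) - (Spos y K : ℝ)| ≤ 1 / ((K : ℝ) + 1) := by
  have hy' : (0 : ℝ) ≤ y := by exact_mod_cast hy
  set N := nTerms y K with hNdef
  set T : ℝ := ∑ j ∈ range N, (y : ℝ) ^ j / (j.factorial : ℝ) with hT
  have hSpos : (Spos y K : ℝ) = 1 / (1 + T) := by
    simp only [Spos, ← hNdef]
    push_cast [expPartial_cast]
    rfl
  have hT0 : 0 ≤ T := Finset.sum_nonneg fun j _ => by positivity
  have hTE : T ≤ Real.exp y := Real.sum_le_exp_of_nonneg hy' N
  have hE := Real.exp_pos (y : ℝ)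
  have htail := exp_tail_le hy' N
  have hN1 : (6 : ℝ) * y ≤ N := by
    have h1 := abs_le_absBd_real y
    rw [abs_of_nonneg hy'] at h1
    have : (N : ℝ) = 6 * ((absBd y : ℝ) + 1) + K + 1 := by
      simp [hNdef, nTerms]
    rw [this]
    have hK : (0 : ℝ) ≤ K := Nat.cast_nonneg K
    linarith
  have hN2 : K ≤ N := by simp only [hNdef, nTerms]; omega
  have hN3 : 0 < N := by simp only [hNdef, nTerms]; omega
  have hsmall := pow_div_factorial_small hy' hN1 hN2 hN3
  rw [hSpos, abs_sub_comm]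
  have hdiff : 1 / (1 + T) - 1 / (1 + Real.exp y)
      = (Real.exp y - T) / ((1 + T) * (1 + Real.exp y)) := by
    field_simp; ring
  rw [hdiff, abs_of_nonneg (div_nonneg (by linarith) (by positivity))]
  have h3 : (Real.exp y - T) / ((1 + T) * (1 + Real.exp y)) ≤ (Real.exp y - T) / Real.exp y := by
    apply div_le_div_of_nonneg_left (by linarith) hE
    nlinarith
  refine h3.trans ?_
  rw [div_le_iff₀ hE]
  have h4 : (y : ℝ) ^ N / (N.factorial : ℝ) * Real.exp y ≤ 1 / ((K : ℝ) + 1) * Real.exp y :=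
    mul_le_mul_of_nonneg_right hsmall hE.le
  linarith

/-- approximation of `S` at rational points. -/
def Sapprox (p : ℚ × ℕ) : ℚ :=
  cond (decide (p.1 ≤ 0)) 0 <|
  cond (decide (1 ≤ p.1)) 1 <|
  cond (decide (0 ≤ 1 / p.1 - 1 / (1 - p.1))) (Spos (1 / p.1 - 1 / (1 - p.1)) p.2)
    (1 - Spos (-(1 / p.1 - 1 / (1 - p.1))) p.2)

theorem Sapprox_err (q : ℚ) (K : ℕ) : |S (q : ℝ) - (Sapprox (q, K) : ℝ)| ≤ 1 / ((K : ℝ) + 1) := by
  have hKpos : (0 : ℝ) < 1 / ((K : ℝ) + 1) := by positivity
  by_cases h0 : q ≤ 0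
  · have h0' : (q : ℝ) ≤ 0 := by exact_mod_cast h0
    simp only [Sapprox, h0, decide_true, cond_true]
    rw [S_of_nonpos h0']
    simpa using hKpos.le
  by_cases h1 : 1 ≤ q
  · have h1' : (1 : ℝ) ≤ q := by exact_mod_cast h1
    simp only [Sapprox, h0, h1, decide_true, decide_false, cond_true, cond_false]
    rw [S_of_one_le h1']
    simpa using hKpos.le
  have h0' : (0 : ℝ) < q := by exact_mod_cast not_le.1 h0
  have h1' : (q : ℝ) < 1 := by exact_mod_cast not_le.1 h1
  have hS := S_logistic h0' h1'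
  have hyc : (((1 / q - 1 / (1 - q) : ℚ)) : ℝ) = (q : ℝ)⁻¹ - (1 - (q : ℝ))⁻¹ := by
    push_cast; simp [one_div]
  by_cases hy : 0 ≤ 1 / q - 1 / (1 - q)
  · simp only [Sapprox, h0, h1, hy, decide_true, decide_false, cond_true, cond_false]
    have := Spos_err hy K
    rw [hyc] at this
    rw [hS]
    convert this using 3
  · have hy' : 0 ≤ -(1 / q - 1 / (1 - q)) := by linarith [not_le.1 hy]
    simp only [Sapprox, h0, h1, hy, decide_true, decide_false, cond_true, cond_false]
    have := Spos_err hy' K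
    have hyc2 : ((-(1 / q - 1 / (1 - q)) : ℚ) : ℝ) = -((q : ℝ)⁻¹ - (1 - (q : ℝ))⁻¹) := by
      rw [Rat.cast_neg, hyc]
    rw [hyc2] at this
    rw [hS]
    set y := (q : ℝ)⁻¹ - (1 - (q : ℝ))⁻¹ with hydef
    have e : 1 / (1 + Real.exp y) = 1 - 1 / (1 + Real.exp (-y)) := by
      rw [Real.exp_neg]
      have := Real.exp_pos y
      field_simp
      ring
    rw [e]
    push_cast
    rw [show (1 - 1 / (1 + Real.exp (-y)) - (1 - (Spos (-(1 / q - 1 / (1 - q))) K : ℝ)))
        = -(1 / (1 + Real.exp (-y)) - (Spos (-(1 / q - 1 / (1 - q))) K : ℝ)) by ring, abs_neg]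
    exact this

/-! ### Computability of `Sapprox` -/

theorem computable_factorial : Computable Nat.factorial := by
  have : Computable fun n : ℕ => (Nat.rec 1 (fun i y => (i + 1) * y) n : ℕ) :=
    Computable.nat_rec (f := fun n : ℕ => n) (g := fun _ => 1)
      (h := fun _ p => (p.1 + 1) * p.2) Computable.id (Computable.const 1)
      (nat_mul_comp (nat_add_comp (Computable.fst.comp Computable.snd) (Computable.const 1))
        (Computable.snd.comp Computable.snd)).to₂
  refine this.of_eq fun n => ?_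
  induction n with
  | zero => rfl
  | succ n ih => simp only [Nat.factorial_succ]; rw [← ih]

section
variable {α : Type*} [Primcodable α]

theorem computable_expPartial {y : α → ℚ} {N : α → ℕ} (hy : Computable y) (hN : Computable N) :
    Computable fun a => expPartial (y a) (N a) := by
  unfold expPartial
  refine Computable.rat_sum (F := fun a j => (y a) ^ j / (j.factorial : ℚ)) ?_ hN
  exact (Computable.rat_div (Computable.rat_pow (hy.comp Computable.fst) Computable.snd)
    (Computable.rat_natCast (computable_factorial.comp Computable.snd))).to₂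

theorem computable_nTerms {y : α → ℚ} {K : α → ℕ} (hy : Computable y) (hK : Computable K) :
    Computable fun a => nTerms (y a) (K a) := by
  unfold nTerms
  exact nat_add_comp (nat_add_comp (nat_mul_comp (Computable.const 6)
    (nat_add_comp (computable_absBd.comp hy) (Computable.const 1))) hK) (Computable.const 1)

theorem computable_Spos {y : α → ℚ} {K : α → ℕ} (hy : Computable y) (hK : Computable K) :
    Computable fun a => Spos (y a) (K a) := by
  unfold Spos
  exact Computable.rat_div (Computable.const 1) (Computable.rat_add (Computable.const 1)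
    (computable_expPartial hy (computable_nTerms hy hK)))

end

theorem computable_Sapprox : Computable Sapprox := by
  unfold Sapprox
  have hq : Computable fun p : ℚ × ℕ => p.1 := Computable.fst
  have hK : Computable fun p : ℚ × ℕ => p.2 := Computable.snd
  have hy : Computable fun p : ℚ × ℕ => 1 / p.1 - 1 / (1 - p.1) :=
    Computable.rat_sub (Computable.rat_div (Computable.const 1) hq)
      (Computable.rat_div (Computable.const 1) (Computable.rat_sub (Computable.const 1) hq))
  refine Computable.cond (Computable.rat_le hq (Computable.const 0)) (Computable.const 0) ?_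
  refine Computable.cond (Computable.rat_le (Computable.const 1) hq) (Computable.const 1) ?_
  refine Computable.cond (Computable.rat_le (Computable.const 0) hy) (computable_Spos hy hK) ?_
  exact Computable.rat_sub (Computable.const 1) (computable_Spos (Computable.rat_neg hy) hK)

/-! ### Numerical differentiation -/

theorem iteratedDeriv_contDiff {g : ℝ → ℝ} (hg : ContDiff ℝ ∞ g) (m : ℕ) :
    ContDiff ℝ ∞ (iteratedDeriv m g) := by
  induction m with
  | zero => simpa using hg
  | succ m ih =>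
    rw [iteratedDeriv_succ]
    exact (contDiff_infty_iff_deriv.1 ih).2

theorem fwd_iter_mvt (m : ℕ) : ∀ (g : ℝ → ℝ) (_ : ContDiff ℝ ∞ g) (h : ℝ) (_ : 0 < h) (q : ℝ),
    ∃ ξ, q ≤ ξ ∧ ξ ≤ q + m * h ∧ (fwdDiff h)^[m] g q = h ^ m * iteratedDeriv m g ξ := by
  induction m with
  | zero =>
    intro g _ h _ q
    exact ⟨q, le_rfl, by simp, by simp⟩
  | succ m ih =>
    intro g hg h hh q
    rw [Function.iterate_succ_apply]
    have hG : fwdDiff h g = fun y => g (y + h) - g y := rfl
    have hGs : ContDiff ℝ ∞ (fwdDiff h g) := by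
      rw [hG]
      exact (hg.comp (contDiff_id.add contDiff_const)).sub hg
    obtain ⟨ξ₁, h1, h2, h3⟩ := ih (fwdDiff h g) hGs h hh q
    have hm : ∀ y, iteratedDeriv m (fwdDiff h g) y
        = iteratedDeriv m g (y + h) - iteratedDeriv m g y := by
      intro y
      have hc : ContDiff ℝ m g := hg.of_le (by exact_mod_cast le_top)
      rw [hG]
      have e1 := iteratedDeriv_fun_sub (n := m) (x := y) (f := fun y => g (y + h)) (g := g)
        ((hc.comp (contDiff_id.add contDiff_const)).contDiffAt) hc.contDiffAt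
      rw [e1, iteratedDeriv_comp_add_const]
    have hd : Differentiable ℝ (iteratedDeriv m g) := by
      have := iteratedDeriv_contDiff hg m
      exact this.differentiable (by simp)
    obtain ⟨c, hc, hc2⟩ := exists_deriv_eq_slope (iteratedDeriv m g) (by linarith : ξ₁ < ξ₁ + h)
      hd.continuous.continuousOn hd.differentiableOn
    refine ⟨c, by linarith [hc.1], ?_, ?_⟩
    · push_cast
      have := hc.2
      nlinarith
    · rw [h3, hm ξ₁, iteratedDeriv_succ, hc2, add_sub_cancel_left, pow_succ]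
      field_simp

theorem fwd_iter_formula (g : ℝ → ℝ) (h q : ℝ) (m : ℕ) :
    (fwdDiff h)^[m] g q
      = ∑ i ∈ range (m + 1), (-1 : ℝ) ^ (m - i) * (m.choose i : ℝ) * g (q + i * h) := by
  rw [fwdDiff_iter_eq_sum_shift]
  refine Finset.sum_congr rfl fun i _ => ?_
  rw [zsmul_eq_mul, nsmul_eq_mul]
  push_cast
  ring

/-- Choose as a rational. -/
def chooseQ (m i : ℕ) : ℚ := (m.factorial : ℚ) / ((i.factorial : ℚ) * ((m - i).factorial : ℚ))

theorem chooseQ_eq {m i : ℕ} (h : i ≤ m) : chooseQ m i = (m.choose i : ℚ) := by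
  rw [Nat.cast_choose ℚ h, chooseQ]

/-- The step. -/
def stepH (B : ℕ → ℕ) (m k : ℕ) : ℕ := 2 * (k + 1) * (m + 1) * (B (m + 1) + 1)

/-- The accuracy for the values. -/
def accK (B : ℕ → ℕ) (m k : ℕ) : ℕ := 2 * (k + 1) * 2 ^ m * (stepH B m k) ^ m

/-- The numerical derivative. -/
def numDeriv (V : ℚ × ℕ → ℚ) (B : ℕ → ℕ) (p : ℕ × ℚ × ℕ) : ℚ :=
  ((stepH B p.1 p.2.2 : ℕ) : ℚ) ^ p.1 * ∑ i ∈ range (p.1 + 1),
    (-1 : ℚ) ^ (p.1 - i) * chooseQ p.1 i *
      V (p.2.1 + (i : ℚ) / (stepH B p.1 p.2.2 : ℕ), accK B p.1 p.2.2)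

section
variable {α : Type*} [Primcodable α]

theorem computable_natPow {a b : α → ℕ} (ha : Computable a) (hb : Computable b) :
    Computable fun p => (a p) ^ (b p) := by
  have : Computable fun p => (Nat.rec 1 (fun _ y => y * a p) (b p) : ℕ) :=
    Computable.nat_rec (f := b) (g := fun _ => 1)
      (h := fun p r => r.2 * a p) hb (Computable.const 1)
      (nat_mul_comp (Computable.snd.comp Computable.snd) (ha.comp Computable.fst)).to₂
  refine this.of_eq fun p => ?_
  induction b p with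
  | zero => rfl
  | succ n ih => simp only [pow_succ]; rw [← ih]

theorem computable_stepH {B : ℕ → ℕ} (hB : Computable B) {m k : α → ℕ} (hm : Computable m)
    (hk : Computable k) : Computable fun a => stepH B (m a) (k a) := by
  unfold stepH
  exact nat_mul_comp (nat_mul_comp (nat_mul_comp (Computable.const 2)
    (nat_add_comp hk (Computable.const 1))) (nat_add_comp hm (Computable.const 1)))
    (nat_add_comp (hB.comp (nat_add_comp hm (Computable.const 1))) (Computable.const 1))

theorem computable_accK {B : ℕ → ℕ} (hB : Computable B) {m k : α → ℕ} (hm : Computable m)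
    (hk : Computable k) : Computable fun a => accK B (m a) (k a) := by
  unfold accK
  exact nat_mul_comp (nat_mul_comp (nat_mul_comp (Computable.const 2)
    (nat_add_comp hk (Computable.const 1))) (computable_natPow (Computable.const 2) hm))
    (computable_natPow (computable_stepH hB hm hk) hm)

theorem computable_chooseQ {m i : α → ℕ} (hm : Computable m) (hi : Computable i) :
    Computable fun a => chooseQ (m a) (i a) := by
  unfold chooseQ
  have hsub : Computable fun a => m a - i a := Primrec.nat_sub.to_comp.comp hm hi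
  exact Computable.rat_div (Computable.rat_natCast (computable_factorial.comp hm))
    (Computable.rat_mul (Computable.rat_natCast (computable_factorial.comp hi))
      (Computable.rat_natCast (computable_factorial.comp hsub)))

end

/-- One term of the numerical derivative. -/
def numTerm (V : ℚ × ℕ → ℚ) (H K m : ℕ) (q : ℚ) (i : ℕ) : ℚ :=
  (-1 : ℚ) ^ (m - i) * chooseQ m i * V (q + (i : ℚ) / (H : ℚ), K)

theorem computable_numTerm {V : ℚ × ℕ → ℚ} (hV : Computable V) {α : Type*} [Primcodable α]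
    {H K m i : α → ℕ} {q : α → ℚ} (hH : Computable H) (hK : Computable K) (hm : Computable m)
    (hq : Computable q) (hi : Computable i) :
    Computable fun a => numTerm V (H a) (K a) (m a) (q a) (i a) := by
  unfold numTerm
  have hsub : Computable fun a => m a - i a := Primrec.nat_sub.to_comp.comp hm hi
  have h1 : Computable fun a => (-1 : ℚ) ^ (m a - i a) :=
    Computable.rat_pow (Computable.const (-1)) hsub
  have h2 : Computable fun a => (q a + (i a : ℚ) / (H a : ℚ), K a) :=
    Computable.pair (Computable.rat_add hq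
      (Computable.rat_div (Computable.rat_natCast hi) (Computable.rat_natCast hH))) hK
  exact Computable.rat_mul (Computable.rat_mul h1 (computable_chooseQ hm hi)) (hV.comp h2)

theorem computable_numDeriv {V : ℚ × ℕ → ℚ} {B : ℕ → ℕ} (hV : Computable V) (hB : Computable B) :
    Computable (numDeriv V B) := by
  have hm : Computable fun p : ℕ × ℚ × ℕ => p.1 := Computable.fst
  have hq : Computable fun p : ℕ × ℚ × ℕ => p.2.1 := Computable.fst.comp Computable.snd
  have hk : Computable fun p : ℕ × ℚ × ℕ => p.2.2 := Computable.snd.comp Computable.snd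
  have hH : Computable fun p : ℕ × ℚ × ℕ => stepH B p.1 p.2.2 := computable_stepH hB hm hk
  have hK : Computable fun p : ℕ × ℚ × ℕ => accK B p.1 p.2.2 := computable_accK hB hm hk
  have hF : Computable₂ fun (p : ℕ × ℚ × ℕ) (i : ℕ) =>
      numTerm V (stepH B p.1 p.2.2) (accK B p.1 p.2.2) p.1 p.2.1 i := by
    have h1 : Computable fun r : (ℕ × ℚ × ℕ) × ℕ => stepH B r.1.1 r.1.2.2 := hH.comp Computable.fst
    have h2 : Computable fun r : (ℕ × ℚ × ℕ) × ℕ => accK B r.1.1 r.1.2.2 := hK.comp Computable.fst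
    have h3 : Computable fun r : (ℕ × ℚ × ℕ) × ℕ => r.1.1 := hm.comp Computable.fst
    have h4 : Computable fun r : (ℕ × ℚ × ℕ) × ℕ => r.1.2.1 := hq.comp Computable.fst
    have h5 : Computable fun r : (ℕ × ℚ × ℕ) × ℕ => r.2 := Computable.snd
    exact computable_numTerm hV h1 h2 h3 h4 h5
  have hsum : Computable fun p : ℕ × ℚ × ℕ => ∑ i ∈ range (p.1 + 1),
      numTerm V (stepH B p.1 p.2.2) (accK B p.1 p.2.2) p.1 p.2.1 i :=
    Computable.rat_sum hF (nat_add_comp hm (Computable.const 1))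
  exact Computable.rat_mul (Computable.rat_pow (Computable.rat_natCast hH) hm) hsum

theorem numDeriv_err {g : ℝ → ℝ} (hg : ContDiff ℝ ∞ g) {V : ℚ × ℕ → ℚ} {B : ℕ → ℕ}
    (hV : ∀ (q : ℚ) (K : ℕ), |g (q : ℝ) - (V (q, K) : ℝ)| ≤ 1 / ((K : ℝ) + 1))
    (hB : ∀ (m : ℕ) (x : ℝ), |iteratedDeriv m g x| ≤ (B m : ℝ)) (m : ℕ) (q : ℚ) (k : ℕ) :
    |iteratedDeriv m g (q : ℝ) - (numDeriv V B (m, q, k) : ℝ)| ≤ 1 / ((k : ℝ) + 1) := by
  set H : ℕ := stepH B m k with hHdef
  have hHpos : 0 < H := by
    simp only [hHdef, stepH]; positivity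
  have hHr : (0 : ℝ) < H := by exact_mod_cast hHpos
  set h : ℝ := 1 / (H : ℝ) with hh
  have hhpos : 0 < h := by positivity
  obtain ⟨ξ, h1, h2, h3⟩ := fwd_iter_mvt m g hg h hhpos (q : ℝ)
  rw [fwd_iter_formula] at h3
  have hHh : (H : ℝ) * h = 1 := by rw [hh]; field_simp
  have e1 : iteratedDeriv m g ξ
      = (H : ℝ) ^ m * ∑ i ∈ range (m + 1), (-1 : ℝ) ^ (m - i) * (m.choose i : ℝ) * g (q + i * h) := by
    rw [h3, ← mul_assoc, ← mul_pow, hHh]; simp
  set K : ℕ := accK B m k with hKdef
  have hnum : (numDeriv V B (m, q, k) : ℝ) = (H : ℝ) ^ m * ∑ i ∈ range (m + 1),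
      (-1 : ℝ) ^ (m - i) * (m.choose i : ℝ) * (V (q + (i : ℚ) / (H : ℚ), K) : ℝ) := by
    simp only [numDeriv, ← hHdef, ← hKdef]
    push_cast
    congr 1
    refine Finset.sum_congr rfl fun i hi => ?_
    have hi' : i ≤ m := Nat.lt_succ_iff.1 (Finset.mem_range.1 hi)
    rw [chooseQ_eq hi']
    push_cast
    rfl
  -- first error
  have herr1 : |iteratedDeriv m g (q : ℝ) - iteratedDeriv m g ξ| ≤ 1 / (2 * ((k : ℝ) + 1)) := by
    have hd : ∀ x ∈ (Set.univ : Set ℝ), DifferentiableAt ℝ (iteratedDeriv m g) x := by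
      intro x _
      exact ((iteratedDeriv_contDiff hg m).differentiable (by simp)) x
    have hb : ∀ x ∈ (Set.univ : Set ℝ), ‖deriv (iteratedDeriv m g) x‖ ≤ (B (m + 1) : ℝ) := by
      intro x _
      rw [← iteratedDeriv_succ, Real.norm_eq_abs]
      exact hB _ _
    have := convex_univ.norm_image_sub_le_of_norm_deriv_le hd hb (Set.mem_univ ξ) (Set.mem_univ (q : ℝ))
    rw [Real.norm_eq_abs, Real.norm_eq_abs, abs_of_nonpos (by linarith : (q : ℝ) - ξ ≤ 0)] at this
    refine this.trans ?_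
    have hHe : (H : ℝ) = 2 * ((k : ℝ) + 1) * ((m : ℝ) + 1) * ((B (m + 1) : ℝ) + 1) := by
      simp [hHdef, stepH]
    have hb0 : (0 : ℝ) ≤ B (m + 1) := Nat.cast_nonneg _
    have hk0 : (0 : ℝ) ≤ k := Nat.cast_nonneg _
    have hm0 : (0 : ℝ) ≤ m := Nat.cast_nonneg _
    have h4 : -((q : ℝ) - ξ) ≤ m * h := by linarith
    have h5 : (m : ℝ) * h * B (m + 1) ≤ 1 / (2 * ((k : ℝ) + 1)) := by
      rw [hh, hHe]
      rw [le_div_iff₀ (by positivity)]
      have hpos : 0 < 2 * ((k : ℝ) + 1) * ((m : ℝ) + 1) * ((B (m + 1) : ℝ) + 1) := by positivity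
      have : (m : ℝ) * (1 / (2 * ((k : ℝ) + 1) * ((m : ℝ) + 1) * ((B (m + 1) : ℝ) + 1))) * B (m + 1) *
          (2 * ((k : ℝ) + 1)) = (m : ℝ) * B (m + 1) / (((m : ℝ) + 1) * ((B (m + 1) : ℝ) + 1)) := by
        field_simp
      rw [this, div_le_one (by positivity)]
      nlinarith
    calc (B (m + 1) : ℝ) * -((q : ℝ) - ξ) ≤ (B (m + 1) : ℝ) * (m * h) :=
          mul_le_mul_of_nonneg_left h4 hb0
      _ = (m : ℝ) * h * B (m + 1) := by ring
      _ ≤ _ := h5
  -- second error
  have herr2 : |iteratedDeriv m g ξ - (numDeriv V B (m, q, k) : ℝ)| ≤ 1 / (2 * ((k : ℝ) + 1)) := by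
    rw [e1, hnum, ← mul_sub, ← Finset.sum_sub_distrib, abs_mul, abs_of_nonneg (by positivity)]
    have hKr : ((K : ℝ) + 1) ≥ 2 * ((k : ℝ) + 1) * 2 ^ m * (H : ℝ) ^ m := by
      have : (K : ℝ) = 2 * ((k : ℝ) + 1) * 2 ^ m * (H : ℝ) ^ m := by
        simp [hKdef, accK, hHdef]
      rw [this]; linarith
    have hsum : |∑ i ∈ range (m + 1), ((-1 : ℝ) ^ (m - i) * (m.choose i : ℝ) * g (q + i * h)
        - (-1 : ℝ) ^ (m - i) * (m.choose i : ℝ) * (V (q + (i : ℚ) / (H : ℚ), K) : ℝ))|
        ≤ ∑ i ∈ range (m + 1), (m.choose i : ℝ) * (1 / ((K : ℝ) + 1)) := by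
      refine (Finset.abs_sum_le_sum_abs _ _).trans (Finset.sum_le_sum fun i _ => ?_)
      rw [← mul_sub, abs_mul, abs_mul, abs_pow, abs_neg, abs_one, one_pow, one_mul, Nat.abs_cast]
      refine mul_le_mul_of_nonneg_left ?_ (Nat.cast_nonneg _)
      have := hV (q + (i : ℚ) / (H : ℚ)) K
      have e : (((q + (i : ℚ) / (H : ℚ) : ℚ)) : ℝ) = (q : ℝ) + i * h := by
        push_cast; rw [hh]; ring
      rw [e] at this
      exact this
    have hsum2 : ∑ i ∈ range (m + 1), (m.choose i : ℝ) * (1 / ((K : ℝ) + 1))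
        = 2 ^ m * (1 / ((K : ℝ) + 1)) := by
      rw [← Finset.sum_mul]
      congr 1
      have := Nat.sum_range_choose m
      exact_mod_cast this
    rw [hsum2] at hsum
    have hHm : (0 : ℝ) < (H : ℝ) ^ m := by positivity
    calc (H : ℝ) ^ m * |∑ i ∈ range (m + 1), ((-1 : ℝ) ^ (m - i) * (m.choose i : ℝ) * g (q + i * h)
        - (-1 : ℝ) ^ (m - i) * (m.choose i : ℝ) * (V (q + (i : ℚ) / (H : ℚ), K) : ℝ))|
        ≤ (H : ℝ) ^ m * (2 ^ m * (1 / ((K : ℝ) + 1))) := mul_le_mul_of_nonneg_left hsum hHm.le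
      _ ≤ (H : ℝ) ^ m * (2 ^ m * (1 / (2 * ((k : ℝ) + 1) * 2 ^ m * (H : ℝ) ^ m))) := by
          apply mul_le_mul_of_nonneg_left _ hHm.le
          apply mul_le_mul_of_nonneg_left _ (by positivity)
          exact one_div_le_one_div_of_le (by positivity) hKr
      _ = 1 / (2 * ((k : ℝ) + 1)) := by field_simp
  have : |iteratedDeriv m g (q : ℝ) - (numDeriv V B (m, q, k) : ℝ)|
      ≤ 1 / (2 * ((k : ℝ) + 1)) + 1 / (2 * ((k : ℝ) + 1)) := by
    calc _ = |(iteratedDeriv m g (q : ℝ) - iteratedDeriv m g ξ)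
          + (iteratedDeriv m g ξ - (numDeriv V B (m, q, k) : ℝ))| := by ring_nf
      _ ≤ _ := (abs_add_le _ _).trans (add_le_add herr1 herr2)
  refine this.trans (le_of_eq ?_)
  field_simp
  ring

/-- A smooth function with computable values at rational points and computable derivative bounds
is effective. -/
theorem EffOne.of_values {g : ℝ → ℝ} (hg : ContDiff ℝ ∞ g) (V : ℚ × ℕ → ℚ) (B : ℕ → ℕ)
    (hVc : Computable V) (hBc : Computable B)
    (hV : ∀ (q : ℚ) (K : ℕ), |g (q : ℝ) - (V (q, K) : ℝ)| ≤ 1 / ((K : ℝ) + 1))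
    (hB : ∀ (m : ℕ) (x : ℝ), |iteratedDeriv m g x| ≤ (B m : ℝ)) : EffOne g :=
  ⟨hg, numDeriv V B, B, computable_numDeriv hVc hBc, hBc, numDeriv_err hg hV hB, hB⟩

/-! ### The base function -/

theorem computable_Bd : Computable Bd := by
  have hf := computable_factorial
  have hpowc : ∀ c : ℕ, Computable fun n : ℕ => c ^ n := by
    intro c
    have : Computable fun n : ℕ => (Nat.rec 1 (fun _ y => y * c) n : ℕ) :=
      Computable.nat_rec (f := fun n : ℕ => n) (g := fun _ => 1)
        (h := fun _ p => p.2 * c) Computable.id (Computable.const 1)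
        (nat_mul_comp (Computable.snd.comp Computable.snd) (Computable.const c)).to₂
    refine this.of_eq fun n => ?_
    induction n with
    | zero => rfl
    | succ n ih => simp only [pow_succ]; rw [← ih]
  have hWd : Computable Wd := by
    unfold Wd
    exact nat_mul_comp (nat_mul_comp (Computable.const 2) (hpowc 6)) hf
  have hKd : Computable Kd := by
    unfold Kd
    exact nat_mul_comp (nat_mul_comp (Computable.const 8) (hpowc 2)) hf
  have h : Computable fun n : ℕ =>
      (Nat.casesOn n 1 (fun m => Wd m * Kd (2 * m + 2)) : ℕ) := by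
    refine Computable.nat_casesOn (f := fun n : ℕ => n) (g := fun _ => 1)
      (h := fun _ m => Wd m * Kd (2 * m + 2)) Computable.id (Computable.const 1) ?_
    have h1 : Computable fun r : ℕ × ℕ => r.2 := Computable.snd
    have h2 : Computable fun r : ℕ × ℕ => 2 * r.2 + 2 :=
      nat_add_comp (nat_mul_comp (Computable.const 2) h1) (Computable.const 2)
    exact (nat_mul_comp (hWd.comp h1) (hKd.comp h2)).to₂
  refine h.of_eq fun n => ?_
  cases n <;> rfl

theorem effOne_S : EffOne S :=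
  EffOne.of_values S_contDiff Sapprox Bd computable_Sapprox computable_Bd Sapprox_err
    abs_iteratedDeriv_S_le

end Crest.Agent.BF
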