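import Crest.Prelude.Def_BoxFlow

/-!
# Global flows of smooth compactly supported fields active in `[1/4,3/4]`
-/

set_option autoImplicit false
open scoped ContDiff NNReal

namespace Crest.Agent.BF

open Set Metric Filter Topology
open Crest.AnalysisR.BoxFlow

/-- Clamp to the unit interval. -/
noncomputable def cl (t : ℝ) : ℝ := max 0 (min t 1)

theorem cl_mem (t : ℝ) : cl t ∈ Icc (0 : ℝ) 1 := by
  unfold cl
  constructor
  · exact le_max_left _ _
  · exact max_le (by norm_num) (min_le_right _ _)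

theorem cl_of_mem {t : ℝ} (h : t ∈ Icc (0 : ℝ) 1) : cl t = t := by
  unfold cl
  rw [min_eq_left h.2, max_eq_right h.1]

theorem cl_of_nonpos {t : ℝ} (h : t ≤ 0) : cl t = 0 := by
  unfold cl
  rw [min_eq_left (by linarith), max_eq_left h]

theorem cl_of_one_le {t : ℝ} (h : 1 ≤ t) : cl t = 1 := by
  unfold cl
  rw [min_eq_right h, max_eq_right (by norm_num)]

theorem hasDerivAt_comp_cl {E : Type*} [NormedAddCommGroup E] [NormedSpace ℝ E] {α : ℝ → E}
    {t : ℝ} {v : E} (h : t ∈ Icc (0 : ℝ) 1 → HasDerivWithinAt α v (Icc 0 1) t)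
    (h0 : t ≤ 0 ∨ 1 ≤ t → v = 0) : HasDerivAt (fun s => α (cl s)) v t := by
  rcases lt_trichotomy t 0 with ht | rfl | ht
  · rw [h0 (Or.inl ht.le)]
    have hev : (fun s => α (cl s)) =ᶠ[𝓝 t] fun _ => α 0 := by
      filter_upwards [Iio_mem_nhds ht] with s hs
      rw [cl_of_nonpos (le_of_lt hs)]
    exact (hasDerivAt_const t (α 0)).congr_of_eventuallyEq hev
  · have hv := h0 (Or.inl le_rfl)
    have hleft : HasDerivWithinAt (fun s => α (cl s)) v (Iic 0) 0 := by
      rw [hv]
      refine (hasDerivWithinAt_const (0 : ℝ) (Iic 0) (α 0)).congr ?_ ?_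
      · intro s hs
        rw [cl_of_nonpos hs]
      · rw [cl_of_nonpos le_rfl]
    have hright : HasDerivWithinAt (fun s => α (cl s)) v (Ici 0) 0 := by
      have h1 := h (by simp)
      have h2 : HasDerivWithinAt α v (Ici 0) 0 :=
        h1.mono_of_mem_nhdsWithin (Icc_mem_nhdsGE (by norm_num))
      refine h2.congr_of_eventuallyEq ?_ ?_
      · filter_upwards [Icc_mem_nhdsGE (by norm_num : (0 : ℝ) < 1)] with s hs
        rw [cl_of_mem hs]
      · rw [cl_of_nonpos le_rfl]
    have := hleft.union hright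
    rwa [Iic_union_Ici, hasDerivWithinAt_univ] at this
  · rcases lt_trichotomy t 1 with ht1 | rfl | ht1
    · have h1 := h ⟨ht.le, ht1.le⟩
      have h2 : HasDerivAt α v t := h1.hasDerivAt (Icc_mem_nhds ht ht1)
      refine h2.congr_of_eventuallyEq ?_
      filter_upwards [Icc_mem_nhds ht ht1] with s hs
      rw [cl_of_mem hs]
    · have hv := h0 (Or.inr le_rfl)
      have hright : HasDerivWithinAt (fun s => α (cl s)) v (Ici 1) 1 := by
        rw [hv]
        refine (hasDerivWithinAt_const (1 : ℝ) (Ici 1) (α 1)).congr ?_ ?_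
        · intro s hs
          rw [cl_of_one_le hs]
        · rw [cl_of_one_le le_rfl]
      have hleft : HasDerivWithinAt (fun s => α (cl s)) v (Iic 1) 1 := by
        have h1 := h (by simp)
        have h2 : HasDerivWithinAt α v (Iic 1) 1 :=
          h1.mono_of_mem_nhdsWithin (Icc_mem_nhdsLE (by norm_num))
        refine h2.congr_of_eventuallyEq ?_ ?_
        · filter_upwards [Icc_mem_nhdsLE (by norm_num : (0 : ℝ) < 1)] with s hs
          rw [cl_of_mem hs]
        · rw [cl_of_one_le le_rfl]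
      have := hleft.union hright
      rwa [Iic_union_Ici, hasDerivWithinAt_univ] at this
    · rw [h0 (Or.inr ht1.le)]
      have hev : (fun s => α (cl s)) =ᶠ[𝓝 t] fun _ => α 1 := by
        filter_upwards [Ioi_mem_nhds ht1] with s hs
        rw [cl_of_one_le (le_of_lt hs)]
      exact (hasDerivAt_const t (α 1)).congr_of_eventuallyEq hev

/-- Global flow and uniqueness. -/
theorem exists_flow_unique (U : Field) (hU : ContDiff ℝ ∞ U) (hc : HasCompactSupport U)
    (ht : ∀ p : ℝ × (Fin 3 → ℝ), p.1 ∉ Icc (1 / 4 : ℝ) (3 / 4) → U p = 0) :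
    ∃ Φ : ℝ → (Fin 3 → ℝ) → (Fin 3 → ℝ), IsFlow U Φ ∧
      ∀ (γ : ℝ → (Fin 3 → ℝ)) (x : Fin 3 → ℝ), γ 0 = x →
        (∀ t, HasDerivAt γ (U (t, γ t)) t) → ∀ t, γ t = Φ t x := by
  obtain ⟨C, hC⟩ : ∃ C, LipschitzWith C U :=
    ContDiff.lipschitzWith_of_hasCompactSupport hc hU (by simp)
  obtain ⟨M, hM⟩ := hc.exists_bound_of_continuous hU.continuous
  have hM0 : 0 ≤ M := (norm_nonneg _).trans (hM (0, 0))
  have hslice : ∀ t : ℝ, LipschitzWith C (fun y : Fin 3 → ℝ => U (t, y)) := by
    intro t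
    have h1 : LipschitzWith 1 (Prod.mk t : (Fin 3 → ℝ) → ℝ × (Fin 3 → ℝ)) :=
      LipschitzWith.prodMk_left t
    have h2 := hC.comp h1
    rw [mul_one] at h2
    exact h2
  let M' : ℝ≥0 := ⟨M, hM0⟩
  have hPL : ∀ x : Fin 3 → ℝ, IsPicardLindelof (fun (t : ℝ) (y : Fin 3 → ℝ) => U (t, y))
      (tmin := 0) (tmax := 1) ⟨0, by norm_num⟩ x M' 0 M' C := by
    intro x
    refine ⟨fun t _ => (hslice t).lipschitzOnWith, fun y _ => ?_, fun t _ y _ => hM _, ?_⟩
    · exact (hU.continuous.comp (continuous_id.prodMk continuous_const)).continuousOn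
    · simp [M']
  have hex := fun x => (hPL x).exists_eq_forall_mem_Icc_hasDerivWithinAt₀
  choose α hα0 hα using hex
  have hα0' : ∀ x, α x 0 = x := hα0
  refine ⟨fun t x => α x (cl t), ⟨fun x => ?_, fun t x => ?_⟩, ?_⟩
  · show α x (cl 0) = x
    rw [cl_of_nonpos le_rfl, hα0']
  · refine hasDerivAt_comp_cl (fun hmem => ?_) (fun hout => ?_)
    · have := hα x t hmem
      simpa [cl_of_mem hmem] using this
    · refine ht (t, _) ?_
      rintro ⟨h1, h2⟩
      rcases hout with h3 | h3 <;> norm_num at h1 h2 <;> linarith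
  · intro γ x hγ0 hγ t
    have hΦ : ∀ s, HasDerivAt (fun s => α x (cl s)) (U (s, α x (cl s))) s := by
      intro s
      refine hasDerivAt_comp_cl (fun hmem => ?_) (fun hout => ?_)
      · have := hα x s hmem
        simpa [cl_of_mem hmem] using this
      · refine ht (s, _) ?_
        rintro ⟨h1, h2⟩
        rcases hout with h3 | h3 <;> norm_num at h1 h2 <;> linarith
    have huniq := ODE_solution_unique_univ (K := C) (v := fun (s : ℝ) (y : Fin 3 → ℝ) => U (s, y))
      (s := fun _ => univ) (f := γ) (g := fun s => α x (cl s)) (t₀ := 0)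
      (fun s => (hslice s).lipschitzOnWith) (fun s => ⟨hγ s, mem_univ _⟩)
      (fun s => ⟨hΦ s, mem_univ _⟩) (by rw [hγ0, cl_of_nonpos le_rfl, hα0'])
    exact congrFun huniq t

end Crest.Agent.BF
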