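import Crest.Agent.Lib.BoxFlow.Config

/-!
# Translations of one box, separation, sweeping
-/

set_option autoImplicit false
open scoped ContDiff

namespace Crest.Agent.BF

open Set
open Crest.AnalysisR.BoxFlow
open Crest.Agent.Lib.BoxFlow

/-- Lower end of the swept region. -/
def sweepLo (c h : Fin 3 → ℚ) (ax : Fin 3) (T : ℚ) (j : Fin 3) : ℚ :=
  (if j = ax then min (c ax) T else c j) - h j

/-- Upper end of the swept region. -/
def sweepHi (c h : Fin 3 → ℚ) (ax : Fin 3) (T : ℚ) (j : Fin 3) : ℚ :=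
  (if j = ax then max (c ax) T else c j) + h j

theorem exists_ne_fin3 (ax : Fin 3) : ∃ l : Fin 3, ax ≠ l := ⟨ax + 1, by fin_cases ax <;> decide⟩

/-- Open box. -/
def openBox (c : Fin 3 → ℚ) (w : Fin 3 → ℚ) : Set E3 := {x | ∀ j, |x j - (c j : ℝ)| < (w j : ℝ)}

theorem isOpen_openBox (c w : Fin 3 → ℚ) : IsOpen (openBox c w) := by
  have : openBox c w = ⋂ j, {x : E3 | |x j - (c j : ℝ)| < (w j : ℝ)} := by
    ext x; simp [openBox]
  rw [this]
  refine isOpen_iInter_of_finite fun j => isOpen_lt ?_ continuous_const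
  fun_prop

theorem box_subset_openBox {c h w : Fin 3 → ℚ} (hw : ∀ j, h j < w j) : box c h ⊆ openBox c w := by
  intro x hx j
  have : (h j : ℝ) < w j := by exact_mod_cast hw j
  exact lt_of_le_of_lt (hx j) this

theorem move_translate {n : ℕ} {A B : Cfg n} (i₀ : Fin n) (ax : Fin 3) (T : ℚ) (hh : B.h = A.h)
    (hc : ∀ m, m ≠ i₀ → B.c m = A.c m) (hT : B.c i₀ ax = T)
    (hc₀ : ∀ j, j ≠ ax → B.c i₀ j = A.c i₀ j)
    (hsep : ∀ m, m ≠ i₀ → ∃ j, A.c m j + A.h m j < sweepLo (A.c i₀) (A.h i₀) ax T j ∨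
      sweepHi (A.c i₀) (A.h i₀) ax T j < A.c m j - A.h m j) : Moves A B := by
  set lo0 := sweepLo (A.c i₀) (A.h i₀) ax T with hlo0
  set hi0 := sweepHi (A.c i₀) (A.h i₀) ax T with hhi0
  obtain ⟨ε, hε, hP⟩ : ∃ ε : ℚ, 0 < ε ∧ ∀ m : {m // m ≠ i₀}, ∃ j,
      A.c m.1 j + A.h m.1 j < lo0 j - 2 * ε ∨ hi0 j + 2 * ε < A.c m.1 j - A.h m.1 j := by
    refine exists_pos_forall fun m => ?_
    obtain ⟨j, hj⟩ := hsep m.1 m.2
    rcases hj with hj | hj
    · refine ⟨(lo0 j - (A.c m.1 j + A.h m.1 j)) / 4, by linarith, fun δ _ hδ => ⟨j, Or.inl ?_⟩⟩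
      linarith
    · refine ⟨((A.c m.1 j - A.h m.1 j) - hi0 j) / 4, by linarith, fun δ _ hδ => ⟨j, Or.inr ?_⟩⟩
      linarith
  obtain ⟨l, hl⟩ := exists_ne_fin3 ax
  have hloHi : ∀ j, lo0 j - ε ≤ hi0 j + ε := by
    intro j
    have h1 := A.pos i₀ j
    simp only [hlo0, hhi0, sweepLo, sweepHi]
    split_ifs
    · have := min_le_left (A.c i₀ ax) T
      have := le_max_left (A.c i₀ ax) T
      linarith
    · linarith
  let s : StepData :=
    { k := ax, l := l, hkl := hl, α := T - A.c i₀ ax, a := 0,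
      lo := fun j => lo0 j - ε, hi := fun j => hi0 j + ε, hlh := hloHi, c := 1 / ε,
      hc := by positivity }
  refine move_one_box i₀ [s] s.lo s.hi ε ?_ ?_ ?_ ?_
  · intro s' hs'
    rw [List.mem_singleton] at hs'
    subst hs'
    refine ⟨rfl, rfl, ?_⟩
    show 1 / (1 / ε) = ε
    field_simp
  · intro m hm
    obtain ⟨j, hj⟩ := hP ⟨m, hm⟩
    refine ⟨j, ?_⟩
    show _ < lo0 j - ε - ε ∨ hi0 j + ε + ε < _
    rcases hj with hj | hj
    · left; linarith
    · right; linarith
  · intro m hm
    exact ⟨hc m hm, by rw [hh]⟩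
  · refine ⟨openBox (A.c i₀) (fun j => A.h i₀ j + ε), isOpen_openBox _ _,
      box_subset_openBox fun j => by linarith, fun x hx => ?_⟩
    have hε' : (0 : ℝ) < ε := by exact_mod_cast hε
    have hlo : ∀ j, (lo0 j : ℝ) = (if j = ax then ((min (A.c i₀ ax) T : ℚ) : ℝ) else (A.c i₀ j : ℝ))
        - (A.h i₀ j : ℝ) := by
      intro j
      simp only [hlo0, sweepLo]
      push_cast
      split_ifs <;> simp
    have hhi : ∀ j, (hi0 j : ℝ) = (if j = ax then ((max (A.c i₀ ax) T : ℚ) : ℝ) else (A.c i₀ j : ℝ))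
        + (A.h i₀ j : ℝ) := by
      intro j
      simp only [hhi0, sweepHi]
      push_cast
      split_ifs <;> simp
    have hmin1 : ((min (A.c i₀ ax) T : ℚ) : ℝ) ≤ A.c i₀ ax := by exact_mod_cast min_le_left _ _
    have hmin2 : ((min (A.c i₀ ax) T : ℚ) : ℝ) ≤ T := by exact_mod_cast min_le_right _ _
    have hmax1 : (A.c i₀ ax : ℝ) ≤ ((max (A.c i₀ ax) T : ℚ) : ℝ) := by exact_mod_cast le_max_left _ _
    have hmax2 : (T : ℝ) ≤ ((max (A.c i₀ ax) T : ℚ) : ℝ) := by exact_mod_cast le_max_right _ _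
    have hxj : ∀ j, |x j - (A.c i₀ j : ℝ)| < (A.h i₀ j : ℝ) + ε := by
      intro j
      have := hx j
      simpa using this
    have hsα : (s.α : ℝ) = (T : ℝ) - A.c i₀ ax := by
      show ((T - A.c i₀ ax : ℚ) : ℝ) = _
      push_cast; rfl
    have hsa : (s.a : ℝ) = 0 := by
      show ((0 : ℚ) : ℝ) = _
      simp
    have hslo : ∀ j, (s.lo j : ℝ) = (lo0 j : ℝ) - ε := by
      intro j
      show ((lo0 j - ε : ℚ) : ℝ) = _
      push_cast; rfl
    have hshi : ∀ j, (s.hi j : ℝ) = (hi0 j : ℝ) + ε := by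
      intro j
      show ((hi0 j + ε : ℚ) : ℝ) = _
      push_cast; rfl
    have hsk : s.k = ax := rfl
    have h1 : ∀ i, (s.lo i : ℝ) ≤ x i ∧ x i ≤ s.hi i := by
      intro i
      have hi := abs_lt.1 (hxj i)
      rw [hslo, hshi, hlo, hhi]
      by_cases hia : i = ax
      · subst hia
        simp only [if_true]
        constructor <;> linarith [hi.1, hi.2]
      · simp only [if_neg hia]
        constructor <;> linarith [hi.1, hi.2]
    have h2 : ∀ i, (s.lo i : ℝ) ≤ (x + (Pi.single s.k ((s.α : ℝ) + s.a * x s.l) : E3)) i ∧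
        (x + (Pi.single s.k ((s.α : ℝ) + s.a * x s.l) : E3)) i ≤ s.hi i := by
      intro i
      have hi := abs_lt.1 (hxj i)
      rw [hslo, hshi, hlo, hhi, hsα, hsa, hsk]
      by_cases hia : i = ax
      · subst hia
        simp only [if_true, Pi.add_apply, Pi.single_eq_same, zero_mul, add_zero]
        constructor <;> linarith [hi.1, hi.2]
      · simp only [if_neg hia, Pi.add_apply, Pi.single_eq_of_ne hia, add_zero]
        constructor <;> linarith [hi.1, hi.2]
    obtain ⟨hcl, hV⟩ := clean_of_flat h1 h2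
    refine ⟨⟨hcl, trivial⟩, ?_⟩
    show x + stepV s x = _
    rw [hV, hsα, hsa, hsk]
    funext j
    have hhj : (A.h i₀ j : ℝ) ≠ 0 := by exact_mod_cast (A.pos i₀ j).ne'
    rw [aff_apply, hh]
    have e1 : ((A.h i₀ j / A.h i₀ j : ℚ) : ℝ) = 1 := by
      rw [div_self (A.pos i₀ j).ne']; simp
    rw [e1]
    by_cases hja : j = ax
    · subst hja
      simp only [Pi.add_apply, Pi.single_eq_same, hT]
      ring
    · simp only [Pi.add_apply, Pi.single_eq_of_ne hja, hc₀ j hja]
      ring

/-- Separation of disjoint boxes. -/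
theorem sep_of_disjoint {c h c' h' : Fin 3 → ℚ} (hh : ∀ j, 0 < h j) (hh' : ∀ j, 0 < h' j)
    (hd : Disjoint (box c h) (box c' h')) :
    ∃ j, c j + h j < c' j - h' j ∨ c' j + h' j < c j - h j := by
  by_contra hcon
  push Not at hcon
  let x : E3 := fun j => max ((c j : ℝ) - h j) ((c' j : ℝ) - h' j)
  have hx1 : x ∈ box c h := by
    intro j
    have h1 := hcon j
    have h2 : ((c' j - h' j : ℚ) : ℝ) ≤ ((c j + h j : ℚ) : ℝ) := by exact_mod_cast h1.1
    push_cast at h2
    have h3 : (0 : ℝ) < h j := by exact_mod_cast hh j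
    rw [abs_le]
    constructor
    · have := le_max_left ((c j : ℝ) - h j) ((c' j : ℝ) - h' j)
      show -(h j : ℝ) ≤ max ((c j : ℝ) - h j) ((c' j : ℝ) - h' j) - c j
      linarith
    · have : max ((c j : ℝ) - h j) ((c' j : ℝ) - h' j) ≤ c j + h j :=
        max_le (by linarith) h2
      show max ((c j : ℝ) - h j) ((c' j : ℝ) - h' j) - c j ≤ h j
      linarith
  have hx2 : x ∈ box c' h' := by
    intro j
    have h1 := hcon j
    have h2 : ((c j - h j : ℚ) : ℝ) ≤ ((c' j + h' j : ℚ) : ℝ) := by exact_mod_cast h1.2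
    push_cast at h2
    have h3 : (0 : ℝ) < h' j := by exact_mod_cast hh' j
    rw [abs_le]
    constructor
    · have := le_max_right ((c j : ℝ) - h j) ((c' j : ℝ) - h' j)
      show -(h' j : ℝ) ≤ max ((c j : ℝ) - h j) ((c' j : ℝ) - h' j) - c' j
      linarith
    · have : max ((c j : ℝ) - h j) ((c' j : ℝ) - h' j) ≤ c' j + h' j :=
        max_le h2 (by linarith)
      show max ((c j : ℝ) - h j) ((c' j : ℝ) - h' j) - c' j ≤ h' j
      linarith
  exact (Set.disjoint_left.1 hd hx1) hx2

/-- Independent translations when the boxes are separated along another axis. -/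
theorem indep_moves {n : ℕ} (A : Cfg n) (ax sp : Fin 3) (hne : ax ≠ sp)
    (hslab : ∀ i m, i ≠ m → A.c i sp + A.h i sp < A.c m sp - A.h m sp ∨
      A.c m sp + A.h m sp < A.c i sp - A.h i sp)
    (B : Cfg n) (hh : B.h = A.h) (hc : ∀ i j, j ≠ ax → B.c i j = A.c i j) : Moves A B := by
  classical
  let cfgU : Finset (Fin n) → Cfg n := fun U =>
    ⟨fun i j => if i ∈ U then B.c i j else A.c i j, A.h, A.pos⟩
  have hU : ∀ U : Finset (Fin n), Moves A (cfgU U) := by
    intro U
    induction U using Finset.induction_on with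
    | empty =>
      have : cfgU ∅ = A := by
        cases A; simp [cfgU]
      rw [this]; exact Moves.refl A
    | insert i₀ U hi₀ ih =>
      refine ih.trans ?_
      refine move_translate i₀ ax (B.c i₀ ax) rfl ?_ ?_ ?_ ?_
      · intro m hm
        funext j
        simp [cfgU, Finset.mem_insert, hm]
      · simp [cfgU]
      · intro j hj
        simp [cfgU, hi₀, hc i₀ j hj]
      · intro m hm
        refine ⟨sp, ?_⟩
        have e1 : ∀ i, (cfgU U).c i sp = A.c i sp := by
          intro i
          show (if i ∈ U then B.c i sp else A.c i sp) = _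
          split_ifs
          · exact hc i sp hne.symm
          · rfl
        have e2 : sp ≠ ax := hne.symm
        simp only [sweepLo, sweepHi, if_neg e2, e1]
        show _ + A.h m sp < _ - A.h i₀ sp ∨ _ + A.h i₀ sp < _ - A.h m sp
        rcases hslab m i₀ hm with h | h
        · exact Or.inl h
        · exact Or.inr h
  have : cfgU Finset.univ = B := by
    cases B with
    | mk c h pos =>
      simp only [cfgU] at *
      subst hh
      simp
  rw [← this]
  exact hU _

theorem exists_bound_rat {ι : Type*} [Fintype ι] (g : ι → ℚ) : ∃ G : ℚ, 0 < G ∧ ∀ i, g i ≤ G := by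
  refine ⟨∑ i, |g i| + 1, ?_, fun i => ?_⟩
  · have : 0 ≤ ∑ i, |g i| := Finset.sum_nonneg fun i _ => abs_nonneg _
    linarith
  · have h1 : |g i| ≤ ∑ i, |g i| :=
      Finset.single_le_sum (f := fun i => |g i|) (fun i _ => abs_nonneg _) (Finset.mem_univ i)
    linarith [le_abs_self (g i)]

/-- Sweeping upward: boxes get separated along axis 0. -/
theorem sweep_up {n : ℕ} (A : Cfg n)
    (hdisj : ∀ i m, i ≠ m → ∃ j, A.c i j + A.h i j < A.c m j - A.h m j ∨
      A.c m j + A.h m j < A.c i j - A.h i j) :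
    ∃ B : Cfg n, Moves A B ∧ B.h = A.h ∧ (∀ i j, j ≠ 0 → B.c i j = A.c i j) ∧
      ∀ i m, i ≠ m → B.c i 0 + B.h i 0 < B.c m 0 - B.h m 0 ∨
        B.c m 0 + B.h m 0 < B.c i 0 - B.h i 0 := by
  classical
  let f : Fin n → ℚ := fun i => A.c i 0 + A.h i 0
  let σ : Equiv.Perm (Fin n) := Tuple.sort f
  have hσ : Monotone (f ∘ σ) := Tuple.monotone_sort f
  let pos : Fin n → ℕ := fun i => (σ.symm i : ℕ)
  have hposinj : ∀ i m, pos i = pos m → i = m := by
    intro i m h
    exact σ.symm.injective (Fin.ext h)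
  have hmono : ∀ m i, pos m < pos i → f m ≤ f i := by
    intro m i h
    have h1 : σ.symm m ≤ σ.symm i := le_of_lt h
    have h2 := hσ h1
    simpa using h2
  obtain ⟨M, -, hM⟩ := exists_bound_rat f
  obtain ⟨W, hW0, hW⟩ := exists_bound_rat fun i => A.h i 0
  let H : ℕ → ℚ := fun r => M + 3 * W * ((r : ℚ) + 1)
  have hHgap : ∀ a b : ℕ, a < b → H a + 3 * W ≤ H b := by
    intro a b hab
    have h1 : (a : ℚ) + 1 ≤ b := by exact_mod_cast hab
    simp only [H]
    nlinarith
  have hHM : ∀ a : ℕ, M + 3 * W ≤ H a := by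
    intro a
    have h1 : (0 : ℚ) ≤ a := Nat.cast_nonneg a
    simp only [H]
    nlinarith
  let cfg : ℕ → Cfg n := fun k =>
    ⟨fun i j => if j = 0 then (if pos i < k then A.c i 0 else H (pos i)) else A.c i j, A.h, A.pos⟩
  have hstep : ∀ k, k < n → Moves (cfg (k + 1)) (cfg k) := by
    intro k hk
    let i₀ : Fin n := σ ⟨k, hk⟩
    have hi₀ : pos i₀ = k := by simp [pos, i₀]
    refine move_translate i₀ 0 (H k) rfl ?_ ?_ ?_ ?_
    · intro m hm
      funext j
      have hmk : pos m ≠ k := fun h => hm (hposinj _ _ (h.trans hi₀.symm))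
      by_cases hj : j = 0
      · subst hj
        have : pos m < k ↔ pos m < k + 1 := by omega
        simp [cfg, this]
      · simp [cfg, hj]
    · simp [cfg, hi₀]
    · intro j hj
      simp [cfg, hj]
    · intro m hm
      have hmk : pos m ≠ k := fun h => hm (hposinj _ _ (h.trans hi₀.symm))
      have hci₀ : ∀ j, (cfg (k + 1)).c i₀ j = A.c i₀ j := by
        intro j
        by_cases hj : j = 0
        · subst hj; simp [cfg, hi₀]
        · simp [cfg, hj]
      have hhh : ∀ i, (cfg (k + 1)).h i = A.h i := fun i => rfl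
      by_cases hlt : pos m < k + 1
      · have hcm : ∀ j, (cfg (k + 1)).c m j = A.c m j := by
          intro j
          by_cases hj : j = 0
          · subst hj; simp [cfg, hlt]
          · simp [cfg, hj]
        obtain ⟨j, hj⟩ := hdisj m i₀ hm
        refine ⟨j, ?_⟩
        simp only [sweepLo, sweepHi, hcm, hci₀, hhh]
        by_cases hj0 : j = 0
        · subst hj0
          simp only [if_true]
          have hA : A.c i₀ 0 ≤ H k := by
            have h1 := hM i₀
            have h2 := hHM k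
            have h3 := A.pos i₀ 0
            simp only [f] at h1
            linarith
          rw [min_eq_left hA, max_eq_right hA]
          rcases hj with hj | hj
          · exact Or.inl hj
          · exfalso
            have h1 : pos m < pos i₀ := by omega
            have h2 := hmono m i₀ h1
            have h3 := A.pos m 0
            simp only [f] at h2
            linarith
        · simp only [if_neg hj0]
          exact hj
      · refine ⟨0, Or.inr ?_⟩
        have hcm : (cfg (k + 1)).c m 0 = H (pos m) := by simp [cfg, hlt]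
        have hA : A.c i₀ 0 ≤ H k := by
          have h1 := hM i₀
          have h2 := hHM k
          have h3 := A.pos i₀ 0
          simp only [f] at h1
          linarith
        simp only [sweepHi, if_true, hcm, hci₀, hhh]
        rw [max_eq_right hA]
        have h1 := hHgap k (pos m) (by omega)
        have h2 : A.h i₀ 0 ≤ W := hW i₀
        have h3 : A.h m 0 ≤ W := hW m
        linarith
  have hall : ∀ k, k ≤ n → Moves (cfg k) (cfg 0) := by
    intro k
    induction k with
    | zero => intro _; exact Moves.refl _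
    | succ k ih =>
      intro hk
      exact (hstep k (by omega)).trans (ih (by omega))
  have hn : cfg n = A := by
    cases A with
    | mk c h p =>
      have : ∀ i, pos i < n := fun i => (σ.symm i).2
      simp only [cfg, this, if_true]
      congr 1
      funext i j
      by_cases hj : j = 0
      · subst hj; simp
      · simp [hj]
  refine ⟨cfg 0, hn ▸ hall n le_rfl, rfl, ?_, ?_⟩
  · intro i j hj
    simp [cfg, hj]
  · intro i m him
    have h1 : (cfg 0).c i 0 = H (pos i) := by simp [cfg]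
    have h2 : (cfg 0).c m 0 = H (pos m) := by simp [cfg]
    have h3 : (cfg 0).h i 0 = A.h i 0 := rfl
    have h4 : (cfg 0).h m 0 = A.h m 0 := rfl
    rw [h1, h2, h3, h4]
    have h5 : A.h i 0 ≤ W := hW i
    have h6 : A.h m 0 ≤ W := hW m
    have hne : pos i ≠ pos m := fun h => him (hposinj _ _ h)
    rcases lt_or_gt_of_ne hne with hlt | hlt
    · left
      have := hHgap _ _ hlt
      linarith
    · right
      have := hHgap _ _ hlt
      linarith

/-- Move to the canonical centres. -/
theorem to_canon {n : ℕ} (A : Cfg n)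
    (hdisj : ∀ i m, i ≠ m → ∃ j, A.c i j + A.h i j < A.c m j - A.h m j ∨
      A.c m j + A.h m j < A.c i j - A.h i j) (P : Fin n → ℚ)
    (hP : ∀ i m, i ≠ m → P i + A.h i 1 < P m - A.h m 1 ∨ P m + A.h m 1 < P i - A.h i 1) :
    Moves A ⟨fun i _ => P i, A.h, A.pos⟩ := by
  obtain ⟨B₁, hB₁, hh₁, hc₁, hs₁⟩ := sweep_up A hdisj
  let B₂ : Cfg n := ⟨fun i j => if j = 1 then P i else B₁.c i j, B₁.h, B₁.pos⟩
  let B₃ : Cfg n := ⟨fun i j => if j = 2 then P i else B₂.c i j, B₁.h, B₁.pos⟩
  let B₄ : Cfg n := ⟨fun i _ => P i, B₁.h, B₁.pos⟩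
  have h12 : Moves B₁ B₂ := by
    refine indep_moves B₁ 1 0 (by decide) hs₁ B₂ rfl ?_
    intro i j hj
    simp [B₂, hj]
  have h23 : Moves B₂ B₃ := by
    refine indep_moves B₂ 2 0 (by decide) ?_ B₃ rfl ?_
    · intro i m him
      have e : ∀ i, B₂.c i 0 = B₁.c i 0 := by
        intro i; simp [B₂]
      have e2 : ∀ i, B₂.h i = B₁.h i := fun i => rfl
      simp only [e, e2]
      exact hs₁ i m him
    · intro i j hj
      simp [B₃, hj]
  have h34 : Moves B₃ B₄ := by
    refine indep_moves B₃ 0 1 (by decide) ?_ B₄ rfl ?_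
    · intro i m him
      have e : ∀ i, B₃.c i 1 = P i := by
        intro i; simp [B₃, B₂]
      have e2 : ∀ i, B₃.h i = A.h i := fun i => by
        show B₁.h i = A.h i
        rw [hh₁]
      simp only [e, e2]
      exact hP i m him
    · intro i j hj
      fin_cases j
      · exact absurd rfl hj
      · simp [B₃, B₄, B₂]
      · simp [B₃, B₄]
  have h4 : B₄ = ⟨fun i _ => P i, A.h, A.pos⟩ := by
    simp only [B₄]
    congr 1
  rw [← h4]
  exact hB₁.trans (h12.trans (h23.trans h34))

end Crest.Agent.BF
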