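import Crest.Agent.Lib.BoxFlow.Moves1

/-!
# Stretching one box by four shears inside a private room
-/

set_option autoImplicit false
open scoped ContDiff

namespace Crest.Agent.BF

open Set
open Crest.AnalysisR.BoxFlow
open Crest.Agent.Lib.BoxFlow

/-- A shear around the centre `C` supported in the room of radius `ρ` around `C`. -/
def shearS (C : Fin 3 → ℚ) (ρ ε : ℚ) (hρ0 : 0 ≤ ρ) (hε : 0 < ε) (k l : Fin 3) (hkl : k ≠ l) (q : ℚ) :
    StepData :=
  { k := k, l := l, hkl := hkl, α := -q * C l, a := q, lo := fun j => C j - ρ,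
    hi := fun j => C j + ρ, hlh := fun j => by linarith, c := 1 / ε, hc := by positivity }

theorem shearS_step {C : Fin 3 → ℚ} {ρ ε : ℚ} {hρ0 : 0 ≤ ρ} {hε : 0 < ε} {k l : Fin 3} {hkl : k ≠ l} {q : ℚ}
    {y : E3} (hy : ∀ i, |y i - (C i : ℝ)| ≤ ρ)
    (hyk : |y k - (C k : ℝ) + q * (y l - (C l : ℝ))| ≤ ρ) :
    Clean (shearS C ρ ε hρ0 hε k l hkl q) y ∧
      stepV (shearS C ρ ε hρ0 hε k l hkl q) y = Pi.single k ((q : ℝ) * (y l - (C l : ℝ))) := by
  set s := shearS C ρ ε hρ0 hε k l hkl q with hs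
  have hlo : ∀ j, (s.lo j : ℝ) = (C j : ℝ) - ρ := by
    intro j
    show ((C j - ρ : ℚ) : ℝ) = _
    push_cast; rfl
  have hhi : ∀ j, (s.hi j : ℝ) = (C j : ℝ) + ρ := by
    intro j
    show ((C j + ρ : ℚ) : ℝ) = _
    push_cast; rfl
  have hsk : s.k = k := rfl
  have hsl : s.l = l := rfl
  have hw : (s.α : ℝ) + s.a * y s.l = (q : ℝ) * (y l - (C l : ℝ)) := by
    show ((-q * C l : ℚ) : ℝ) + (q : ℝ) * y l = _
    push_cast; ring
  have h1 : ∀ i, (s.lo i : ℝ) ≤ y i ∧ y i ≤ s.hi i := by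
    intro i
    rw [hlo, hhi]
    have := abs_le.1 (hy i)
    constructor <;> linarith [this.1, this.2]
  have h2 : ∀ i, (s.lo i : ℝ) ≤ (y + (Pi.single s.k ((s.α : ℝ) + s.a * y s.l) : E3)) i ∧
      (y + (Pi.single s.k ((s.α : ℝ) + s.a * y s.l) : E3)) i ≤ s.hi i := by
    intro i
    rw [hw, hsk]
    by_cases hik : i = k
    · subst hik
      rw [hlo, hhi]
      simp only [Pi.add_apply, Pi.single_eq_same]
      have := abs_le.1 hyk
      constructor <;> linarith [this.1, this.2]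
    · simp only [Pi.add_apply, Pi.single_eq_of_ne hik, add_zero]
      exact h1 i
  obtain ⟨hc, hV⟩ := clean_of_flat h1 h2
  refine ⟨hc, ?_⟩
  rw [hV, hw, hsk]

/-- Coordinates of a point in the plane of the stretch. -/
def Co (C : Fin 3 → ℚ) (j₁ j₂ : Fin 3) (x p : E3) (a b : ℝ) : Prop :=
  p j₁ = (C j₁ : ℝ) + a ∧ p j₂ = (C j₂ : ℝ) + b ∧ ∀ j, j ≠ j₁ → j ≠ j₂ → p j = x j

theorem Co.symm {C : Fin 3 → ℚ} {j₁ j₂ : Fin 3} {x p : E3} {a b : ℝ} (h : Co C j₁ j₂ x p a b) :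
    Co C j₂ j₁ x p b a :=
  ⟨h.2.1, h.1, fun j h1 h2 => h.2.2 j h2 h1⟩

theorem step21 {C : Fin 3 → ℚ} {ρ ε : ℚ} {hρ0 : 0 ≤ ρ} {hε : 0 < ε} {j₁ j₂ : Fin 3} (hne : j₁ ≠ j₂) {q : ℚ}
    {x p : E3} {a b : ℝ} (hp : Co C j₁ j₂ x p a b) (ha : |a| ≤ ρ) (hb : |b| ≤ ρ)
    (hb' : |b + q * a| ≤ ρ) (hx : ∀ j, j ≠ j₁ → j ≠ j₂ → |x j - (C j : ℝ)| ≤ ρ) :
    Clean (shearS C ρ ε hρ0 hε j₂ j₁ hne.symm q) p ∧
      Co C j₁ j₂ x (p + stepV (shearS C ρ ε hρ0 hε j₂ j₁ hne.symm q) p) a (b + q * a) := by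
  obtain ⟨h1, h2, h3⟩ := hp
  have hroom : ∀ i, |p i - (C i : ℝ)| ≤ ρ := by
    intro i
    by_cases hi1 : i = j₁
    · subst hi1; rw [h1]; simpa using ha
    by_cases hi2 : i = j₂
    · subst hi2; rw [h2]; simpa using hb
    rw [h3 i hi1 hi2]
    exact hx i hi1 hi2
  have hk : |p j₂ - (C j₂ : ℝ) + q * (p j₁ - (C j₁ : ℝ))| ≤ ρ := by
    rw [h1, h2]; simpa using hb'
  obtain ⟨hc, hV⟩ := shearS_step (hρ0 := hρ0) (hε := hε) (hkl := hne.symm) (q := q) hroom hk
  refine ⟨hc, ?_⟩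
  rw [hV, h1, add_sub_cancel_left]
  refine ⟨?_, ?_, ?_⟩
  · simp only [Pi.add_apply, Pi.single_eq_of_ne hne, add_zero]
    exact h1
  · simp only [Pi.add_apply, Pi.single_eq_same, h2]
    ring
  · intro j hj1 hj2
    simp only [Pi.add_apply, Pi.single_eq_of_ne hj2, add_zero]
    exact h3 j hj1 hj2

theorem step12 {C : Fin 3 → ℚ} {ρ ε : ℚ} {hρ0 : 0 ≤ ρ} {hε : 0 < ε} {j₁ j₂ : Fin 3} (hne : j₁ ≠ j₂) {q : ℚ}
    {x p : E3} {a b : ℝ} (hp : Co C j₁ j₂ x p a b) (ha : |a| ≤ ρ) (hb : |b| ≤ ρ)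
    (ha' : |a + q * b| ≤ ρ) (hx : ∀ j, j ≠ j₁ → j ≠ j₂ → |x j - (C j : ℝ)| ≤ ρ) :
    Clean (shearS C ρ ε hρ0 hε j₁ j₂ hne q) p ∧
      Co C j₁ j₂ x (p + stepV (shearS C ρ ε hρ0 hε j₁ j₂ hne q) p) (a + q * b) b := by
  obtain ⟨h1, h2⟩ := step21 (hρ0 := hρ0) (hε := hε) hne.symm (q := q) hp.symm hb ha ha'
    (fun j h1 h2 => hx j h2 h1)
  exact ⟨h1, h2.symm⟩

theorem abs_lin_le {α β u v W : ℝ} (hu : |u| ≤ W) (hv : |v| ≤ W) :
    |α * u + β * v| ≤ (|α| + |β|) * W := by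
  calc |α * u + β * v| ≤ |α * u| + |β * v| := abs_add_le _ _
    _ = |α| * |u| + |β| * |v| := by rw [abs_mul, abs_mul]
    _ ≤ |α| * W + |β| * W :=
        add_le_add (mul_le_mul_of_nonneg_left hu (abs_nonneg _))
          (mul_le_mul_of_nonneg_left hv (abs_nonneg _))
    _ = _ := by ring

/-- Stretch a box by `r` along `j₁` and `1/r` along `j₂`. -/
theorem move_stretch {n : ℕ} {A B : Cfg n} (i₀ : Fin n) (j₁ j₂ : Fin 3) (hne : j₁ ≠ j₂) (r : ℚ)
    (hr : 0 < r) (W ρ : ℚ) (hW : ∀ j, A.h i₀ j < W) (hρ : (r + 1 / r + 2) * W ≤ ρ)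
    (hcB : B.c = A.c) (hhm : ∀ m, m ≠ i₀ → B.h m = A.h m)
    (hh1 : B.h i₀ j₁ = r * A.h i₀ j₁) (hh2 : B.h i₀ j₂ = A.h i₀ j₂ / r)
    (hh3 : ∀ j, j ≠ j₁ → j ≠ j₂ → B.h i₀ j = A.h i₀ j)
    (hother : ∀ m, m ≠ i₀ → ∃ j, A.c m j + A.h m j < A.c i₀ j - ρ ∨
      A.c i₀ j + ρ < A.c m j - A.h m j) : Moves A B := by
  set C := A.c i₀ with hC
  have hρ0 : 0 ≤ ρ := by
    have hW0 : 0 < W := (A.pos i₀ j₁).trans (hW j₁)
    have : 0 ≤ (r + 1 / r + 2) * W := by positivity
    linarith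
  obtain ⟨ε, hε, hP⟩ : ∃ ε : ℚ, 0 < ε ∧ ∀ m : {m // m ≠ i₀}, ∃ j,
      A.c m.1 j + A.h m.1 j < C j - ρ - ε ∨ C j + ρ + ε < A.c m.1 j - A.h m.1 j := by
    refine exists_pos_forall fun m => ?_
    obtain ⟨j, hj⟩ := hother m.1 m.2
    rcases hj with hj | hj
    · refine ⟨((C j - ρ) - (A.c m.1 j + A.h m.1 j)) / 2, by linarith, fun δ _ hδ => ⟨j, Or.inl ?_⟩⟩
      linarith
    · refine ⟨((A.c m.1 j - A.h m.1 j) - (C j + ρ)) / 2, by linarith, fun δ _ hδ => ⟨j, Or.inr ?_⟩⟩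
      linarith
  let s1 := shearS C ρ ε hρ0 hε j₂ j₁ hne.symm (r - 1)
  let s2 := shearS C ρ ε hρ0 hε j₁ j₂ hne 1
  let s3 := shearS C ρ ε hρ0 hε j₂ j₁ hne.symm (1 / r - 1)
  let s4 := shearS C ρ ε hρ0 hε j₁ j₂ hne (-r)
  refine move_one_box (A := A) (B := B) i₀ [s1, s2, s3, s4] (fun j => C j - ρ) (fun j => C j + ρ) ε ?_ ?_ ?_ ?_
  · intro s hs
    have hc : 1 / (1 / ε) = ε := by field_simp
    simp only [List.mem_cons, List.not_mem_nil, or_false] at hs
    rcases hs with rfl | rfl | rfl | rfl <;> exact ⟨rfl, rfl, hc⟩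
  · intro m hm
    exact hP ⟨m, hm⟩
  · intro m hm
    exact ⟨by rw [hcB], hhm m hm⟩
  · refine ⟨openBox C (fun _ => W), isOpen_openBox _ _, box_subset_openBox hW, fun x hx => ?_⟩
    have hW0 : 0 < W := (A.pos i₀ j₁).trans (hW j₁)
    have hWr : (0 : ℝ) < W := by exact_mod_cast hW0
    have hrr : (0 : ℝ) < r := by exact_mod_cast hr
    have hρr : ((r : ℝ) + 1 / r + 2) * W ≤ ρ := by
      have : (((r + 1 / r + 2) * W : ℚ) : ℝ) ≤ (ρ : ℝ) := by exact_mod_cast hρ
      push_cast at this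
      exact this
    have hxj : ∀ j, |x j - (C j : ℝ)| ≤ W := by
      intro j
      have := hx j
      exact le_of_lt (by simpa using this)
    set u := x j₁ - (C j₁ : ℝ) with hu
    set v := x j₂ - (C j₂ : ℝ) with hv
    have hub : |u| ≤ W := hxj j₁
    have hvb : |v| ≤ W := hxj j₂
    have hrinv : (0 : ℝ) < 1 / r := by positivity
    -- generic bound
    have hB : ∀ α β : ℝ, |α| + |β| ≤ (r : ℝ) + 1 / r + 2 → |α * u + β * v| ≤ ρ := by
      intro α β h
      refine (abs_lin_le hub hvb).trans (le_trans ?_ hρr)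
      exact mul_le_mul_of_nonneg_right h hWr.le
    have hx3 : ∀ j, j ≠ j₁ → j ≠ j₂ → |x j - (C j : ℝ)| ≤ ρ := by
      intro j _ _
      refine (hxj j).trans (le_trans ?_ hρr)
      have : (1 : ℝ) ≤ (r : ℝ) + 1 / r + 2 := by linarith
      nlinarith
    have habs1 : |(r : ℝ) - 1| ≤ r + 1 := by
      rw [abs_le]; constructor <;> linarith
    have habsr : |(r : ℝ)| = r := abs_of_pos hrr
    have habsi : |1 / (r : ℝ)| = 1 / r := abs_of_pos hrinv
    have h0 : Co C j₁ j₂ x x u v := by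
      refine ⟨by rw [hu]; ring, by rw [hv]; ring, fun _ _ _ => rfl⟩
    have hau : |u| ≤ ρ := by
      have := hB 1 0 (by simp only [abs_one, abs_zero]; linarith)
      simpa using this
    have hav : |v| ≤ ρ := by
      have := hB 0 1 (by simp only [abs_one, abs_zero]; linarith)
      simpa using this
    -- first shear
    have hb1 : |v + ((r - 1 : ℚ) : ℝ) * u| ≤ ρ := by
      have := hB ((r : ℝ) - 1) 1 (by rw [abs_one]; linarith)
      push_cast
      rwa [show v + ((r : ℝ) - 1) * u = ((r : ℝ) - 1) * u + 1 * v by ring]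
    obtain ⟨c1, h1⟩ := step21 (hρ0 := hρ0) (hε := hε) (ρ := ρ) hne (q := r - 1) h0 hau hav hb1 hx3
    set p1 := x + stepV (shearS C ρ ε hρ0 hε j₂ j₁ hne.symm (r - 1)) x with hp1
    set b1 := v + ((r - 1 : ℚ) : ℝ) * u with hb1def
    -- second shear
    have ha2 : |u + ((1 : ℚ) : ℝ) * b1| ≤ ρ := by
      have := hB (r : ℝ) 1 (by rw [abs_one, habsr]; linarith)
      rw [hb1def]
      push_cast
      rwa [show u + 1 * (v + ((r : ℝ) - 1) * u) = (r : ℝ) * u + 1 * v by ring]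
    obtain ⟨c2, h2⟩ := step12 (hρ0 := hρ0) (hε := hε) (ρ := ρ) hne (q := 1) h1 hau hb1 ha2 hx3
    set p2 := p1 + stepV (shearS C ρ ε hρ0 hε j₁ j₂ hne 1) p1 with hp2
    set a2 := u + ((1 : ℚ) : ℝ) * b1 with ha2def
    -- third shear
    have hb3e : b1 + ((1 / r - 1 : ℚ) : ℝ) * a2 = v / r := by
      rw [ha2def, hb1def]
      push_cast
      field_simp
      ring
    have hb3 : |b1 + ((1 / r - 1 : ℚ) : ℝ) * a2| ≤ ρ := by
      rw [hb3e]
      have := hB 0 (1 / (r : ℝ)) (by rw [abs_zero, habsi]; linarith)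
      rwa [show 0 * u + 1 / (r : ℝ) * v = v / r by ring] at this
    obtain ⟨c3, h3⟩ := step21 (hρ0 := hρ0) (hε := hε) (ρ := ρ) hne (q := 1 / r - 1) h2 ha2 hb1 hb3 hx3
    set p3 := p2 + stepV (shearS C ρ ε hρ0 hε j₂ j₁ hne.symm (1 / r - 1)) p2 with hp3
    rw [hb3e] at h3
    have hvr : |v / r| ≤ ρ := by
      have := hB 0 (1 / (r : ℝ)) (by rw [abs_zero, habsi]; linarith)
      rwa [show 0 * u + 1 / (r : ℝ) * v = v / r by ring] at this
    -- fourth shear
    have ha4e : a2 + ((-r : ℚ) : ℝ) * (v / r) = r * u := by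
      rw [ha2def, hb1def]
      push_cast
      field_simp
      ring
    have ha4 : |a2 + ((-r : ℚ) : ℝ) * (v / r)| ≤ ρ := by
      rw [ha4e]
      have := hB (r : ℝ) 0 (by rw [abs_zero, habsr]; linarith)
      rwa [show (r : ℝ) * u + 0 * v = r * u by ring] at this
    obtain ⟨c4, h4⟩ := step12 (hρ0 := hρ0) (hε := hε) (ρ := ρ) hne (q := -r) h3 ha2 hvr ha4 hx3
    rw [ha4e] at h4
    refine ⟨⟨c1, c2, c3, c4, trivial⟩, ?_⟩
    show p3 + stepV (shearS C ρ ε hρ0 hε j₁ j₂ hne (-r)) p3 = _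
    set p4 := p3 + stepV (shearS C ρ ε hρ0 hε j₁ j₂ hne (-r)) p3 with hp4
    obtain ⟨e1, e2, e3⟩ := h4
    funext j
    rw [aff_apply]
    have hAj₁ : (A.h i₀ j₁ : ℝ) ≠ 0 := by exact_mod_cast (A.pos i₀ j₁).ne'
    have hAj₂ : (A.h i₀ j₂ : ℝ) ≠ 0 := by exact_mod_cast (A.pos i₀ j₂).ne'
    have hcj : B.c i₀ = C := by rw [hcB]
    rw [hcj]
    by_cases hj1 : j = j₁
    · subst hj1
      rw [e1, hh1]
      have : ((r * A.h i₀ j / A.h i₀ j : ℚ) : ℝ) = r := by
        push_cast; field_simp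
      rw [this]
    by_cases hj2 : j = j₂
    · subst hj2
      rw [e2, hh2]
      have : ((A.h i₀ j / r / A.h i₀ j : ℚ) : ℝ) = 1 / r := by
        push_cast; field_simp
      rw [this]
      ring
    · rw [e3 j hj1 hj2, hh3 j hj1 hj2]
      have : ((A.h i₀ j / A.h i₀ j : ℚ) : ℝ) = 1 := by
        rw [div_self (A.pos i₀ j).ne']; simp
      rw [this]
      ring

/-- The stage of changing all shapes at the canonical centres. -/
theorem moves_rooms {n : ℕ} (h k : Fin n → Fin 3 → ℚ) (hh : ∀ i j, 0 < h i j)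
    (hk : ∀ i j, 0 < k i j)
    (hvol : ∀ i, (k i 0 / h i 0) * (k i 1 / h i 1) * (k i 2 / h i 2) = 1) (P : Fin n → ℚ)
    (W₀ R Δ : ℚ) (hW₀h : ∀ i j, h i j ≤ W₀) (hW₀k : ∀ i j, k i j ≤ W₀)
    (hW₀m : ∀ i, h i 1 * h i 0 / k i 0 ≤ W₀)
    (hR0 : ∀ i, k i 0 / h i 0 + 1 / (k i 0 / h i 0) + 2 ≤ R)
    (hR1 : ∀ i, (k i 1 / h i 1) * (k i 0 / h i 0) + 1 / ((k i 1 / h i 1) * (k i 0 / h i 0)) + 2 ≤ R)
    (hΔ : R * (W₀ + 1) + W₀ < Δ)
    (hP : ∀ i m, i ≠ m → P i + Δ ≤ P m ∨ P m + Δ ≤ P i) :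
    Moves ⟨fun i _ => P i, h, hh⟩ ⟨fun i _ => P i, k, hk⟩ := by
  classical
  have hW₀pos : ∀ i, 0 < W₀ + 1 := fun i => by
    have := hW₀h i 0
    have := hh i 0
    linarith
  let cfgU : Finset (Fin n) → Cfg n := fun U =>
    ⟨fun i _ => P i, fun i => if i ∈ U then k i else h i, fun i j => by
      by_cases hi : i ∈ U
      · simp only [hi, if_true]; exact hk i j
      · simp only [hi, if_false]; exact hh i j⟩
  have hshape : ∀ U i j, (cfgU U).h i j ≤ W₀ := by
    intro U i j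
    show (if i ∈ U then k i else h i) j ≤ W₀
    split_ifs
    · exact hW₀k i j
    · exact hW₀h i j
  have hU : ∀ U : Finset (Fin n), Moves (cfgU ∅) (cfgU U) := by
    intro U
    induction U using Finset.induction_on with
    | empty => exact Moves.refl _
    | insert i₀ U hi₀ ih =>
      refine ih.trans ?_
      have hh0 := hh i₀ 0
      have hh1 := hh i₀ 1
      have hh2 := hh i₀ 2
      have hk0 := hk i₀ 0
      have hk1 := hk i₀ 1
      have hk2 := hk i₀ 2
      let midS : Fin 3 → ℚ := fun j => if j = 0 then k i₀ 0 else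
        if j = 1 then h i₀ 1 * h i₀ 0 / k i₀ 0 else h i₀ 2
      have hmidpos : ∀ j, 0 < midS j := by
        intro j
        simp only [midS]
        split_ifs
        · exact hk0
        · positivity
        · exact hh2
      let A₂ : Cfg n := ⟨fun i _ => P i, fun i => if i = i₀ then midS else (cfgU U).h i, fun i j => by
        by_cases hi : i = i₀
        · simp only [hi, if_true]; exact hmidpos j
        · simp only [hi, if_false]; exact (cfgU U).pos i j⟩
      have hother : ∀ (S : Cfg n), S.c = (fun i _ => P i) → (∀ m, m ≠ i₀ → ∀ j, S.h m j ≤ W₀) →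
          ∀ m, m ≠ i₀ → ∃ j, S.c m j + S.h m j < S.c i₀ j - R * (W₀ + 1) ∨
            S.c i₀ j + R * (W₀ + 1) < S.c m j - S.h m j := by
        intro S hSc hSh m hm
        refine ⟨0, ?_⟩
        have h3 := hSh m hm 0
        rw [hSc]
        rcases hP m i₀ hm with h4 | h4
        · left; simp only; linarith
        · right; simp only; linarith
      have hU0 : (cfgU U).h i₀ = h i₀ := by
        show (if i₀ ∈ U then k i₀ else h i₀) = h i₀
        simp [hi₀]
      have hr0pos : 0 < k i₀ 0 / h i₀ 0 := by positivity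
      have hr1pos : 0 < (k i₀ 1 / h i₀ 1) * (k i₀ 0 / h i₀ 0) := by positivity
      have hWpos : 0 < W₀ + 1 := hW₀pos i₀
      have step1 : Moves (cfgU U) A₂ := by
        refine move_stretch i₀ 0 1 (by decide) (k i₀ 0 / h i₀ 0) hr0pos (W₀ + 1) (R * (W₀ + 1)) ?_ ?_
          rfl ?_ ?_ ?_ ?_ (hother _ rfl fun m _ j => hshape U m j)
        · intro j
          have := hshape U i₀ j
          linarith
        · exact mul_le_mul_of_nonneg_right (hR0 i₀) hWpos.le
        · intro m hm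
          simp [A₂, hm]
        · simp only [A₂, if_true, midS, hU0]
          field_simp
        · simp only [A₂, if_true, midS, hU0]
          simp only [Fin.isValue, one_ne_zero, if_false, if_true]
          field_simp
        · intro j hj0 hj1
          have hj2 : j = 2 := by
            fin_cases j
            · exact absurd rfl hj0
            · exact absurd rfl hj1
            · rfl
          subst hj2
          simp only [A₂, if_true, midS, hU0]
          simp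
      have step2 : Moves A₂ (cfgU (insert i₀ U)) := by
        have hA2i₀ : A₂.h i₀ = midS := by
          simp [A₂]
        refine move_stretch i₀ 1 2 (by decide) ((k i₀ 1 / h i₀ 1) * (k i₀ 0 / h i₀ 0)) hr1pos (W₀ + 1)
          (R * (W₀ + 1)) ?_ ?_ rfl ?_ ?_ ?_ ?_ (hother _ rfl ?_)
        · intro j
          rw [hA2i₀]
          simp only [midS]
          split_ifs
          · have := hW₀k i₀ 0; linarith
          · have := hW₀m i₀; linarith
          · have := hW₀h i₀ 2; linarith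
        · exact mul_le_mul_of_nonneg_right (hR1 i₀) hWpos.le
        · intro m hm
          funext j
          simp [A₂, cfgU, hm, Finset.mem_insert]
        · rw [hA2i₀]
          simp only [cfgU, Finset.mem_insert_self, if_true, midS]
          simp only [Fin.isValue, one_ne_zero, if_false, if_true]
          field_simp
        · rw [hA2i₀]
          simp only [cfgU, Finset.mem_insert_self, if_true, midS]
          simp only [Fin.isValue, Fin.reduceEq, if_false]
          have hv := hvol i₀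
          field_simp at hv ⊢
          linarith
        · intro j hj1 hj2
          have hj0 : j = 0 := by
            fin_cases j
            · rfl
            · exact absurd rfl hj1
            · exact absurd rfl hj2
          subst hj0
          rw [hA2i₀]
          simp [cfgU, midS]
        · intro m hm j
          have e : A₂.h m = (cfgU U).h m := by simp [A₂, hm]
          rw [e]
          exact hshape U m j
      exact step1.trans step2
  have e0 : cfgU ∅ = ⟨fun i _ => P i, h, hh⟩ := by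
    simp [cfgU]
  have e1 : cfgU Finset.univ = ⟨fun i _ => P i, k, hk⟩ := by
    simp [cfgU]
  rw [← e0, ← e1]
  exact hU _

/-- All boxes can be brought from a disjoint configuration to another one, with the same volumes. -/
theorem moves_main {n : ℕ} (a b h k : Fin n → Fin 3 → ℚ) (hh : ∀ i j, 0 < h i j)
    (hk : ∀ i j, 0 < k i j)
    (ha : Pairwise fun i i' => Disjoint (box (a i) (h i)) (box (a i') (h i')))
    (hb : Pairwise fun i i' => Disjoint (box (b i) (k i)) (box (b i') (k i')))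
    (hvol : ∀ i, ∏ j : Fin 3, k i j / h i j = 1) :
    Moves ⟨a, h, hh⟩ ⟨b, k, hk⟩ := by
  obtain ⟨W₀, hW₀pos, hW₀⟩ := exists_bound_rat (ι := Fin n × Fin 3)
    fun p => h p.1 p.2 + k p.1 p.2 + h p.1 1 * h p.1 0 / k p.1 0
  have hmidpos : ∀ i, 0 < h i 1 * h i 0 / k i 0 := by
    intro i
    have h1 := hh i 1
    have h2 := hh i 0
    have h3 := hk i 0
    positivity
  have hW₀h : ∀ i j, h i j ≤ W₀ := by
    intro i j
    have h1 := hW₀ (i, j)
    have h2 := hk i j
    have h3 := hmidpos i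
    simp only at h1
    linarith
  have hW₀k : ∀ i j, k i j ≤ W₀ := by
    intro i j
    have h1 := hW₀ (i, j)
    have h2 := hh i j
    have h3 := hmidpos i
    simp only at h1
    linarith
  have hW₀m : ∀ i, h i 1 * h i 0 / k i 0 ≤ W₀ := by
    intro i
    have h1 := hW₀ (i, 0)
    have h2 := hh i 0
    have h3 := hk i 0
    simp only at h1
    linarith
  obtain ⟨G, hGpos, hG⟩ := exists_bound_rat (ι := Fin n) fun i =>
    (k i 0 / h i 0 + 1 / (k i 0 / h i 0) + 2) +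
      ((k i 1 / h i 1) * (k i 0 / h i 0) + 1 / ((k i 1 / h i 1) * (k i 0 / h i 0)) + 2)
  have hr0 : ∀ i, 0 < k i 0 / h i 0 := fun i => div_pos (hk i 0) (hh i 0)
  have hr1 : ∀ i, 0 < (k i 1 / h i 1) * (k i 0 / h i 0) := fun i =>
    mul_pos (div_pos (hk i 1) (hh i 1)) (hr0 i)
  have hR0 : ∀ i, k i 0 / h i 0 + 1 / (k i 0 / h i 0) + 2 ≤ G := by
    intro i
    have h1 := hG i
    have h2 := hr1 i
    have h3 : 0 < 1 / ((k i 1 / h i 1) * (k i 0 / h i 0)) := by positivity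
    linarith
  have hR1 : ∀ i, (k i 1 / h i 1) * (k i 0 / h i 0) + 1 / ((k i 1 / h i 1) * (k i 0 / h i 0)) + 2 ≤ G := by
    intro i
    have h1 := hG i
    have h2 := hr0 i
    have h3 : 0 < 1 / (k i 0 / h i 0) := by positivity
    linarith
  set Δ : ℚ := (G + 1) * (W₀ + 1) + W₀ + 1 with hΔdef
  have hΔpos : 0 < Δ := by positivity
  let P : Fin n → ℚ := fun i => Δ * ((i : ℕ) + 1)
  have hP : ∀ i m, i ≠ m → P i + Δ ≤ P m ∨ P m + Δ ≤ P i := by
    intro i m him
    have hne : (i : ℕ) ≠ m := fun h => him (Fin.ext h)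
    rcases lt_or_gt_of_ne hne with hlt | hlt
    · left
      have : ((i : ℕ) : ℚ) + 1 ≤ (m : ℕ) := by exact_mod_cast hlt
      simp only [P]
      nlinarith
    · right
      have : ((m : ℕ) : ℚ) + 1 ≤ (i : ℕ) := by exact_mod_cast hlt
      simp only [P]
      nlinarith
  have hΔ2 : 2 * W₀ < Δ := by
    have h1 : 0 ≤ G * (W₀ + 1) := by positivity
    nlinarith
  have hPh : ∀ i m, i ≠ m → P i + h i 1 < P m - h m 1 ∨ P m + h m 1 < P i - h i 1 := by
    intro i m him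
    have h1 := hW₀h i 1
    have h2 := hW₀h m 1
    rcases hP i m him with h3 | h3
    · left; linarith
    · right; linarith
  have hPk : ∀ i m, i ≠ m → P i + k i 1 < P m - k m 1 ∨ P m + k m 1 < P i - k i 1 := by
    intro i m him
    have h1 := hW₀k i 1
    have h2 := hW₀k m 1
    rcases hP i m him with h3 | h3
    · left; linarith
    · right; linarith
  have hdisjA : ∀ i m, i ≠ m → ∃ j, a i j + h i j < a m j - h m j ∨ a m j + h m j < a i j - h i j :=
    fun i m him => sep_of_disjoint (hh i) (hh m) (ha him)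
  have hdisjB : ∀ i m, i ≠ m → ∃ j, b i j + k i j < b m j - k m j ∨ b m j + k m j < b i j - k i j :=
    fun i m him => sep_of_disjoint (hk i) (hk m) (hb him)
  have m1 : Moves ⟨a, h, hh⟩ ⟨fun i _ => P i, h, hh⟩ := to_canon ⟨a, h, hh⟩ hdisjA P hPh
  have m2 : Moves ⟨b, k, hk⟩ ⟨fun i _ => P i, k, hk⟩ := to_canon ⟨b, k, hk⟩ hdisjB P hPk
  have hvol' : ∀ i, (k i 0 / h i 0) * (k i 1 / h i 1) * (k i 2 / h i 2) = 1 := by
    intro i
    have := hvol i
    rwa [Fin.prod_univ_three] at this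
  have m3 : Moves ⟨fun i _ => P i, h, hh⟩ ⟨fun i _ => P i, k, hk⟩ :=
    moves_rooms h k hh hk hvol' P W₀ (G + 1) Δ hW₀h hW₀k hW₀m
      (fun i => by linarith [hR0 i]) (fun i => by linarith [hR1 i]) (by rw [hΔdef]; linarith) hP
  exact m1.trans (m3.trans m2.symm)

end Crest.Agent.BF
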