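import Mathlib

/-! Computability of rational arithmetic with respect to Mathlib's `Primcodable ℚ`
(the rank encoding coming from `Denumerable.ofEncodableOfInfinite`). -/

set_option autoImplicit false

open Encodable Denumerable

namespace Crest.Agent.Lib.BoxFlow

/-- The raw code of a rational: `Nat.pair (code of numerator) denominator`. -/
def rawQ (q : ℚ) : ℕ := @encode ℚ Rat.instEncodable q

lemma rawQ_eq (q : ℚ) : rawQ q = Nat.pair (@encode ℤ Int.encodable q.num) q.den := by
  cases q; rfl

lemma intCode_natAbs (z : ℤ) : (@encode ℤ Int.encodable z + 1) / 2 = z.natAbs := by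
  cases z with
  | ofNat n =>
    have : @encode ℤ Int.encodable (Int.ofNat n) = 2 * n := rfl
    rw [this]
    change (2 * n + 1) / 2 = n
    omega
  | negSucc n =>
    have : @encode ℤ Int.encodable (Int.negSucc n) = 2 * n + 1 := rfl
    rw [this]
    simp only [Int.natAbs_negSucc]
    omega

/-- The set of raw codes. -/
def rawS : Set ℕ := Set.range (@encode ℚ Rat.instEncodable)

/-- Explicit test for being a raw code. -/
def rawTest (x : ℕ) : Prop :=
  0 < (Nat.unpair x).2 ∧ Nat.Coprime (((Nat.unpair x).1 + 1) / 2) (Nat.unpair x).2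

lemma mem_rawS_iff (x : ℕ) : x ∈ rawS ↔ rawTest x := by
  constructor
  · rintro ⟨q, rfl⟩
    change rawTest (rawQ q)
    rw [rawTest, rawQ_eq, Nat.unpair_pair]
    refine ⟨q.den_pos, ?_⟩
    simp only
    rw [intCode_natAbs]
    exact q.reduced
  · rintro ⟨h0, h1⟩
    -- rebuild the integer from its code
    have hz : ∃ z : ℤ, @encode ℤ Int.encodable z = (Nat.unpair x).1 := by
      refine ⟨Equiv.intEquivNat.symm (Nat.unpair x).1, ?_⟩
      change Equiv.intEquivNat (Equiv.intEquivNat.symm _) = _
      simp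
    obtain ⟨z, hz⟩ := hz
    rw [← hz, intCode_natAbs] at h1
    refine ⟨⟨z, (Nat.unpair x).2, h0.ne', h1⟩, ?_⟩
    change rawQ _ = x
    rw [rawQ_eq]
    simp only
    rw [hz, Nat.pair_unpair]

lemma coprime_iff_bounded (n d : ℕ) (hd : 0 < d) :
    Nat.Coprime n d ↔ ∀ k < d + 1, ¬ (2 ≤ k ∧ n % k = 0 ∧ d % k = 0) := by
  constructor
  · intro h k _ ⟨h2, h3, h4⟩
    have h5 : k ∣ Nat.gcd n d := Nat.dvd_gcd (Nat.dvd_of_mod_eq_zero h3) (Nat.dvd_of_mod_eq_zero h4)
    rw [h] at h5
    have := Nat.le_of_dvd one_pos h5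
    omega
  · intro h
    by_contra hc
    have hg : Nat.gcd n d ≠ 1 := hc
    have hg0 : 0 < Nat.gcd n d := Nat.gcd_pos_of_pos_right _ hd
    have hle : Nat.gcd n d ≤ d := Nat.le_of_dvd hd (Nat.gcd_dvd_right _ _)
    refine h (Nat.gcd n d) (by omega) ⟨by omega, ?_, ?_⟩
    · exact Nat.mod_eq_zero_of_dvd (Nat.gcd_dvd_left _ _)
    · exact Nat.mod_eq_zero_of_dvd (Nat.gcd_dvd_right _ _)

lemma rawTest_iff (x : ℕ) : rawTest x ↔
    0 < (Nat.unpair x).2 ∧ ∀ k < (Nat.unpair x).2 + 1,
      ¬ (2 ≤ k ∧ (((Nat.unpair x).1 + 1) / 2) % k = 0 ∧ (Nat.unpair x).2 % k = 0) := by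
  rw [rawTest]
  constructor
  · rintro ⟨h0, h1⟩
    exact ⟨h0, (coprime_iff_bounded _ _ h0).1 h1⟩
  · rintro ⟨h0, h1⟩
    exact ⟨h0, (coprime_iff_bounded _ _ h0).2 h1⟩

lemma primrecPred_rawTest : PrimrecPred rawTest := by
  have h1 : PrimrecPred (fun x : ℕ => 0 < (Nat.unpair x).2) :=
    Primrec.nat_lt.comp (Primrec.const 0) (Primrec.snd.comp Primrec.unpair)
  have hR : PrimrecRel (fun (k : ℕ) (x : ℕ) =>
      ¬ (2 ≤ k ∧ (((Nat.unpair x).1 + 1) / 2) % k = 0 ∧ (Nat.unpair x).2 % k = 0)) := by
    have a1 : PrimrecPred (fun p : ℕ × ℕ => 2 ≤ p.1) :=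
      Primrec.nat_le.comp (Primrec.const 2) Primrec.fst
    have a2 : PrimrecPred (fun p : ℕ × ℕ => (((Nat.unpair p.2).1 + 1) / 2) % p.1 = 0) := by
      refine Primrec.eq.comp (Primrec.nat_mod.comp ?_ Primrec.fst) (Primrec.const 0)
      refine Primrec.nat_div.comp (Primrec.nat_add.comp ?_ (Primrec.const 1)) (Primrec.const 2)
      exact Primrec.fst.comp (Primrec.unpair.comp Primrec.snd)
    have a3 : PrimrecPred (fun p : ℕ × ℕ => (Nat.unpair p.2).2 % p.1 = 0) := by
      refine Primrec.eq.comp (Primrec.nat_mod.comp ?_ Primrec.fst) (Primrec.const 0)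
      exact Primrec.snd.comp (Primrec.unpair.comp Primrec.snd)
    exact (a1.and (a2.and a3)).not
  have h2 : PrimrecPred (fun x : ℕ => ∀ k < (Nat.unpair x).2 + 1,
      ¬ (2 ≤ k ∧ (((Nat.unpair x).1 + 1) / 2) % k = 0 ∧ (Nat.unpair x).2 % k = 0)) := by
    exact hR.forall_lt.comp
      (Primrec.nat_add.comp (Primrec.snd.comp Primrec.unpair) (Primrec.const 1)) Primrec.id
  exact (h1.and h2).of_eq fun x => (rawTest_iff x).symm

open Classical in
/-- The decidable test as a computable Boolean. -/
lemma computable_decide_rawS : Computable (fun x : ℕ => decide (x ∈ rawS)) := by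
  have : Primrec (fun x : ℕ => decide (rawTest x)) := primrecPred_rawTest.decide
  refine this.to_comp.of_eq fun x => ?_
  simp only [mem_rawS_iff]

lemma rawS_infinite_next (x : ℕ) : ∃ k, x + k + 1 ∈ rawS := by
  -- `Nat.pair (2 * (x+1)) 1` is a raw code above `x`.
  refine ⟨Nat.pair (2 * (x + 1)) 1 - (x + 1), ?_⟩
  have h : x + 1 ≤ Nat.pair (2 * (x + 1)) 1 := by
    have := Nat.left_le_pair (2 * (x + 1)) 1
    omega
  have e : x + (Nat.pair (2 * (x + 1)) 1 - (x + 1)) + 1 = Nat.pair (2 * (x + 1)) 1 := by omega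
  rw [e, mem_rawS_iff, rawTest, Nat.unpair_pair]
  simp

open Classical in
/-- The next raw code above `x`. -/
noncomputable def nextRaw (x : ℕ) : ℕ := x + Nat.find (rawS_infinite_next x) + 1

open Classical in
lemma computable_nextRaw : Computable nextRaw := by
  have hp : Partrec₂ (fun (x k : ℕ) => (Part.some (decide (x + k + 1 ∈ rawS)) : Part Bool)) := by
    have : Computable₂ (fun (x k : ℕ) => decide (x + k + 1 ∈ rawS)) :=
      computable_decide_rawS.comp
        (Primrec.nat_add.to_comp.comp (Primrec.nat_add.to_comp.comp Computable.fst Computable.snd)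
          (Computable.const 1))
    exact this.partrec₂
  have h1 : Partrec (fun x : ℕ => Nat.rfind (fun k => (Part.some (decide (x + k + 1 ∈ rawS)) : Part Bool) : ℕ →. Bool)) :=
    Partrec.rfind hp
  have h2 : Partrec (fun x : ℕ => (Nat.rfind (fun k => (Part.some (decide (x + k + 1 ∈ rawS)) : Part Bool) : ℕ →. Bool)).map
      (fun k => x + k + 1)) := by
    refine Partrec.map h1 ?_
    exact (Primrec.nat_add.to_comp.comp (Primrec.nat_add.to_comp.comp Computable.fst Computable.snd)
      (Computable.const 1))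
  refine h2.of_eq_tot fun x => ?_
  rw [Part.mem_map_iff]
  refine ⟨Nat.find (rawS_infinite_next x), ?_, rfl⟩
  refine Nat.mem_rfind.2 ⟨?_, ?_⟩
  · simp [Nat.find_spec (rawS_infinite_next x)]
  · intro m hm
    simp [Nat.find_min (rawS_infinite_next x) hm]

abbrev rawR : Set ℕ := Set.range (@encode ℚ Rat.instEncodable)

instance rawR_inf : Infinite rawR :=
  Infinite.of_injective _ (Equiv.ofInjective _ (@encode_injective ℚ Rat.instEncodable)).injective

instance rawR_dec : DecidablePred (· ∈ rawR) := @decidableRangeEncode ℚ Rat.instEncodable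

noncomputable abbrev rawEq : ℚ ≃ rawR := @equivRangeEncode ℚ Rat.instEncodable

lemma ofNat_eq1 (n : ℕ) : ofNat ℚ n = rawEq.symm (@ofNat rawR (Nat.Subtype.denumerable rawR) n) :=
  @Denumerable.ofEquiv_ofNat rawR ℚ (Nat.Subtype.denumerable rawR) rawEq n

lemma ofNat_eq2 (n : ℕ) : @ofNat rawR (Nat.Subtype.denumerable rawR) n = Nat.Subtype.ofNat rawR n := by
  unfold Nat.Subtype.denumerable
  rw [Denumerable.ofEquiv_ofNat]
  simp

lemma rawQ_ofNat (n : ℕ) : rawQ (ofNat ℚ n) = (Nat.Subtype.ofNat rawR n : ℕ) := by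
  rw [ofNat_eq1, ofNat_eq2]
  change ((rawEq (rawEq.symm _)) : ℕ) = _
  rw [Equiv.apply_symm_apply]

lemma rawQ_ofNat_succ (n : ℕ) : rawQ (ofNat ℚ (n + 1)) = nextRaw (rawQ (ofNat ℚ n)) := by
  rw [rawQ_ofNat, rawQ_ofNat]
  change ((Nat.Subtype.succ (Nat.Subtype.ofNat rawR n) : rawR) : ℕ) = _
  simp only [Nat.Subtype.succ, nextRaw]
  congr

lemma computable_rawQ_ofNat : Computable (fun n : ℕ => rawQ (ofNat ℚ n)) := by
  have h : Computable (fun n : ℕ => Nat.rec (motive := fun _ => ℕ) (rawQ (ofNat ℚ 0))
      (fun _ IH => nextRaw IH) n) :=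
    Computable.nat_rec (f := fun n : ℕ => n) (g := fun _ => rawQ (ofNat ℚ 0))
      (h := fun _ p => nextRaw p.2) Computable.id (Computable.const _)
      (computable_nextRaw.comp (Computable.snd.comp Computable.snd))
  refine h.of_eq fun n => ?_
  induction n with
  | zero => rfl
  | succ n ih =>
    rw [rawQ_ofNat_succ, ← ih]

lemma computable_rawQ : Computable rawQ :=
  (computable_rawQ_ofNat.comp Computable.encode).of_eq fun q => by
    change rawQ (ofNat ℚ (@encode ℚ Rat.instDenumerable.toEncodable q)) = rawQ q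
    rw [Denumerable.ofNat_encode]

section NatOps

variable {α : Type*} [Primcodable α]

theorem cNatAdd {f g : α → ℕ} (hf : Computable f) (hg : Computable g) :
    Computable fun a => f a + g a := Primrec.nat_add.to_comp.comp hf hg

theorem cNatMul {f g : α → ℕ} (hf : Computable f) (hg : Computable g) :
    Computable fun a => f a * g a := Primrec.nat_mul.to_comp.comp hf hg

theorem cNatSub {f g : α → ℕ} (hf : Computable f) (hg : Computable g) :
    Computable fun a => f a - g a := Primrec.nat_sub.to_comp.comp hf hg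

theorem cNatDiv {f g : α → ℕ} (hf : Computable f) (hg : Computable g) :
    Computable fun a => f a / g a := Primrec.nat_div.to_comp.comp hf hg

theorem cNatMod {f g : α → ℕ} (hf : Computable f) (hg : Computable g) :
    Computable fun a => f a % g a := Primrec.nat_mod.to_comp.comp hf hg

theorem primrec_nat_pow : Primrec₂ ((· ^ ·) : ℕ → ℕ → ℕ) :=
  Primrec₂.unpaired'.1 Nat.Primrec.pow

theorem cNatPow {f g : α → ℕ} (hf : Computable f) (hg : Computable g) :
    Computable fun a => f a ^ g a := primrec_nat_pow.to_comp.comp hf hg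

theorem cFst {β γ : Type*} [Primcodable β] [Primcodable γ] {f : α → β × γ} (hf : Computable f) :
    Computable fun a => (f a).1 := Computable.fst.comp hf

theorem cSnd {β γ : Type*} [Primcodable β] [Primcodable γ] {f : α → β × γ} (hf : Computable f) :
    Computable fun a => (f a).2 := Computable.snd.comp hf

theorem cIte {σ : Type*} [Primcodable σ] {c : α → Prop} [DecidablePred c] {f g : α → σ}
    (hc : Computable fun a => decide (c a)) (hf : Computable f) (hg : Computable g) :
    Computable fun a => if c a then f a else g a := by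
  refine (Computable.cond hc hf hg).of_eq fun a => ?_
  by_cases h : c a <;> simp [h]

theorem cNatLe {f g : α → ℕ} (hf : Computable f) (hg : Computable g) :
    Computable fun a => decide (f a ≤ g a) :=
  (Primrec.nat_le.decide).to_comp.comp hf hg

theorem cNatEq {f g : α → ℕ} (hf : Computable f) (hg : Computable g) :
    Computable fun a => decide (f a = g a) :=
  (Primrec.eq.decide).to_comp.comp hf hg

end NatOps

/-- Positive part of the numerator. -/
def qP (q : ℚ) : ℕ := q.num.toNat
/-- Negative part of the numerator. -/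
def qM (q : ℚ) : ℕ := (-q.num).toNat
/-- Denominator. -/
def qD (q : ℚ) : ℕ := q.den

lemma qD_pos (q : ℚ) : 0 < qD q := q.den_pos

lemma rat_eq_code (q : ℚ) : q = ((qP q : ℚ) - qM q) / qD q := by
  have h1 : ((qP q : ℚ) - qM q) = q.num := by
    have : ((qP q : ℤ) - qM q) = q.num := by
      simp only [qP, qM]
      omega
    exact_mod_cast this
  rw [h1, qD]
  exact (Rat.num_div_den q).symm

lemma computable_qD : Computable qD := by
  refine (cSnd (Computable.unpair.comp computable_rawQ)).of_eq fun q => ?_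
  rw [rawQ_eq, Nat.unpair_pair]
  rfl

lemma computable_intCode : Computable (fun q : ℚ => @encode ℤ Int.encodable q.num) := by
  refine (cFst (Computable.unpair.comp computable_rawQ)).of_eq fun q => ?_
  rw [rawQ_eq, Nat.unpair_pair]

lemma qP_of_code (q : ℚ) : qP q =
    if @encode ℤ Int.encodable q.num % 2 = 0 then @encode ℤ Int.encodable q.num / 2 else 0 := by
  rw [qP]
  cases q.num with
  | ofNat n =>
    have : @encode ℤ Int.encodable (Int.ofNat n) = 2 * n := rfl
    rw [this]
    simp
  | negSucc n =>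
    have : @encode ℤ Int.encodable (Int.negSucc n) = 2 * n + 1 := rfl
    rw [this]
    have h : (2 * n + 1) % 2 ≠ 0 := by omega
    simp [h]

lemma qM_of_code (q : ℚ) : qM q =
    if @encode ℤ Int.encodable q.num % 2 = 0 then 0 else (@encode ℤ Int.encodable q.num + 1) / 2 := by
  rw [qM]
  cases q.num with
  | ofNat n =>
    have : @encode ℤ Int.encodable (Int.ofNat n) = 2 * n := rfl
    rw [this]
    simp
  | negSucc n =>
    have : @encode ℤ Int.encodable (Int.negSucc n) = 2 * n + 1 := rfl
    rw [this]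
    have h : (2 * n + 1) % 2 ≠ 0 := by omega
    simp only [h, if_false]
    have e : -Int.negSucc n = ((n + 1 : ℕ) : ℤ) := by
      simp [Int.negSucc_eq]
    rw [e, Int.toNat_natCast]
    omega

lemma computable_qP : Computable qP := by
  refine (cIte (c := fun q : ℚ => @encode ℤ Int.encodable q.num % 2 = 0)
    (cNatEq (cNatMod computable_intCode (Computable.const 2)) (Computable.const 0))
    (cNatDiv computable_intCode (Computable.const 2)) (Computable.const 0)).of_eq fun q => ?_
  rw [qP_of_code]

lemma computable_qM : Computable qM := by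
  refine (cIte (c := fun q : ℚ => @encode ℤ Int.encodable q.num % 2 = 0)
    (cNatEq (cNatMod computable_intCode (Computable.const 2)) (Computable.const 0))
    (Computable.const 0) (cNatDiv (cNatAdd computable_intCode (Computable.const 1)) (Computable.const 2))).of_eq fun q => ?_
  rw [qM_of_code]

/-- Rational with given code: `(P - M) / (D + 1)`. -/
def ofCode (x : ℕ × ℕ × ℕ) : ℚ := ((x.1 : ℚ) - x.2.1) / ((x.2.2 : ℚ) + 1)

/-- The search test for `ofCode`. -/
def codeTest (x : ℕ × ℕ × ℕ) (c : ℕ) : Bool :=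
  decide (qP (ofNat ℚ c) * (x.2.2 + 1) + x.2.1 * qD (ofNat ℚ c)
    = x.1 * qD (ofNat ℚ c) + qM (ofNat ℚ c) * (x.2.2 + 1))

lemma codeTest_iff (x : ℕ × ℕ × ℕ) (c : ℕ) : codeTest x c = true ↔ ofNat ℚ c = ofCode x := by
  rw [codeTest, decide_eq_true_iff]
  set r := ofNat ℚ c with hr
  have hd : (0:ℚ) < qD r := by exact_mod_cast qD_pos r
  have hD : (0:ℚ) < (x.2.2 : ℚ) + 1 := by positivity
  have e1 : r = ((qP r : ℚ) - qM r) / qD r := rat_eq_code r
  constructor
  · intro h
    have h' : (qP r : ℚ) * (x.2.2 + 1) + x.2.1 * qD r = x.1 * qD r + qM r * (x.2.2 + 1) := by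
      exact_mod_cast h
    rw [e1, ofCode, div_eq_div_iff hd.ne' hD.ne']
    linarith
  · intro h
    rw [e1, ofCode, div_eq_div_iff hd.ne' hD.ne'] at h
    have h' : (qP r : ℚ) * (x.2.2 + 1) + x.2.1 * qD r = x.1 * qD r + qM r * (x.2.2 + 1) := by
      linarith
    exact_mod_cast h'

lemma computable_ofCode : Computable ofCode := by
  have hofNat : Computable (ofNat ℚ) := Computable.ofNat ℚ
  have ht : Computable₂ codeTest := by
    refine cNatEq (f := fun p : (ℕ × ℕ × ℕ) × ℕ => qP (ofNat ℚ p.2) * (p.1.2.2 + 1) + p.1.2.1 * qD (ofNat ℚ p.2))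
      (g := fun p => p.1.1 * qD (ofNat ℚ p.2) + qM (ofNat ℚ p.2) * (p.1.2.2 + 1)) ?_ ?_
    · exact cNatAdd (cNatMul (computable_qP.comp (hofNat.comp Computable.snd))
        (cNatAdd (cSnd (cSnd Computable.fst)) (Computable.const 1)))
        (cNatMul (cFst (cSnd Computable.fst)) (computable_qD.comp (hofNat.comp Computable.snd)))
    · exact cNatAdd (cNatMul (cFst Computable.fst) (computable_qD.comp (hofNat.comp Computable.snd)))
        (cNatMul (computable_qM.comp (hofNat.comp Computable.snd))
        (cNatAdd (cSnd (cSnd Computable.fst)) (Computable.const 1)))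
  have hp : Partrec₂ (fun (x : ℕ × ℕ × ℕ) (c : ℕ) => (Part.some (codeTest x c) : Part Bool)) :=
    ht.partrec₂
  have h1 : Partrec (fun x : ℕ × ℕ × ℕ => Nat.rfind (fun c => (Part.some (codeTest x c) : Part Bool) : ℕ →. Bool)) :=
    Partrec.rfind hp
  have h2 : Partrec (fun x : ℕ × ℕ × ℕ =>
      (Nat.rfind (fun c => (Part.some (codeTest x c) : Part Bool) : ℕ →. Bool)).map (ofNat ℚ)) :=
    Partrec.map h1 (hofNat.comp Computable.snd)
  refine h2.of_eq_tot fun x => ?_
  have hex : codeTest x (@encode ℚ Rat.instDenumerable.toEncodable (ofCode x)) = true := by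
    rw [codeTest_iff, Denumerable.ofNat_encode]
  obtain ⟨n, hn, -⟩ := Nat.rfind_min' (p := fun c => codeTest x c) hex
  rw [Part.mem_map_iff]
  refine ⟨n, ?_, ?_⟩
  · exact hn
  · have := Nat.rfind_spec hn
    simp only [PFun.coe_val, Part.mem_some_iff] at this
    exact (codeTest_iff x n).1 this.symm

section RatOps

variable {α : Type*} [Primcodable α]

theorem cCode {f g h : α → ℕ} (hf : Computable f) (hg : Computable g) (hh : Computable h) :
    Computable fun a => ofCode (f a, g a, h a) :=
  computable_ofCode.comp (hf.pair (hg.pair hh))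

theorem cRatAdd {f g : α → ℚ} (hf : Computable f) (hg : Computable g) :
    Computable fun a => f a + g a := by
  have e : ∀ a, f a + g a = ofCode (qP (f a) * qD (g a) + qP (g a) * qD (f a),
      qM (f a) * qD (g a) + qM (g a) * qD (f a), qD (f a) * qD (g a) - 1) := by
    intro a
    have h1 := qD_pos (f a)
    have h2 := qD_pos (g a)
    have h12 : 1 ≤ qD (f a) * qD (g a) := Nat.mul_pos h1 h2
    have h1' : ((qD (f a) : ℕ) : ℚ) ≠ 0 := by positivity
    have h2' : ((qD (g a) : ℕ) : ℚ) ≠ 0 := by positivity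
    rw [ofCode]
    simp only
    rw [Nat.cast_sub h12]
    conv_lhs => rw [rat_eq_code (f a), rat_eq_code (g a)]
    push_cast
    simp only [sub_add_cancel]
    field_simp
    ring
  have hP : ∀ {k : α → ℚ}, Computable k → Computable fun a => qP (k a) := fun hk => computable_qP.comp hk
  have hM : ∀ {k : α → ℚ}, Computable k → Computable fun a => qM (k a) := fun hk => computable_qM.comp hk
  have hD : ∀ {k : α → ℚ}, Computable k → Computable fun a => qD (k a) := fun hk => computable_qD.comp hk
  refine (cCode (cNatAdd (cNatMul (hP hf) (hD hg)) (cNatMul (hP hg) (hD hf)))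
    (cNatAdd (cNatMul (hM hf) (hD hg)) (cNatMul (hM hg) (hD hf)))
    (cNatSub (cNatMul (hD hf) (hD hg)) (Computable.const 1))).of_eq fun a => (e a).symm

theorem cRatMul {f g : α → ℚ} (hf : Computable f) (hg : Computable g) :
    Computable fun a => f a * g a := by
  have e : ∀ a, f a * g a = ofCode (qP (f a) * qP (g a) + qM (f a) * qM (g a),
      qP (f a) * qM (g a) + qM (f a) * qP (g a), qD (f a) * qD (g a) - 1) := by
    intro a
    have h1 := qD_pos (f a)
    have h2 := qD_pos (g a)
    have h12 : 1 ≤ qD (f a) * qD (g a) := Nat.mul_pos h1 h2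
    have h1' : ((qD (f a) : ℕ) : ℚ) ≠ 0 := by positivity
    have h2' : ((qD (g a) : ℕ) : ℚ) ≠ 0 := by positivity
    rw [ofCode]
    simp only
    rw [Nat.cast_sub h12]
    conv_lhs => rw [rat_eq_code (f a), rat_eq_code (g a)]
    push_cast
    simp only [sub_add_cancel]
    field_simp
    ring
  have hP : ∀ {k : α → ℚ}, Computable k → Computable fun a => qP (k a) := fun hk => computable_qP.comp hk
  have hM : ∀ {k : α → ℚ}, Computable k → Computable fun a => qM (k a) := fun hk => computable_qM.comp hk
  have hD : ∀ {k : α → ℚ}, Computable k → Computable fun a => qD (k a) := fun hk => computable_qD.comp hk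
  refine (cCode (cNatAdd (cNatMul (hP hf) (hP hg)) (cNatMul (hM hf) (hM hg)))
    (cNatAdd (cNatMul (hP hf) (hM hg)) (cNatMul (hM hf) (hP hg)))
    (cNatSub (cNatMul (hD hf) (hD hg)) (Computable.const 1))).of_eq fun a => (e a).symm

theorem cRatNeg {f : α → ℚ} (hf : Computable f) : Computable fun a => - f a := by
  have e : ∀ a, - f a = ofCode (qM (f a), qP (f a), qD (f a) - 1) := by
    intro a
    have h1 := qD_pos (f a)
    have h1' : ((qD (f a) : ℕ) : ℚ) ≠ 0 := by positivity
    rw [ofCode]
    simp only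
    rw [Nat.cast_sub h1]
    conv_lhs => rw [rat_eq_code (f a)]
    push_cast
    simp only [sub_add_cancel]
    ring
  refine (cCode (computable_qM.comp hf) (computable_qP.comp hf)
    (cNatSub (computable_qD.comp hf) (Computable.const 1))).of_eq fun a => (e a).symm

theorem cRatSub {f g : α → ℚ} (hf : Computable f) (hg : Computable g) :
    Computable fun a => f a - g a :=
  (cRatAdd hf (cRatNeg hg)).of_eq fun a => (sub_eq_add_neg _ _).symm

theorem cRatOfNat {f : α → ℕ} (hf : Computable f) : Computable fun a => (f a : ℚ) := by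
  refine (cCode hf (Computable.const 0) (Computable.const 0)).of_eq fun a => ?_
  simp [ofCode]

/-- `1 / (f a + 1)` is computable. -/
theorem cRatInvSucc {f : α → ℕ} (hf : Computable f) : Computable fun a => 1 / ((f a : ℚ) + 1) := by
  refine (cCode (Computable.const 1) (Computable.const 0) hf).of_eq fun a => ?_
  simp [ofCode]

theorem cRatPow {f : α → ℚ} {g : α → ℕ} (hf : Computable f) (hg : Computable g) :
    Computable fun a => f a ^ g a := by
  have h : Computable (fun a => Nat.rec (motive := fun _ => ℚ) (1:ℚ)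
      (fun _ IH => IH * f a) (g a)) :=
    Computable.nat_rec (f := g) (g := fun _ => (1:ℚ)) (h := fun a p => p.2 * f a) hg
      (Computable.const _)
      (cRatMul (cSnd Computable.snd) (hf.comp Computable.fst))
  refine h.of_eq fun a => ?_
  generalize g a = n
  induction n with
  | zero => simp
  | succ n ih => simp only [pow_succ, ← ih]

/-- A natural number bound for the absolute value of a rational. -/
def qBd (q : ℚ) : ℕ := qP q + qM q + 1

lemma abs_le_qBd (q : ℚ) : |(q : ℝ)| ≤ qBd q := by
  have h1 : |q| ≤ qBd q := by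
    conv_lhs => rw [rat_eq_code q]
    have hd : (1:ℚ) ≤ qD q := by exact_mod_cast qD_pos q
    rw [abs_div, abs_of_pos (by linarith : (0:ℚ) < qD q)]
    refine (div_le_self (abs_nonneg _) hd).trans ?_
    rw [qBd]
    push_cast
    rw [abs_le]
    constructor <;> linarith [(Nat.cast_nonneg (qP q) : (0:ℚ) ≤ qP q), (Nat.cast_nonneg (qM q) : (0:ℚ) ≤ qM q)]
  have h2 : ((|q| : ℚ) : ℝ) ≤ ((qBd q : ℚ) : ℝ) := by exact_mod_cast h1
  simpa using h2

theorem cQBd {f : α → ℚ} (hf : Computable f) : Computable fun a => qBd (f a) :=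
  cNatAdd (cNatAdd (computable_qP.comp hf) (computable_qM.comp hf)) (Computable.const 1)

end RatOps

/-- Functions into `Fin n → σ` are computable when their components are. -/
theorem computable_finArrow {α σ : Type*} [Primcodable α] [Primcodable σ] {n : ℕ} {f : α → Fin n → σ}
    (h : ∀ j, Computable fun a => f a j) : Computable f := by
  have h1 := Computable.vector_ofFn (n := n) (f := fun j a => f a j) h
  have h2 : Computable (fun v : List.Vector σ n => (v.get : Fin n → σ)) :=
    (Primrec.vector_get' (α := σ) (n := n)).to_comp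
  refine (h2.comp h1).of_eq fun a => ?_
  funext j
  simp

end Crest.Agent.Lib.BoxFlow
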