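import Mathlib

/-!
# Computability of rational arithmetic for Mathlib's `Primcodable ℚ`

Mathlib's `Primcodable ℚ` comes from `Denumerable ℚ`, itself obtained from the set of codes of the
`Encodable ℚ` instance.  We prove that numerator, denominator, and the field operations are
`Computable`.
-/

set_option autoImplicit false

namespace Crest.Agent.BF

open Encodable Denumerable

/-- Original code of a rational number. -/
def code0 (q : ℚ) : ℕ := @Encodable.encode ℚ Rat.instEncodable q

theorem code0_eq (q : ℚ) : code0 q = Nat.pair (@Encodable.encode ℤ _ q.num) q.den := rfl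

theorem code0_injective : Function.Injective code0 :=
  @Encodable.encode_injective ℚ Rat.instEncodable

/-- The absolute value of the integer coded by `a`. -/
def natAbsCode (a : ℕ) : ℕ := if a % 2 = 1 then a / 2 + 1 else a / 2

theorem encode_int (z : ℤ) : @Encodable.encode ℤ _ z = Equiv.intEquivNat z := rfl

theorem natAbsCode_encode (z : ℤ) : natAbsCode (@Encodable.encode ℤ _ z) = z.natAbs := by
  rw [encode_int]
  cases z with
  | ofNat n =>
    have : Equiv.intEquivNat (Int.ofNat n) = 2 * n := rfl
    rw [this]; simp [natAbsCode]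
  | negSucc n =>
    have : Equiv.intEquivNat (Int.negSucc n) = 2 * n + 1 := rfl
    rw [this]; simp [natAbsCode]; omega

/-- Decidable description of the set of codes. -/
def isCode (m : ℕ) : Prop :=
  0 < m.unpair.2 ∧ ∀ k < m.unpair.2 + 1, 2 ≤ k →
    ¬ (natAbsCode m.unpair.1 % k = 0 ∧ m.unpair.2 % k = 0)

theorem coprime_iff_aux (x b : ℕ) (hb : 0 < b) :
    Nat.Coprime x b ↔ ∀ k < b + 1, 2 ≤ k → ¬ (x % k = 0 ∧ b % k = 0) := by
  constructor
  · intro h k _ hk2 ⟨h1, h2⟩
    have hk1 : k ∣ x := Nat.dvd_of_mod_eq_zero h1
    have hk2' : k ∣ b := Nat.dvd_of_mod_eq_zero h2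
    have : k ∣ 1 := by
      have := Nat.dvd_gcd hk1 hk2'
      rwa [h] at this
    have := Nat.le_of_dvd one_pos this
    omega
  · intro h
    by_contra hc
    have hg : Nat.gcd x b ≠ 1 := hc
    have hgpos : 0 < Nat.gcd x b := Nat.gcd_pos_of_pos_right _ hb
    have h1 : Nat.gcd x b ∣ x := Nat.gcd_dvd_left _ _
    have h2 : Nat.gcd x b ∣ b := Nat.gcd_dvd_right _ _
    refine h (Nat.gcd x b) ?_ ?_ ⟨Nat.mod_eq_zero_of_dvd h1, Nat.mod_eq_zero_of_dvd h2⟩
    · have := Nat.le_of_dvd hb h2
      omega
    · omega

theorem mem_range_code0_iff (m : ℕ) : m ∈ Set.range code0 ↔ isCode m := by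
  constructor
  · rintro ⟨q, rfl⟩
    rw [code0_eq, isCode]
    simp only [Nat.unpair_pair, natAbsCode_encode]
    refine ⟨q.den_pos, ?_⟩
    exact (coprime_iff_aux _ _ q.den_pos).1 q.reduced
  · rintro ⟨h1, h2⟩
    have hsurj : ∃ z : ℤ, @Encodable.encode ℤ _ z = m.unpair.1 :=
      ⟨Equiv.intEquivNat.symm m.unpair.1, by rw [encode_int]; simp⟩
    obtain ⟨z, hz⟩ := hsurj
    have hcop : Nat.Coprime z.natAbs m.unpair.2 := by
      rw [coprime_iff_aux _ _ h1]
      intro k hk hk2
      have := h2 k hk hk2
      rwa [← hz, natAbsCode_encode] at this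
    refine ⟨⟨z, m.unpair.2, h1.ne', hcop⟩, ?_⟩
    rw [code0_eq]
    show Nat.pair (@Encodable.encode ℤ _ z) m.unpair.2 = m
    rw [hz]; simp

theorem primrec_natAbsCode : Primrec natAbsCode := by
  have h : Primrec fun a : ℕ => if a % 2 = 1 then a / 2 + 1 else a / 2 := by
    refine Primrec.ite ?_ ?_ ?_
    · exact Primrec.eq.comp (Primrec.nat_mod.comp Primrec.id (Primrec.const 2)) (Primrec.const 1)
    · exact Primrec.succ.comp (Primrec.nat_div.comp Primrec.id (Primrec.const 2))
    · exact Primrec.nat_div.comp Primrec.id (Primrec.const 2)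
  exact h

theorem primrecPred_isCode : PrimrecPred isCode := by
  have hfst : Primrec fun m : ℕ => m.unpair.1 := Primrec.fst.comp Primrec.unpair
  have hsnd : Primrec fun m : ℕ => m.unpair.2 := Primrec.snd.comp Primrec.unpair
  have hR : PrimrecRel fun (k m : ℕ) => 2 ≤ k →
      ¬ (natAbsCode m.unpair.1 % k = 0 ∧ m.unpair.2 % k = 0) := by
    have h1 : PrimrecRel fun (k m : ℕ) => ¬ (2 ≤ k) ∨
        ¬ (natAbsCode m.unpair.1 % k = 0 ∧ m.unpair.2 % k = 0) := by
      refine PrimrecPred.or ?_ ?_
      · exact PrimrecPred.not (Primrec.nat_le.comp (Primrec.const 2) Primrec.fst)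
      · refine PrimrecPred.not (PrimrecPred.and ?_ ?_)
        · exact Primrec.eq.comp (Primrec.nat_mod.comp
            (primrec_natAbsCode.comp (hfst.comp Primrec.snd)) Primrec.fst) (Primrec.const 0)
        · exact Primrec.eq.comp (Primrec.nat_mod.comp (hsnd.comp Primrec.snd) Primrec.fst)
            (Primrec.const 0)
    exact h1.of_eq fun k m => by
      constructor
      · rintro (h | h) hk
        · exact absurd hk h
        · exact h
      · intro h
        by_cases hk : 2 ≤ k
        · exact Or.inr (h hk)
        · exact Or.inl hk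
  have hall : PrimrecPred fun m : ℕ => ∀ k < m.unpair.2 + 1, 2 ≤ k →
      ¬ (natAbsCode m.unpair.1 % k = 0 ∧ m.unpair.2 % k = 0) :=
    (hR.forall_lt).comp (Primrec.succ.comp hsnd) Primrec.id
  exact PrimrecPred.and (Primrec.nat_lt.comp (Primrec.const 0) hsnd) hall

/-- The enumeration of codes. -/
def enumCode (n : ℕ) : ℕ := code0 (Denumerable.ofNat ℚ n)

theorem range_code0_infinite : (Set.range code0).Infinite :=
  Set.infinite_range_of_injective code0_injective

theorem exists_next (x : ℕ) : ∃ m, isCode (x + m + 1) := by
  obtain ⟨y, hy, hxy⟩ := range_code0_infinite.exists_gt x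
  refine ⟨y - x - 1, ?_⟩
  have : x + (y - x - 1) + 1 = y := by omega
  rw [this]
  exact (mem_range_code0_iff y).1 hy

noncomputable instance decIsCode : DecidablePred isCode := Classical.decPred _

/-- The next code after `x`. -/
noncomputable def nextCode (x : ℕ) : ℕ := x + Nat.find (exists_next x) + 1

instance infRangeCode : Infinite (Set.range (@encode ℚ Rat.instEncodable)) :=
  Set.infinite_coe_iff.2 range_code0_infinite

instance decRangeCode : DecidablePred (· ∈ Set.range (@encode ℚ Rat.instEncodable)) :=
  decidableRangeEncode ℚ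

theorem enumCode_eq (n : ℕ) : enumCode n =
    ((Nat.Subtype.ofNat (Set.range (@encode ℚ Rat.instEncodable)) n : _) : ℕ) := by
  unfold enumCode
  have h1 : Denumerable.ofNat ℚ n = (equivRangeEncode ℚ).symm
      (@Denumerable.ofNat _ (Nat.Subtype.denumerable _) n) :=
    @Denumerable.ofEquiv_ofNat _ _ (Nat.Subtype.denumerable _) (equivRangeEncode ℚ) n
  have h2 : @Denumerable.ofNat _ (Nat.Subtype.denumerable
      (Set.range (@encode ℚ Rat.instEncodable))) n =
      Nat.Subtype.ofNat (Set.range (@encode ℚ Rat.instEncodable)) n := by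
    exact Denumerable.ofEquiv_ofNat _ _ n
  rw [h1, h2]
  set y := Nat.Subtype.ofNat (Set.range (@encode ℚ Rat.instEncodable)) n
  have h3 := (equivRangeEncode ℚ).apply_symm_apply y
  have h4 := congrArg Subtype.val h3
  exact h4

theorem enumCode_succ (n : ℕ) : enumCode (n + 1) = nextCode (enumCode n) := by
  rw [enumCode_eq, enumCode_eq]
  show ((Nat.Subtype.succ (Nat.Subtype.ofNat (Set.range (@encode ℚ Rat.instEncodable)) n) : _) : ℕ) = _
  unfold Nat.Subtype.succ nextCode
  simp only
  congr 2
  apply Nat.find_congr'
  intro m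
  exact mem_range_code0_iff _

theorem computable_nextCode : Computable nextCode := by
  have hp : Primrec₂ fun (x m : ℕ) => decide (isCode (x + m + 1)) :=
    primrecPred_isCode.decide.comp
      (Primrec.succ.comp (Primrec.nat_add.comp Primrec.fst Primrec.snd))
  let P : ℕ → ℕ →. Bool := fun x m => Part.some (decide (isCode (x + m + 1)))
  have hfind : Partrec fun x : ℕ => Nat.rfind (P x) := by
    refine Partrec.rfind ?_
    exact (hp.to_comp.partrec₂)
  have hmem : ∀ x : ℕ, Nat.find (exists_next x) ∈ Nat.rfind (P x) := by
    intro x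
    rw [Nat.mem_rfind]
    refine ⟨?_, ?_⟩
    · simpa [P] using Nat.find_spec (exists_next x)
    · intro m hm
      simpa [P] using Nat.find_min (exists_next x) hm
  have hfind' : Computable fun x : ℕ => Nat.find (exists_next x) := hfind.of_eq_tot hmem
  have : Computable fun x : ℕ => x + Nat.find (exists_next x) + 1 :=
    Computable.succ.comp ((Primrec.nat_add.to_comp).comp Computable.id hfind')
  exact this

theorem computable_enumCode : Computable enumCode := by
  have h : Computable fun n : ℕ => (Nat.rec (enumCode 0) (fun _ y => nextCode y) n : ℕ) :=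
    Computable.nat_rec (f := fun n : ℕ => n) (g := fun _ => enumCode 0)
      (h := fun _ p => nextCode p.2) Computable.id (Computable.const _)
      ((computable_nextCode.comp (Computable.snd.comp Computable.snd)).to₂)
  refine h.of_eq fun n => ?_
  induction n with
  | zero => rfl
  | succ n ih =>
    rw [enumCode_succ, ← ih]

/-- The code of a rational in the sense of `Primcodable ℚ`. -/
abbrev encQ (q : ℚ) : ℕ := @Encodable.encode ℚ Primcodable.toEncodable q

theorem computable_encQ : Computable encQ := Computable.encode

theorem ofNat_encQ (q : ℚ) : Denumerable.ofNat ℚ (encQ q) = q := Denumerable.ofNat_encode q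

theorem encQ_ofNat (n : ℕ) : encQ (Denumerable.ofNat ℚ n) = n := Denumerable.encode_ofNat n

theorem computable_code0 : Computable code0 := by
  have h : Computable fun q : ℚ => enumCode (encQ q) :=
    computable_enumCode.comp computable_encQ
  refine h.of_eq fun q => ?_
  simp only [enumCode, ofNat_encQ]

/-! ### numerator and denominator -/

theorem den_eq_of_code0 (q : ℚ) : q.den = (code0 q).unpair.2 := by
  rw [code0_eq]; simp

theorem natAbs_eq_of_code0 (q : ℚ) : q.num.natAbs = natAbsCode (code0 q).unpair.1 := by
  rw [code0_eq]; simp [natAbsCode_encode]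

/-- `true` iff the numerator is negative. -/
theorem neg_eq_of_code0 (q : ℚ) : decide (q.num < 0) = decide ((code0 q).unpair.1 % 2 = 1) := by
  rw [code0_eq, Nat.unpair_pair]
  show _ = decide ((@Encodable.encode ℤ _ q.num) % 2 = 1)
  rw [encode_int]
  cases h : q.num with
  | ofNat n =>
    have : Equiv.intEquivNat (Int.ofNat n) = 2 * n := rfl
    rw [this]; simp
  | negSucc n =>
    have : Equiv.intEquivNat (Int.negSucc n) = 2 * n + 1 := rfl
    rw [this]; simp [Int.negSucc_lt_zero]

theorem computable_den : Computable fun q : ℚ => q.den := by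
  have h : Computable fun q : ℚ => (code0 q).unpair.2 :=
    Computable.snd.comp (Computable.unpair.comp computable_code0)
  exact h.of_eq fun q => (den_eq_of_code0 q).symm

theorem computable_natAbs : Computable fun q : ℚ => q.num.natAbs := by
  have h : Computable fun q : ℚ => natAbsCode (code0 q).unpair.1 :=
    primrec_natAbsCode.to_comp.comp (Computable.fst.comp (Computable.unpair.comp computable_code0))
  exact h.of_eq fun q => (natAbs_eq_of_code0 q).symm

theorem computable_numNeg : Computable fun q : ℚ => decide (q.num < 0) := by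
  have h0 : Primrec fun a : ℕ => decide (a % 2 = 1) :=
    (Primrec.eq.decide).comp (Primrec.nat_mod.comp Primrec.id (Primrec.const 2)) (Primrec.const 1)
  have h : Computable fun q : ℚ => decide ((code0 q).unpair.1 % 2 = 1) :=
    h0.to_comp.comp (Computable.fst.comp (Computable.unpair.comp computable_code0))
  exact h.of_eq fun q => (neg_eq_of_code0 q).symm

/-! ### Building rationals -/

/-- `mk3 (p, n, d) = (p - n) / (d + 1)`. -/
def mk3 (z : ℕ × ℕ × ℕ) : ℚ := ((z.1 : ℚ) - (z.2.1 : ℚ)) / ((z.2.2 : ℚ) + 1)

/-- Positive part of the numerator. -/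
def posN (q : ℚ) : ℕ := if q.num < 0 then 0 else q.num.natAbs
/-- Negative part of the numerator. -/
def negN (q : ℚ) : ℕ := if q.num < 0 then q.num.natAbs else 0

theorem computable_posN : Computable posN := by
  have h : Computable fun q : ℚ => cond (decide (q.num < 0)) 0 q.num.natAbs :=
    Computable.cond computable_numNeg (Computable.const 0) computable_natAbs
  refine h.of_eq fun q => ?_
  unfold posN
  by_cases hq : q.num < 0 <;> simp [hq]

theorem computable_negN : Computable negN := by
  have h : Computable fun q : ℚ => cond (decide (q.num < 0)) q.num.natAbs 0 :=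
    Computable.cond computable_numNeg computable_natAbs (Computable.const 0)
  refine h.of_eq fun q => ?_
  unfold negN
  by_cases hq : q.num < 0 <;> simp [hq]

theorem rat_eq_parts (q : ℚ) : q = ((posN q : ℚ) - (negN q : ℚ)) / (q.den : ℚ) := by
  have h1 : (q.num : ℚ) = (posN q : ℚ) - (negN q : ℚ) := by
    unfold posN negN
    by_cases hq : q.num < 0
    · simp only [hq, if_true, Nat.cast_zero, zero_sub]
      have : ((q.num.natAbs : ℕ) : ℚ) = -(q.num : ℚ) := by
        rw [Nat.cast_natAbs, Int.cast_abs, abs_of_neg (by exact_mod_cast hq)]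
      rw [this]; ring
    · simp only [hq, if_false, Nat.cast_zero, sub_zero]
      have : ((q.num.natAbs : ℕ) : ℚ) = (q.num : ℚ) := by
        rw [Nat.cast_natAbs, Int.cast_abs, abs_of_nonneg (by exact_mod_cast not_lt.1 hq)]
      rw [this]
  rw [← h1]
  exact (Rat.num_div_den q).symm

theorem computable_mk3 : Computable mk3 := by
  -- search for the index of the rational number
  let test : (ℕ × ℕ × ℕ) → ℕ → Bool := fun z m =>
    decide (posN (Denumerable.ofNat ℚ m) * (z.2.2 + 1) + z.2.1 * (Denumerable.ofNat ℚ m).den
      = z.1 * (Denumerable.ofNat ℚ m).den + negN (Denumerable.ofNat ℚ m) * (z.2.2 + 1))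
  have hofNat : Computable (Denumerable.ofNat ℚ) := Computable.ofNat ℚ
  have hdecEq : Computable₂ fun (a b : ℕ) => decide (a = b) := (Primrec.eq.decide).to_comp
  have hmul : Computable₂ ((· * ·) : ℕ → ℕ → ℕ) := Primrec.nat_mul.to_comp
  have hadd : Computable₂ ((· + ·) : ℕ → ℕ → ℕ) := Primrec.nat_add.to_comp
  have htest : Computable₂ test := by
    have hz : Computable fun a : (ℕ × ℕ × ℕ) × ℕ => a.1 := Computable.fst
    have hr : Computable fun a : (ℕ × ℕ × ℕ) × ℕ => Denumerable.ofNat ℚ a.2 :=
      hofNat.comp Computable.snd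
    have hp : Computable fun a : (ℕ × ℕ × ℕ) × ℕ => a.1.1 := Computable.fst.comp hz
    have hn : Computable fun a : (ℕ × ℕ × ℕ) × ℕ => a.1.2.1 :=
      Computable.fst.comp (Computable.snd.comp hz)
    have hd : Computable fun a : (ℕ × ℕ × ℕ) × ℕ => a.1.2.2 + 1 :=
      Computable.succ.comp (Computable.snd.comp (Computable.snd.comp hz))
    refine hdecEq.comp (hadd.comp (hmul.comp (computable_posN.comp hr) hd)
      (hmul.comp hn (computable_den.comp hr)))
      (hadd.comp (hmul.comp hp (computable_den.comp hr))
        (hmul.comp (computable_negN.comp hr) hd))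
  let P : (ℕ × ℕ × ℕ) → ℕ →. Bool := fun z m => Part.some (test z m)
  have hfind : Partrec fun z : ℕ × ℕ × ℕ => Nat.rfind (P z) :=
    Partrec.rfind htest.partrec₂
  have hspec : ∀ (z : ℕ × ℕ × ℕ) (r : ℚ), test z (encQ r) = true ↔ r = mk3 z := by
    intro z r
    simp only [test, ofNat_encQ, decide_eq_true_eq]
    obtain ⟨p, n, d⟩ := z
    simp only [mk3]
    have hd : ((d : ℚ) + 1) ≠ 0 := by positivity
    have hr : (r.den : ℚ) ≠ 0 := by exact_mod_cast r.den_ne_zero
    constructor
    · intro h
      have h' : (posN r : ℚ) * ((d : ℚ) + 1) + (n : ℚ) * (r.den : ℚ)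
          = (p : ℚ) * (r.den : ℚ) + (negN r : ℚ) * ((d : ℚ) + 1) := by exact_mod_cast h
      conv_lhs => rw [rat_eq_parts r]
      rw [div_eq_div_iff hr hd]
      linarith
    · intro h
      have h' : ((posN r : ℚ) - (negN r : ℚ)) / (r.den : ℚ) = ((p : ℚ) - (n : ℚ)) / ((d : ℚ) + 1) := by
        rw [← rat_eq_parts r]; exact h
      rw [div_eq_div_iff hr hd] at h'
      have h'' : (posN r : ℚ) * ((d : ℚ) + 1) + (n : ℚ) * (r.den : ℚ)
          = (p : ℚ) * (r.den : ℚ) + (negN r : ℚ) * ((d : ℚ) + 1) := by linarith
      exact_mod_cast h''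
  have hmem : ∀ z : ℕ × ℕ × ℕ, encQ (mk3 z) ∈ Nat.rfind (P z) := by
    intro z
    rw [Nat.mem_rfind]
    refine ⟨?_, ?_⟩
    · simp only [P, Part.mem_some_iff]
      exact ((hspec z (mk3 z)).2 rfl).symm
    · intro m hm
      simp only [P, Part.mem_some_iff]
      have hne : test z m ≠ true := by
        intro ht
        have h1 : test z (encQ (Denumerable.ofNat ℚ m)) = true := by rwa [encQ_ofNat]
        have h2 := (hspec z _).1 h1
        have h3 : encQ (mk3 z) = m := by rw [← h2, encQ_ofNat]
        omega
      cases ht : test z m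
      · rfl
      · exact absurd ht hne
  have henc : Computable fun z : ℕ × ℕ × ℕ => encQ (mk3 z) := hfind.of_eq_tot hmem
  exact Computable.encode_iff.1 henc

/-! ### Field operations -/

section ops

theorem rat_den_pos_q (q : ℚ) : (0 : ℚ) < q.den := by exact_mod_cast q.den_pos

variable {α : Type*} [Primcodable α]

/-- Building a computable rational-valued function from computable parts. -/
theorem computable_mk3_of {p n d : α → ℕ} (hp : Computable p) (hn : Computable n)
    (hd : Computable d) : Computable fun a => mk3 (p a, n a, d a) :=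
  computable_mk3.comp (hp.pair (hn.pair hd))

theorem nat_add_comp {f g : α → ℕ} (hf : Computable f) (hg : Computable g) :
    Computable fun a => f a + g a := (Primrec.nat_add.to_comp).comp hf hg

theorem nat_mul_comp {f g : α → ℕ} (hf : Computable f) (hg : Computable g) :
    Computable fun a => f a * g a := (Primrec.nat_mul.to_comp).comp hf hg

theorem nat_pred_comp {f : α → ℕ} (hf : Computable f) :
    Computable fun a => f a - 1 := Computable.pred.comp hf

theorem mk3_pred (p n d : ℕ) (hd : 0 < d) : mk3 (p, n, d - 1) = ((p : ℚ) - n) / d := by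
  simp only [mk3]
  congr 1
  have : ((d - 1 : ℕ) : ℚ) = (d : ℚ) - 1 := by
    rw [Nat.cast_sub hd]; simp
  rw [this]; ring

theorem computable_ratAdd : Computable₂ ((· + ·) : ℚ → ℚ → ℚ) := by
  have ha : Computable fun a : ℚ × ℚ => a.1 := Computable.fst
  have hb : Computable fun a : ℚ × ℚ => a.2 := Computable.snd
  have h : Computable fun a : ℚ × ℚ => mk3
      (posN a.1 * a.2.den + posN a.2 * a.1.den,
       negN a.1 * a.2.den + negN a.2 * a.1.den,
       a.1.den * a.2.den - 1) :=
    computable_mk3_of
      (nat_add_comp (nat_mul_comp (computable_posN.comp ha) (computable_den.comp hb))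
        (nat_mul_comp (computable_posN.comp hb) (computable_den.comp ha)))
      (nat_add_comp (nat_mul_comp (computable_negN.comp ha) (computable_den.comp hb))
        (nat_mul_comp (computable_negN.comp hb) (computable_den.comp ha)))
      (nat_pred_comp (nat_mul_comp (computable_den.comp ha) (computable_den.comp hb)))
  refine h.of_eq fun a => ?_
  obtain ⟨x, y⟩ := a
  simp only
  rw [mk3_pred _ _ _ (Nat.mul_pos x.den_pos y.den_pos)]
  conv_rhs => rw [rat_eq_parts x, rat_eq_parts y]
  have hx := (rat_den_pos_q x).ne'
  have hy := (rat_den_pos_q y).ne'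
  push_cast
  field_simp
  ring

theorem computable_ratMul : Computable₂ ((· * ·) : ℚ → ℚ → ℚ) := by
  have ha : Computable fun a : ℚ × ℚ => a.1 := Computable.fst
  have hb : Computable fun a : ℚ × ℚ => a.2 := Computable.snd
  have h : Computable fun a : ℚ × ℚ => mk3
      (posN a.1 * posN a.2 + negN a.1 * negN a.2,
       posN a.1 * negN a.2 + negN a.1 * posN a.2,
       a.1.den * a.2.den - 1) :=
    computable_mk3_of
      (nat_add_comp (nat_mul_comp (computable_posN.comp ha) (computable_posN.comp hb))
        (nat_mul_comp (computable_negN.comp ha) (computable_negN.comp hb)))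
      (nat_add_comp (nat_mul_comp (computable_posN.comp ha) (computable_negN.comp hb))
        (nat_mul_comp (computable_negN.comp ha) (computable_posN.comp hb)))
      (nat_pred_comp (nat_mul_comp (computable_den.comp ha) (computable_den.comp hb)))
  refine h.of_eq fun a => ?_
  obtain ⟨x, y⟩ := a
  simp only
  rw [mk3_pred _ _ _ (Nat.mul_pos x.den_pos y.den_pos)]
  conv_rhs => rw [rat_eq_parts x, rat_eq_parts y]
  have hx := (rat_den_pos_q x).ne'
  have hy := (rat_den_pos_q y).ne'
  push_cast
  field_simp
  ring

theorem computable_ratNeg : Computable (fun q : ℚ => -q) := by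
  have h : Computable fun q : ℚ => mk3 (negN q, posN q, q.den - 1) :=
    computable_mk3_of computable_negN computable_posN (nat_pred_comp computable_den)
  refine h.of_eq fun q => ?_
  rw [mk3_pred _ _ _ q.den_pos]
  conv_rhs => rw [rat_eq_parts q]
  ring

theorem computable_natCast : Computable (fun n : ℕ => (n : ℚ)) := by
  have h : Computable fun n : ℕ => mk3 (n, 0, 0) :=
    computable_mk3_of Computable.id (Computable.const 0) (Computable.const 0)
  refine h.of_eq fun n => ?_
  simp [mk3]

theorem computable_ratLe : Computable₂ fun a b : ℚ => decide (a ≤ b) := by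
  have ha : Computable fun a : ℚ × ℚ => a.1 := Computable.fst
  have hb : Computable fun a : ℚ × ℚ => a.2 := Computable.snd
  have hle : Computable₂ fun x y : ℕ => decide (x ≤ y) := (Primrec.nat_le.decide).to_comp
  have h : Computable fun a : ℚ × ℚ => decide
      (posN a.1 * a.2.den + negN a.2 * a.1.den ≤ posN a.2 * a.1.den + negN a.1 * a.2.den) :=
    hle.comp
      (nat_add_comp (nat_mul_comp (computable_posN.comp ha) (computable_den.comp hb))
        (nat_mul_comp (computable_negN.comp hb) (computable_den.comp ha)))
      (nat_add_comp (nat_mul_comp (computable_posN.comp hb) (computable_den.comp ha))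
        (nat_mul_comp (computable_negN.comp ha) (computable_den.comp hb)))
  refine h.of_eq fun a => ?_
  obtain ⟨x, y⟩ := a
  simp only
  congr 1
  have hx := rat_den_pos_q x
  have hy := rat_den_pos_q y
  rw [eq_iff_iff]
  have hxe := rat_eq_parts x
  have hye := rat_eq_parts y
  constructor
  · intro h
    have h' : (posN x : ℚ) * y.den + negN y * x.den ≤ posN y * x.den + negN x * y.den := by
      exact_mod_cast h
    rw [hxe, hye, div_le_div_iff₀ hx hy]
    nlinarith
  · intro h
    rw [hxe, hye, div_le_div_iff₀ hx hy] at h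
    have h' : (posN x : ℚ) * y.den + negN y * x.den ≤ posN y * x.den + negN x * y.den := by
      nlinarith
    exact_mod_cast h'

theorem computable_ratInv : Computable (fun q : ℚ => q⁻¹) := by
  -- q⁻¹ = den / num
  have h : Computable fun q : ℚ =>
      cond (decide (q.num < 0))
        (mk3 (0, q.den, q.num.natAbs - 1))
        (mk3 (q.den, 0, q.num.natAbs - 1)) :=
    Computable.cond computable_numNeg
      (computable_mk3_of (Computable.const 0) computable_den (nat_pred_comp computable_natAbs))
      (computable_mk3_of computable_den (Computable.const 0) (nat_pred_comp computable_natAbs))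
  have h2 : Computable fun q : ℚ =>
      cond (decide (q.num.natAbs = 0)) 0
      (cond (decide (q.num < 0))
        (mk3 (0, q.den, q.num.natAbs - 1))
        (mk3 (q.den, 0, q.num.natAbs - 1))) := by
    refine Computable.cond ?_ (Computable.const 0) h
    exact (Primrec.eq.decide.to_comp).comp computable_natAbs (Computable.const 0)
  refine h2.of_eq fun q => ?_
  by_cases hq0 : q = 0
  · subst hq0; simp
  have hnum : q.num ≠ 0 := Rat.num_ne_zero.2 hq0
  have habs : 0 < q.num.natAbs := Int.natAbs_pos.2 hnum
  have hnumne : (q.num : ℚ) ≠ 0 := by exact_mod_cast hnum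
  have hden : (q.den : ℚ) ≠ 0 := (rat_den_pos_q q).ne'
  have hinv : q⁻¹ = (q.den : ℚ) / (q.num : ℚ) := by
    conv_lhs => rw [← Rat.num_div_den q]
    rw [inv_div]
  by_cases hneg : q.num < 0
  · simp only [decide_eq_true_eq, hneg, Int.natAbs_eq_zero, hnum, decide_false, decide_true,
      cond_true, cond_false]
    rw [mk3_pred _ _ _ habs, hinv]
    have : ((q.num.natAbs : ℕ) : ℚ) = -(q.num : ℚ) := by
      rw [Nat.cast_natAbs, Int.cast_abs, abs_of_neg (by exact_mod_cast hneg)]
    rw [this]
    field_simp
    simp
  · simp only [hneg, Int.natAbs_eq_zero, hnum, decide_false, cond_false]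
    rw [mk3_pred _ _ _ habs, hinv]
    have : ((q.num.natAbs : ℕ) : ℚ) = (q.num : ℚ) := by
      rw [Nat.cast_natAbs, Int.cast_abs, abs_of_nonneg (by exact_mod_cast not_lt.1 hneg)]
    rw [this]
    simp

variable {f g : α → ℚ}

theorem Computable.rat_add (hf : Computable f) (hg : Computable g) :
    Computable fun a => f a + g a := computable_ratAdd.comp hf hg

theorem Computable.rat_mul (hf : Computable f) (hg : Computable g) :
    Computable fun a => f a * g a := computable_ratMul.comp hf hg

theorem Computable.rat_neg (hf : Computable f) : Computable fun a => - f a :=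
  computable_ratNeg.comp hf

theorem Computable.rat_sub (hf : Computable f) (hg : Computable g) :
    Computable fun a => f a - g a := by
  have := Computable.rat_add hf (Computable.rat_neg hg)
  exact this.of_eq fun a => (sub_eq_add_neg _ _).symm

theorem Computable.rat_inv (hf : Computable f) : Computable fun a => (f a)⁻¹ :=
  computable_ratInv.comp hf

theorem Computable.rat_div (hf : Computable f) (hg : Computable g) :
    Computable fun a => f a / g a := by
  have := Computable.rat_mul hf (Computable.rat_inv hg)
  exact this.of_eq fun a => (div_eq_mul_inv _ _).symm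

theorem Computable.rat_natCast {h : α → ℕ} (hh : Computable h) : Computable fun a => (h a : ℚ) :=
  computable_natCast.comp hh

theorem Computable.rat_le (hf : Computable f) (hg : Computable g) :
    Computable fun a => decide (f a ≤ g a) := computable_ratLe.comp hf hg

/-- An upper bound for the absolute value of a rational (as a natural number). -/
def absBd (q : ℚ) : ℕ := q.num.natAbs

theorem computable_absBd : Computable absBd := computable_natAbs

theorem abs_le_absBd (q : ℚ) : |q| ≤ absBd q := by
  have h1 : |q| = |(q.num : ℚ)| / (q.den : ℚ) := by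
    conv_lhs => rw [← Rat.num_div_den q]
    rw [abs_div, abs_of_pos (rat_den_pos_q q)]
  rw [h1]
  have h2 : (absBd q : ℚ) = |(q.num : ℚ)| := by
    unfold absBd
    rw [Nat.cast_natAbs, Int.cast_abs]
  rw [h2]
  apply div_le_self (abs_nonneg _)
  have := q.den_pos
  exact_mod_cast this

theorem abs_le_absBd_real (q : ℚ) : |(q : ℝ)| ≤ absBd q := by
  have := abs_le_absBd q
  have h2 : ((|q| : ℚ) : ℝ) ≤ ((absBd q : ℚ) : ℝ) := by exact_mod_cast this
  simpa using h2

/-- Powers. -/
theorem Computable.rat_pow {h : α → ℕ} (hf : Computable f) (hh : Computable h) :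
    Computable fun a => (f a) ^ (h a) := by
  have : Computable fun a => (Nat.rec (1 : ℚ) (fun _ y => y * f a) (h a) : ℚ) :=
    Computable.nat_rec (f := h) (g := fun _ => (1 : ℚ))
      (h := fun a p => p.2 * f a) hh (Computable.const 1)
      (Computable.rat_mul (Computable.snd.comp Computable.snd)
        (hf.comp Computable.fst)).to₂
  refine this.of_eq fun a => ?_
  induction h a with
  | zero => simp
  | succ n ih => simp only [pow_succ]; rw [← ih]

/-- Finite sums. -/
theorem Computable.rat_sum {F : α → ℕ → ℚ} {h : α → ℕ} (hF : Computable₂ F) (hh : Computable h) :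
    Computable fun a => ∑ i ∈ Finset.range (h a), F a i := by
  have : Computable fun a => (Nat.rec (0 : ℚ) (fun i y => y + F a i) (h a) : ℚ) :=
    Computable.nat_rec (f := h) (g := fun _ => (0 : ℚ))
      (h := fun a p => p.2 + F a p.1) hh (Computable.const 0)
      (Computable.rat_add (Computable.snd.comp Computable.snd)
        (hF.comp Computable.fst (Computable.fst.comp Computable.snd))).to₂
  refine this.of_eq fun a => ?_
  induction h a with
  | zero => simp
  | succ n ih => rw [Finset.sum_range_succ, ← ih]

end ops

end Crest.Agent.BF
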