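import Crest.Agent.Lib.BoxFlow.Tens

/-! The elementary fields: `stepV s` is a compactly supported divergence-free field equal to
`(α + a p_l) e_k` on the flat box, and `fieldOf L` runs a list of them in disjoint time slots. -/

set_option autoImplicit false
set_option linter.unusedSimpArgs false
set_option linter.deprecated false
set_option linter.unusedVariables false

open scoped ContDiff
open Crest.AnalysisR.BoxFlow

namespace Crest.Agent.Lib.BoxFlow

noncomputable section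

/-- Data of an elementary step. -/
structure StepData where
  (k l : Fin 3)
  (hkl : k ≠ l)
  (α a : ℚ)
  (lo hi : Fin 3 → ℚ)
  (hlh : ∀ i, lo i ≤ hi i)
  (c : ℚ)
  (hc : 0 < c)

namespace StepData

/-- Cut-off towers of a step. -/
def kap (s : StepData) (i : Fin 3) : ℕ → ℝ → ℝ := cutT (s.lo i) (s.hi i) s.c

/-- Coordinate towers of a step: polynomial times cut-off in coordinate `l`, cut-off otherwise. -/
def fam (s : StepData) (i : Fin 3) : ℕ → ℝ → ℝ :=
  if i = s.l then polyT s.α s.a (s.kap s.l) else s.kap i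

lemma tower_kap (s : StepData) (i : Fin 3) : Tower (s.kap i) := tower_cutT _ _ _

lemma tower_fam (s : StepData) (i : Fin 3) : Tower (s.fam i) := by
  unfold fam
  split_ifs with h
  · exact tower_polyT _ _ (s.tower_kap s.l) (cutR (s.lo s.l) (s.hi s.l) s.c)
      (fun x hx => cutT_vanish_R s.hc (s.hlh s.l) hx)
  · exact s.tower_kap i

lemma fam_self (s : StepData) : s.fam s.l = polyT s.α s.a (s.kap s.l) := by
  simp [fam]

lemma fam_ne (s : StepData) {i : Fin 3} (h : i ≠ s.l) : s.fam i = s.kap i := by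
  simp [fam, h]

end StepData

/-- The spatial factor of `scal`. -/
def sp (F : Fin 3 → ℕ → ℝ → ℝ) (ι : Fin 4 → ℕ) (x : Fin 3 → ℝ) : ℝ :=
  F 0 (ι 1) (x 0) * F 1 (ι 2) (x 1) * F 2 (ι 3) (x 2)

lemma sp_eq_prod (F : Fin 3 → ℕ → ℝ → ℝ) (ι : Fin 4 → ℕ) (x : Fin 3 → ℝ) :
    sp F ι x = ∏ i : Fin 3, F i (ι i.succ) (x i) := by
  rw [Fin.prod_univ_three]
  rfl

lemma scal_eq (T : ℕ → ℝ → ℝ) (F : Fin 3 → ℕ → ℝ → ℝ) (ι : Fin 4 → ℕ) (p : ℝ × (Fin 3 → ℝ)) :
    scal T F ι p = T (ι 0) p.1 * sp F ι p.2 := rfl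

/-- The spatial elementary field. -/
def stepV (s : StepData) (x : Fin 3 → ℝ) : Fin 3 → ℝ :=
  Pi.single s.k (sp s.fam (Pi.single s.l.succ 1) x) - Pi.single s.l (sp s.fam (Pi.single s.k.succ 1) x)

lemma StepData.kap_flat0 (s : StepData) {i : Fin 3} {y : ℝ} (h1 : (s.lo i : ℝ) ≤ y) (h2 : y ≤ s.hi i) :
    s.kap i 0 y = 1 := cutT_flat0 s.hc h1 h2

lemma StepData.kap_flat1 (s : StepData) {i : Fin 3} {y : ℝ} (h1 : (s.lo i : ℝ) ≤ y) (h2 : y ≤ s.hi i) :
    s.kap i 1 y = 0 := cutT_flatS s.hc h1 h2 0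

theorem stepV_flat {s : StepData} {p : Fin 3 → ℝ} (hp : ∀ i, (s.lo i : ℝ) ≤ p i ∧ p i ≤ s.hi i) :
    stepV s p = Pi.single s.k ((s.α : ℝ) + s.a * p s.l) := by
  have h1 : sp s.fam (Pi.single s.l.succ 1) p = (s.α : ℝ) + s.a * p s.l := by
    rw [sp_eq_prod, Finset.prod_eq_single s.l]
    · simp only [Pi.single_eq_same, s.fam_self]
      exact polyT_flat1 _ _ (s.kap_flat0 (hp s.l).1 (hp s.l).2) (s.kap_flat1 (hp s.l).1 (hp s.l).2)
    · intro i _ hi
      have : (Pi.single s.l.succ 1 : Fin 4 → ℕ) i.succ = 0 := by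
        rw [Pi.single_apply, if_neg]
        exact fun H => hi (Fin.succ_injective _ H)
      rw [this, s.fam_ne hi]
      exact s.kap_flat0 (hp i).1 (hp i).2
    · simp
  have h2 : sp s.fam (Pi.single s.k.succ 1) p = 0 := by
    rw [sp_eq_prod]
    apply Finset.prod_eq_zero (Finset.mem_univ s.k)
    simp only [Pi.single_eq_same, s.fam_ne s.hkl]
    exact s.kap_flat1 (hp s.k).1 (hp s.k).2
  rw [stepV, h1, h2]
  simp

lemma StepData.fam_vanish (s : StepData) {i : Fin 3} {y : ℝ}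
    (h : y ≤ (s.lo i : ℝ) - 1 / s.c ∨ (s.hi i : ℝ) + 1 / s.c ≤ y) : VanishAt (s.fam i) y := by
  have hv : VanishAt (s.kap i) y := cutT_vanish s.hc (s.hlh i) h
  by_cases hi : i = s.l
  · subst hi
    rw [s.fam_self]
    exact hv.polyT _ _
  · rw [s.fam_ne hi]
    exact hv

theorem stepV_zero {s : StepData} {p : Fin 3 → ℝ}
    (hp : ∃ i, p i ≤ (s.lo i : ℝ) - 1 / s.c ∨ (s.hi i : ℝ) + 1 / s.c ≤ p i) : stepV s p = 0 := by
  obtain ⟨i, hi⟩ := hp
  have hv := s.fam_vanish hi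
  have h1 : ∀ ι : Fin 4 → ℕ, sp s.fam ι p = 0 := by
    intro ι
    rw [sp_eq_prod]
    exact Finset.prod_eq_zero (Finset.mem_univ i) (hv _)
  rw [stepV, h1, h1]
  simp

/-! ### Negation -/

/-- The same step with opposite velocity. -/
def StepData.neg (s : StepData) : StepData := { s with α := - s.α, a := - s.a }

lemma polyT_neg (α a : ℚ) (K : ℕ → ℝ → ℝ) (m : ℕ) (x : ℝ) :
    polyT (-α) (-a) K m x = - polyT α a K m x := by
  simp only [polyT]
  push_cast
  ring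

lemma sp_neg (s : StepData) (ι : Fin 4 → ℕ) (x : Fin 3 → ℝ) :
    sp s.neg.fam ι x = - sp s.fam ι x := by
  rw [sp_eq_prod, sp_eq_prod, ← Finset.mul_prod_erase _ _ (Finset.mem_univ s.l),
    ← Finset.mul_prod_erase _ (fun i => s.fam i (ι i.succ) (x i)) (Finset.mem_univ s.l)]
  have e1 : s.neg.fam s.l = fun m y => - polyT s.α s.a (s.kap s.l) m y := by
    funext m y
    have : s.neg.l = s.l := rfl
    have e : s.neg.fam s.neg.l = polyT s.neg.α s.neg.a (s.neg.kap s.neg.l) := s.neg.fam_self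
    rw [this] at e
    rw [e]
    exact polyT_neg _ _ _ _ _
  have e2 : ∀ i ∈ Finset.univ.erase s.l, s.neg.fam i (ι i.succ) (x i) = s.fam i (ι i.succ) (x i) := by
    intro i hi
    have hi' : i ≠ s.l := Finset.ne_of_mem_erase hi
    have h1 : s.neg.fam i = s.neg.kap i := s.neg.fam_ne hi'
    rw [h1, s.fam_ne hi']
    rfl
  rw [Finset.prod_congr rfl e2, e1, s.fam_self]
  ring

theorem stepV_neg (s : StepData) (x : Fin 3 → ℝ) : stepV s.neg x = - stepV s x := by
  simp only [stepV, sp_neg]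
  have e1 : s.neg.k = s.k := rfl
  have e2 : s.neg.l = s.l := rfl
  rw [e1, e2, Pi.single_neg, Pi.single_neg]
  abel

/-! ### Time slots -/

/-- The time tower of slot `j` out of `J`. -/
def slotT (J j : ℕ) : ℕ → ℝ → ℝ := fun m t =>
  ((2 * J : ℚ) : ℝ) ^ (m + 1) * fabD (m + 1) (((2 * J : ℚ) : ℝ) * t + ((-((J : ℚ) / 2 + j) : ℚ) : ℝ))

theorem tower_slotT (J j : ℕ) : Tower (slotT J j) :=
  (tower_fabD.affine (2 * J : ℚ) (-((J : ℚ) / 2 + j))).shift

/-- The time-change of slot `j` out of `J`. -/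
def slotB (J j : ℕ) (t : ℝ) : ℝ := fab (2 * J * (t - 1 / 4) - j)

/-- The velocity factor of slot `j` out of `J`. -/
def slotβ (J j : ℕ) (t : ℝ) : ℝ := slotT J j 0 t

lemma slot_arg (J j : ℕ) (t : ℝ) :
    ((2 * J : ℚ) : ℝ) * t + ((-((J : ℚ) / 2 + j) : ℚ) : ℝ) = 2 * J * (t - 1 / 4) - j := by
  push_cast
  ring

lemma slotB_hasDerivAt (J j : ℕ) (t : ℝ) : HasDerivAt (slotB J j) (slotβ J j t) t := by
  have h1 : HasDerivAt (fun t : ℝ => 2 * (J : ℝ) * (t - 1 / 4) - j) (2 * J) t := by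
    have := (((hasDerivAt_id t).sub_const (1 / 4 : ℝ)).const_mul (2 * (J : ℝ))).sub_const (j : ℝ)
    simpa using this
  have h2 := (fabD_hasDerivAt 0 (2 * (J : ℝ) * (t - 1 / 4) - j)).comp t h1
  have e : slotB J j = fabD 0 ∘ fun t : ℝ => 2 * (J : ℝ) * (t - 1 / 4) - j := rfl
  rw [e]
  refine h2.congr_deriv ?_
  simp only [slotβ, slotT, slot_arg]
  push_cast
  ring

lemma slot_le_zero {J j : ℕ} {t : ℝ} (hJ : 0 < J) (h : t ≤ 1 / 4 + (j : ℝ) / (2 * J)) :
    2 * (J : ℝ) * (t - 1 / 4) - j ≤ 0 := by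
  have hJ' : (0:ℝ) < J := by exact_mod_cast hJ
  have e : 2 * (J : ℝ) * ((j : ℝ) / (2 * J)) = j := by field_simp
  nlinarith

lemma slot_ge_one {J j : ℕ} {t : ℝ} (hJ : 0 < J) (h : 1 / 4 + ((j : ℝ) + 1) / (2 * J) ≤ t) :
    1 ≤ 2 * (J : ℝ) * (t - 1 / 4) - j := by
  have hJ' : (0:ℝ) < J := by exact_mod_cast hJ
  have e : 2 * (J : ℝ) * (((j : ℝ) + 1) / (2 * J)) = j + 1 := by field_simp
  nlinarith

lemma slotB_zero {J j : ℕ} {t : ℝ} (hJ : 0 < J) (h : t ≤ 1 / 4 + (j : ℝ) / (2 * J)) :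
    slotB J j t = 0 :=
  fab_eq_zero (slot_le_zero hJ h)

lemma slotB_one {J j : ℕ} {t : ℝ} (hJ : 0 < J) (h : 1 / 4 + ((j : ℝ) + 1) / (2 * J) ≤ t) :
    slotB J j t = 1 :=
  fab_eq_one (slot_ge_one hJ h)

lemma slotB_mem (J j : ℕ) (t : ℝ) : 0 ≤ slotB J j t ∧ slotB J j t ≤ 1 :=
  ⟨fab_nonneg _, fab_le_one _⟩

lemma hasDerivAt_slotB (J j : ℕ) (t : ℝ) : HasDerivAt (slotB J j) (slotβ J j t) t :=
  slotB_hasDerivAt J j t

lemma slotβ_zero' {J j : ℕ} {t : ℝ}
    (h : 2 * (J : ℝ) * (t - 1 / 4) - j ≤ 0 ∨ 1 ≤ 2 * (J : ℝ) * (t - 1 / 4) - j) : slotβ J j t = 0 := by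
  simp only [slotβ, slotT, slot_arg]
  rw [fabD_vanish 0 h]
  simp

lemma slotβ_zero {J j : ℕ} {t : ℝ} (hJ : 0 < J)
    (h : t ≤ 1 / 4 + (j : ℝ) / (2 * J) ∨ 1 / 4 + ((j : ℝ) + 1) / (2 * J) ≤ t) : slotβ J j t = 0 :=
  slotβ_zero' (h.imp (slot_le_zero hJ) (slot_ge_one hJ))

/-- On the slot, time lies in `[1/4,3/4]`. -/
lemma slotβ_zero_outside {J j : ℕ} (hj : j < J) {t : ℝ} (ht : t ∉ Set.Icc (1 / 4 : ℝ) (3 / 4)) :
    slotβ J j t = 0 := by
  apply slotβ_zero'
  have hJ : (0:ℝ) < J := by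
    have : 0 < J := by omega
    exact_mod_cast this
  have hj' : (j:ℝ) + 1 ≤ J := by exact_mod_cast hj
  have hj0 : (0:ℝ) ≤ j := Nat.cast_nonneg _
  rw [Set.mem_Icc, not_and_or, not_le, not_le] at ht
  rcases ht with ht | ht
  · left
    nlinarith
  · right
    nlinarith

/-! ### The field of one step in one slot -/

/-- Negated tower. -/
def negT (T : ℕ → ℝ → ℝ) : ℕ → ℝ → ℝ := fun m t => - T m t

lemma tower_negT {T : ℕ → ℝ → ℝ} (hT : Tower T) : Tower (negT T) := by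
  have := hT.smul (-1)
  convert this using 3
  simp [negT]

/-- One step in one slot, as a sum of two tensor terms. -/
def stepTerm (T : ℕ → ℝ → ℝ) (s : StepData) : Field :=
  tens T s.fam s.k (Pi.single s.l.succ 1) + tens (negT T) s.fam s.l (Pi.single s.k.succ 1)

lemma stepTerm_apply (T : ℕ → ℝ → ℝ) (s : StepData) (p : ℝ × (Fin 3 → ℝ)) :
    stepTerm T s p = T 0 p.1 • stepV s p.2 := by
  have h1 : (Pi.single s.l.succ 1 : Fin 4 → ℕ) 0 = 0 := by
    rw [Pi.single_apply, if_neg]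
    exact (Fin.succ_ne_zero _).symm
  have h2 : (Pi.single s.k.succ 1 : Fin 4 → ℕ) 0 = 0 := by
    rw [Pi.single_apply, if_neg]
    exact (Fin.succ_ne_zero _).symm
  funext j
  simp only [stepTerm, Pi.add_apply, tens, stepV, scal_eq, h1, h2, negT, Pi.smul_apply, Pi.sub_apply,
    smul_eq_mul, Pi.single_apply]
  split_ifs <;> ring

/-- The package of good properties. -/
structure Good (U : Field) : Prop where
  smooth : ContDiff ℝ ∞ U
  supp : HasCompactSupport U
  eff : EffField U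
  time : ∀ p : ℝ × (Fin 3 → ℝ), p.1 ∉ Set.Icc (1 / 4 : ℝ) (3 / 4) → U p = 0
  div : ∀ p, spaceDiv U p = 0

theorem Good.zero : Good (0 : Field) where
  smooth := contDiff_const
  supp := HasCompactSupport.zero
  eff := effField_zero
  time := fun _ _ => rfl
  div := fun p => by
    simp only [spaceDiv]
    have : fderiv ℝ (0 : Field) p = 0 := by
      exact fderiv_const_apply (𝕜 := ℝ) (x := p) (0 : Fin 3 → ℝ)
    simp [this]

theorem Good.add {U V : Field} (hU : Good U) (hV : Good V) : Good (U + V) where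
  smooth := hU.smooth.add hV.smooth
  supp := hU.supp.add hV.supp
  eff := hU.eff.add hV.eff
  time := fun p hp => by
    simp [hU.time p hp, hV.time p hp]
  div := fun p => by
    rw [spaceDiv_add (hU.smooth.differentiable (by simp)) (hV.smooth.differentiable (by simp)),
      hU.div, hV.div, add_zero]

theorem good_stepTerm {T : ℕ → ℝ → ℝ} (hT : Tower T) (s : StepData)
    (htime : ∀ t, t ∉ Set.Icc (1 / 4 : ℝ) (3 / 4) → T 0 t = 0) : Good (stepTerm T s) := by
  have hF := s.tower_fam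
  have hN := tower_negT hT
  refine ⟨?_, ?_, ?_, ?_, ?_⟩
  · exact (contDiff_tens hT hF _ _).add (contDiff_tens hN hF _ _)
  · -- compact support
    let K : Set (ℝ × (Fin 3 → ℝ)) := Set.Icc (1 / 4 : ℝ) (3 / 4) ×ˢ
      Set.Icc (fun i => (s.lo i : ℝ) - 1 / s.c) (fun i => (s.hi i : ℝ) + 1 / s.c)
    have hK : IsCompact K := isCompact_Icc.prod isCompact_Icc
    refine HasCompactSupport.intro hK fun p hp => ?_
    rw [stepTerm_apply]
    by_cases ht : p.1 ∈ Set.Icc (1 / 4 : ℝ) (3 / 4)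
    · have hx : p.2 ∉ Set.Icc (fun i => (s.lo i : ℝ) - 1 / s.c) (fun i => (s.hi i : ℝ) + 1 / s.c) := by
        intro hx
        exact hp ⟨ht, hx⟩
      have : ∃ i, p.2 i ≤ (s.lo i : ℝ) - 1 / s.c ∨ (s.hi i : ℝ) + 1 / s.c ≤ p.2 i := by
        rw [Set.mem_Icc, not_and_or, Pi.le_def, Pi.le_def, not_forall, not_forall] at hx
        rcases hx with ⟨i, hi⟩ | ⟨i, hi⟩
        · exact ⟨i, Or.inl (le_of_lt (not_le.1 hi))⟩
        · exact ⟨i, Or.inr (le_of_lt (not_le.1 hi))⟩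
      rw [stepV_zero this]
      simp
    · rw [htime _ ht]
      simp
  · exact (effField_tens hT hF _ _).add (effField_tens hN hF _ _)
  · intro p hp
    rw [stepTerm_apply, htime _ hp]
    simp
  · intro p
    have hd1 := differentiable_tens hT.hasDeriv (fun i => (hF i).hasDeriv) s.k (Pi.single s.l.succ 1)
    have hd2 := differentiable_tens hN.hasDeriv (fun i => (hF i).hasDeriv) s.l (Pi.single s.k.succ 1)
    rw [stepTerm, spaceDiv_add hd1 hd2, spaceDiv_tens hT.hasDeriv (fun i => (hF i).hasDeriv),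
      spaceDiv_tens hN.hasDeriv (fun i => (hF i).hasDeriv), add_comm (Pi.single s.k.succ 1)]
    simp only [scal_eq, negT]
    ring

/-- The field running the steps of `L` in consecutive time slots. -/
def fieldOf (L : List StepData) : Field := fun p =>
  ∑ j : Fin L.length, slotβ L.length j p.1 • stepV (L.get j) p.2

theorem good_fieldOf (L : List StepData) : Good (fieldOf L) := by
  have e : fieldOf L = ∑ j : Fin L.length, stepTerm (slotT L.length j) (L.get j) := by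
    funext p
    rw [Finset.sum_apply]
    simp only [stepTerm_apply]
    rfl
  rw [e]
  refine Finset.sum_induction _ Good (fun _ _ => Good.add) Good.zero ?_
  intro j _
  exact good_stepTerm (tower_slotT _ _) _ (fun t ht => slotβ_zero_outside j.2 ht)

theorem fieldOf_props (L : List StepData) :
    ContDiff ℝ ∞ (fieldOf L) ∧ HasCompactSupport (fieldOf L) ∧ Effective (fieldOf L) ∧
      (∀ p : ℝ × (Fin 3 → ℝ), p.1 ∉ Set.Icc (1 / 4 : ℝ) (3 / 4) → fieldOf L p = 0) ∧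
      (∀ p, spaceDiv (fieldOf L) p = 0) :=
  have h := good_fieldOf L
  ⟨h.smooth, h.supp, h.eff.eff, h.time, h.div⟩

end

end Crest.Agent.Lib.BoxFlow
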