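import Crest.Agent.Lib.BoxFlow.Tower
import Crest.Prelude.Def_BoxFlow

/-! Tensor-product fields `T(t) X(x₀) Y(x₁) Z(x₂) e_c` built from towers: mixed derivatives,
`Effective`, divergence, smoothness. -/

set_option autoImplicit false
set_option linter.unusedSimpArgs false
set_option linter.deprecated false
set_option linter.unusedVariables false

open scoped ContDiff
open Crest.AnalysisR.BoxFlow

namespace Crest.Agent.Lib.BoxFlow

noncomputable section

/-- Scalar tensor product with multi-index `ι` (index `0` is time, `j.succ` is space `j`). -/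
def scal (T : ℕ → ℝ → ℝ) (F : Fin 3 → ℕ → ℝ → ℝ) (ι : Fin 4 → ℕ) (p : ℝ × (Fin 3 → ℝ)) : ℝ :=
  T (ι 0) p.1 * (F 0 (ι 1) (p.2 0) * F 1 (ι 2) (p.2 1) * F 2 (ι 3) (p.2 2))

/-- The vector field `scal • e_c`. -/
def tens (T : ℕ → ℝ → ℝ) (F : Fin 3 → ℕ → ℝ → ℝ) (c : Fin 3) (ι : Fin 4 → ℕ) : Field :=
  fun p => Pi.single c (scal T F ι p)

lemma direction_zero : direction 0 = ((1:ℝ), (0 : Fin 3 → ℝ)) := by
  simp [direction]

lemma direction_succ (j : Fin 3) : direction j.succ = ((0:ℝ), (Pi.single j 1 : Fin 3 → ℝ)) := by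
  simp [direction, Fin.succ_ne_zero]

/-- Time projection as a continuous linear map. -/
def piT : (ℝ × (Fin 3 → ℝ)) →L[ℝ] ℝ := ContinuousLinearMap.fst ℝ ℝ (Fin 3 → ℝ)

/-- Space projection as a continuous linear map. -/
def piS (j : Fin 3) : (ℝ × (Fin 3 → ℝ)) →L[ℝ] ℝ :=
  (ContinuousLinearMap.proj j).comp (ContinuousLinearMap.snd ℝ ℝ (Fin 3 → ℝ))

lemma piT_apply (p : ℝ × (Fin 3 → ℝ)) : piT p = p.1 := rfl
lemma piS_apply (j : Fin 3) (p : ℝ × (Fin 3 → ℝ)) : piS j p = p.2 j := rfl

variable {T : ℕ → ℝ → ℝ} {F : Fin 3 → ℕ → ℝ → ℝ}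

lemma hasFDerivAt_scal (hT : ∀ m x, HasDerivAt (T m) (T (m + 1) x) x)
    (hF : ∀ i m x, HasDerivAt (F i m) (F i (m + 1) x) x) (ι : Fin 4 → ℕ) (p : ℝ × (Fin 3 → ℝ)) :
    ∃ D : (ℝ × (Fin 3 → ℝ)) →L[ℝ] ℝ, HasFDerivAt (scal T F ι) D p ∧
      ∀ d, D (direction d) = scal T F (ι + Pi.single d 1) p := by
  have h0 : HasFDerivAt (fun q : ℝ × (Fin 3 → ℝ) => T (ι 0) q.1) (T (ι 0 + 1) p.1 • piT) p :=
    (hT (ι 0) p.1).comp_hasFDerivAt p piT.hasFDerivAt
  have hs : ∀ (j : Fin 3) (m : ℕ), HasFDerivAt (fun q : ℝ × (Fin 3 → ℝ) => F j m (q.2 j))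
      (F j (m + 1) (p.2 j) • piS j) p := fun j m =>
    (hF j m (p.2 j)).comp_hasFDerivAt p (piS j).hasFDerivAt
  have h := h0.mul (((hs 0 (ι 1)).mul (hs 1 (ι 2))).mul (hs 2 (ι 3)))
  refine ⟨_, h, fun d => ?_⟩
  have e1 : (1 : Fin 4) = Fin.succ 0 := rfl
  have e2 : (2 : Fin 4) = Fin.succ 1 := rfl
  have e3 : (3 : Fin 4) = Fin.succ 2 := rfl
  have hd : d = 0 ∨ d = 1 ∨ d = 2 ∨ d = 3 := by
    revert d; decide
  rcases hd with rfl | rfl | rfl | rfl
  · rw [direction_zero]
    simp only [ContinuousLinearMap.add_apply, ContinuousLinearMap.smul_apply, Pi.mul_apply,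
      smul_eq_mul, piT_apply, piS_apply, scal, Pi.add_apply, Pi.single_apply, Fin.reduceEq,
      if_true, if_false, add_zero, Pi.zero_apply, mul_zero, zero_mul, ↓reduceIte]
    ring
  · rw [e1, direction_succ, ← e1]
    simp only [ContinuousLinearMap.add_apply, ContinuousLinearMap.smul_apply, Pi.mul_apply,
      smul_eq_mul, piT_apply, piS_apply, scal, Pi.add_apply, Pi.single_apply, Fin.reduceEq,
      if_true, if_false, add_zero, Pi.zero_apply, mul_zero, zero_mul, ↓reduceIte]
    ring
  · rw [e2, direction_succ, ← e2]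
    simp only [ContinuousLinearMap.add_apply, ContinuousLinearMap.smul_apply, Pi.mul_apply,
      smul_eq_mul, piT_apply, piS_apply, scal, Pi.add_apply, Pi.single_apply, Fin.reduceEq,
      if_true, if_false, add_zero, Pi.zero_apply, mul_zero, zero_mul, ↓reduceIte]
    ring
  · rw [e3, direction_succ, ← e3]
    simp only [ContinuousLinearMap.add_apply, ContinuousLinearMap.smul_apply, Pi.mul_apply,
      smul_eq_mul, piT_apply, piS_apply, scal, Pi.add_apply, Pi.single_apply, Fin.reduceEq,
      if_true, if_false, add_zero, Pi.zero_apply, mul_zero, zero_mul, ↓reduceIte]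
    ring

lemma hasFDerivAt_tens (hT : ∀ m x, HasDerivAt (T m) (T (m + 1) x) x)
    (hF : ∀ i m x, HasDerivAt (F i m) (F i (m + 1) x) x) (c : Fin 3) (ι : Fin 4 → ℕ)
    (p : ℝ × (Fin 3 → ℝ)) :
    ∃ D : (ℝ × (Fin 3 → ℝ)) →L[ℝ] (Fin 3 → ℝ), HasFDerivAt (tens T F c ι) D p ∧
      ∀ d, D (direction d) = tens T F c (ι + Pi.single d 1) p := by
  obtain ⟨D, hD, h⟩ := hasFDerivAt_scal hT hF ι p
  have hs := (ContinuousLinearMap.single ℝ (fun _ : Fin 3 => ℝ) c).hasFDerivAt.comp p hD
  refine ⟨_, hs, fun d => ?_⟩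
  simp only [ContinuousLinearMap.comp_apply, tens, h]
  rfl

lemma fderiv_tens (hT : ∀ m x, HasDerivAt (T m) (T (m + 1) x) x)
    (hF : ∀ i m x, HasDerivAt (F i m) (F i (m + 1) x) x) (c : Fin 3) (ι : Fin 4 → ℕ)
    (p : ℝ × (Fin 3 → ℝ)) (d : Fin 4) :
    fderiv ℝ (tens T F c ι) p (direction d) = tens T F c (ι + Pi.single d 1) p := by
  obtain ⟨D, hD, h⟩ := hasFDerivAt_tens hT hF c ι p
  rw [hD.fderiv, h]

lemma differentiable_tens (hT : ∀ m x, HasDerivAt (T m) (T (m + 1) x) x)
    (hF : ∀ i m x, HasDerivAt (F i m) (F i (m + 1) x) x) (c : Fin 3) (ι : Fin 4 → ℕ) :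
    Differentiable ℝ (tens T F c ι) := fun p => by
  obtain ⟨D, hD, -⟩ := hasFDerivAt_tens hT hF c ι p
  exact hD.differentiableAt

/-- Direction counts of a derivative list. -/
def counts (ds : List (Fin 4)) : Fin 4 → ℕ := fun d => ds.count d

lemma counts_cons (d : Fin 4) (ds : List (Fin 4)) :
    counts (d :: ds) = counts ds + Pi.single d 1 := by
  funext e
  simp only [counts, Pi.add_apply, List.count_cons, Pi.single_apply]
  by_cases h : d = e
  · subst h; simp
  · have h' : e ≠ d := fun H => h H.symm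
    simp [h, h']

lemma mixedDeriv_tens (hT : ∀ m x, HasDerivAt (T m) (T (m + 1) x) x)
    (hF : ∀ i m x, HasDerivAt (F i m) (F i (m + 1) x) x) (c : Fin 3) (ι : Fin 4 → ℕ)
    (ds : List (Fin 4)) :
    mixedDeriv ds (tens T F c ι) = tens T F c (ι + counts ds) := by
  induction ds with
  | nil =>
    have : counts [] = 0 := by
      funext e
      simp [counts]
    rw [this, add_zero]
    rfl
  | cons d ds ih =>
    funext p
    simp only [mixedDeriv]
    rw [ih, fderiv_tens hT hF, counts_cons, add_assoc]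

/-- Smooth and effective field with all mixed derivatives differentiable. -/
structure EffField (U : Field) : Prop where
  eff : Effective U
  diff : ∀ ds, Differentiable ℝ (mixedDeriv ds U)

lemma primrec_count (d : Fin 4) : Primrec (fun ds : List (Fin 4) => ds.count d) := by
  have h : Primrec₂ (fun (_ : List (Fin 4)) (x : Fin 4 × ℕ) => if x.1 = d then x.2 + 1 else x.2) := by
    refine Primrec.ite ?_ ?_ ?_
    · exact Primrec.eq.comp (Primrec.fst.comp Primrec.snd) (Primrec.const d)
    · exact Primrec.nat_add.comp (Primrec.snd.comp Primrec.snd) (Primrec.const 1)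
    · exact Primrec.snd.comp Primrec.snd
  refine (Primrec.list_foldr (f := fun ds : List (Fin 4) => ds) (g := fun _ => 0) Primrec.id
    (Primrec.const 0) h).of_eq fun ds => ?_
  induction ds with
  | nil => rfl
  | cons a ds ih =>
    simp only [List.foldr_cons, List.count_cons, ih]
    by_cases hh : a = d
    · subst hh; simp
    · simp [hh]

lemma computable_count (d : Fin 4) : Computable (fun ds : List (Fin 4) => ds.count d) :=
  (primrec_count d).to_comp

theorem effField_tens (hT : Tower T) (hF : ∀ i, Tower (F i)) (c : Fin 3) (ι : Fin 4 → ℕ) :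
    EffField (tens T F c ι) := by
  have hdT := hT.hasDeriv
  have hdF := fun i => (hF i).hasDeriv
  refine ⟨?_, fun ds => ?_⟩
  · -- approximations
    have hidx : ∀ d : Fin 4, Computable (fun x : List (Fin 4) × (ℚ × (Fin 3 → ℚ)) => ι d + x.1.count d) :=
      fun d => cNatAdd (Computable.const _) ((computable_count d).comp Computable.fst)
    have hcoord : ∀ j : Fin 3, Computable (fun x : List (Fin 4) × (ℚ × (Fin 3 → ℚ)) => x.2.2 j) := fun j =>
      (Computable.fin_app.comp (cSnd (cSnd Computable.id)) (Computable.const j))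
    have c0 := hT.comp.comp ((hidx 0).pair (cFst (cSnd Computable.id)))
    have c1 := (hF 0).comp.comp ((hidx 1).pair (hcoord 0))
    have c2 := (hF 1).comp.comp ((hidx 2).pair (hcoord 1))
    have c3 := (hF 2).comp.comp ((hidx 3).pair (hcoord 2))
    obtain ⟨A, hA, hAs⟩ := c0.mul ((c1.mul c2).mul c3)
    obtain ⟨B0, hB0, hb0⟩ := hT.bound
    obtain ⟨B1, hB1, hb1⟩ := (hF 0).bound
    obtain ⟨B2, hB2, hb2⟩ := (hF 1).bound
    obtain ⟨B3, hB3, hb3⟩ := (hF 2).bound
    refine ⟨fun x => Pi.single c (A ((x.1, x.2.1), x.2.2)),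
      fun ds => B0 (ι 0 + ds.count 0) * (B1 (ι 1 + ds.count 1) * B2 (ι 2 + ds.count 2) * B3 (ι 3 + ds.count 3)),
      ?_, ?_, ?_, ?_⟩
    · apply computable_finArrow
      intro j
      have hA' : Computable (fun x : List (Fin 4) × (ℚ × (Fin 3 → ℚ)) × ℕ => A ((x.1, x.2.1), x.2.2)) :=
        hA.comp ((Computable.fst.pair (cFst Computable.snd)).pair (cSnd Computable.snd))
      by_cases hj : j = c
      · subst hj
        simpa using hA'
      · have : ∀ x : List (Fin 4) × (ℚ × (Fin 3 → ℚ)) × ℕ,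
            (Pi.single c (A ((x.1, x.2.1), x.2.2)) : Fin 3 → ℚ) j = 0 := fun x => by
          simp [Pi.single_apply, hj]
        simp only [this]
        exact Computable.const 0
    · have hcnt : ∀ d : Fin 4, Computable (fun ds : List (Fin 4) => ι d + ds.count d) :=
        fun d => cNatAdd (Computable.const _) (computable_count d)
      exact cNatMul (hB0.comp (hcnt 0)) (cNatMul (cNatMul (hB1.comp (hcnt 1)) (hB2.comp (hcnt 2))) (hB3.comp (hcnt 3)))
    · intro ds t q n j
      rw [mixedDeriv_tens hdT hdF]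
      by_cases hj : j = c
      · subst hj
        simp only [tens, Pi.single_eq_same]
        have := hAs (ds, (t, q)) n
        simpa [scal, counts, ratPoint] using this
      · simp only [tens, Pi.single_apply, hj, if_false]
        simp only [sub_self, abs_zero, Rat.cast_zero]
        positivity
    · intro ds p j
      rw [mixedDeriv_tens hdT hdF]
      by_cases hj : j = c
      · subst hj
        simp only [tens, Pi.single_eq_same, scal, Pi.add_apply, counts]
        push_cast
        rw [abs_mul, abs_mul, abs_mul]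
        have h0 := hb0 (ι 0 + ds.count 0) p.1
        have h1 := hb1 (ι 1 + ds.count 1) (p.2 0)
        have h2 := hb2 (ι 2 + ds.count 2) (p.2 1)
        have h3 := hb3 (ι 3 + ds.count 3) (p.2 2)
        exact mul_le_mul h0 (mul_le_mul (mul_le_mul h1 h2 (abs_nonneg _) (by positivity)) h3
          (abs_nonneg _) (by positivity)) (by positivity) (by positivity)
      · simp only [tens, Pi.single_apply, hj, if_false, abs_zero]
        positivity
  · rw [mixedDeriv_tens hdT hdF]
    exact differentiable_tens hdT hdF c _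

theorem EffField.add {U V : Field} (hU : EffField U) (hV : EffField V) : EffField (U + V) := by
  have hmd : ∀ ds, mixedDeriv ds (U + V) = mixedDeriv ds U + mixedDeriv ds V := by
    intro ds
    induction ds with
    | nil => rfl
    | cons d ds ih =>
      funext p
      simp only [mixedDeriv, Pi.add_apply]
      rw [ih, fderiv_add (hU.diff ds p) (hV.diff ds p)]
      rfl
  refine ⟨?_, fun ds => ?_⟩
  · obtain ⟨E1, b1, hE1, hb1, h1, h1'⟩ := hU.eff
    obtain ⟨E2, b2, hE2, hb2, h2, h2'⟩ := hV.eff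
    refine ⟨fun x j => E1 (x.1, x.2.1, 2 * x.2.2 + 1) j + E2 (x.1, x.2.1, 2 * x.2.2 + 1) j,
      fun ds => b1 ds + b2 ds, ?_, cNatAdd hb1 hb2, ?_, ?_⟩
    · apply computable_finArrow
      intro j
      have hx : Computable (fun x : List (Fin 4) × (ℚ × (Fin 3 → ℚ)) × ℕ => (x.1, x.2.1, 2 * x.2.2 + 1)) :=
        Computable.fst.pair ((cFst Computable.snd).pair
          (cNatAdd (cNatMul (Computable.const 2) (cSnd Computable.snd)) (Computable.const 1)))
      exact cRatAdd (Computable.fin_app.comp (hE1.comp hx) (Computable.const j))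
        (Computable.fin_app.comp (hE2.comp hx) (Computable.const j))
    · intro ds t q n j
      rw [hmd]
      have a1 := h1 ds t q (2 * n + 1) j
      have a2 := h2 ds t q (2 * n + 1) j
      simp only [Pi.add_apply]
      have e : mixedDeriv ds U ((t:ℝ), ratPoint q) j + mixedDeriv ds V ((t:ℝ), ratPoint q) j
          - ((E1 (ds, (t, q), 2 * n + 1) j + E2 (ds, (t, q), 2 * n + 1) j : ℚ) : ℝ)
          = (mixedDeriv ds U ((t:ℝ), ratPoint q) j - (E1 (ds, (t, q), 2 * n + 1) j : ℝ))
            + (mixedDeriv ds V ((t:ℝ), ratPoint q) j - (E2 (ds, (t, q), 2 * n + 1) j : ℝ)) := by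
        push_cast
        ring
      rw [e, ← two_mul_succ_bound]
      exact (abs_add_le _ _).trans (add_le_add a1 a2)
    · intro ds p j
      rw [hmd]
      push_cast
      exact (abs_add_le _ _).trans (add_le_add (h1' ds p j) (h2' ds p j))
  · rw [hmd]
    exact (hU.diff ds).add (hV.diff ds)

theorem effField_zero : EffField (0 : Field) := by
  have hmd : ∀ ds, mixedDeriv ds (0 : Field) = 0 := by
    intro ds
    induction ds with
    | nil => rfl
    | cons d ds ih =>
      funext p
      simp only [mixedDeriv]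
      rw [ih]
      simp
  refine ⟨⟨fun _ _ => 0, fun _ => 0, ?_, Computable.const 0, ?_, ?_⟩, fun ds => ?_⟩
  · exact Computable.const (fun _ => (0:ℚ))
  · intro ds t q n j
    rw [hmd]
    simp
    positivity
  · intro ds p j
    rw [hmd]
    simp
  · rw [hmd]
    exact differentiable_const _

/-- Divergence of a tensor field. -/
lemma spaceDiv_tens (hT : ∀ m x, HasDerivAt (T m) (T (m + 1) x) x)
    (hF : ∀ i m x, HasDerivAt (F i m) (F i (m + 1) x) x) (c : Fin 3) (ι : Fin 4 → ℕ)
    (p : ℝ × (Fin 3 → ℝ)) :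
    spaceDiv (tens T F c ι) p = scal T F (ι + Pi.single c.succ 1) p := by
  simp only [spaceDiv]
  rw [Finset.sum_eq_single c]
  · rw [← direction_succ, fderiv_tens hT hF]
    simp [tens]
  · intro j _ hj
    rw [← direction_succ, fderiv_tens hT hF]
    simp [tens, Pi.single_apply, hj]
  · simp

lemma spaceDiv_add {U V : Field} (hU : Differentiable ℝ U) (hV : Differentiable ℝ V)
    (p : ℝ × (Fin 3 → ℝ)) : spaceDiv (U + V) p = spaceDiv U p + spaceDiv V p := by
  simp only [spaceDiv]
  rw [fderiv_add (hU p) (hV p), ← Finset.sum_add_distrib]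
  rfl

lemma contDiff_scal (hT : Tower T) (hF : ∀ i, Tower (F i)) (ι : Fin 4 → ℕ) :
    ContDiff ℝ ∞ (scal T F ι) := by
  have h0 : ContDiff ℝ ∞ (fun p : ℝ × (Fin 3 → ℝ) => T (ι 0) p.1) :=
    (hT.contDiff _).comp contDiff_fst
  have hs : ∀ (j : Fin 3) (m : ℕ), ContDiff ℝ ∞ (fun p : ℝ × (Fin 3 → ℝ) => F j m (p.2 j)) := fun j m =>
    ((hF j).contDiff m).comp ((contDiff_apply ℝ ℝ j).comp contDiff_snd)
  exact h0.mul (((hs 0 _).mul (hs 1 _)).mul (hs 2 _))

lemma contDiff_tens (hT : Tower T) (hF : ∀ i, Tower (F i)) (c : Fin 3) (ι : Fin 4 → ℕ) :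
    ContDiff ℝ ∞ (tens T F c ι) := by
  have h := contDiff_scal hT hF ι
  exact (ContinuousLinearMap.single ℝ (fun _ : Fin 3 => ℝ) c).contDiff.comp h

end

end Crest.Agent.Lib.BoxFlow
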