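import Crest.Agent.Lib.BoxFlow.CompReal

/-! Derivative towers of one-variable functions with computable rational approximations and
computable global bounds, and their closure properties. -/

set_option autoImplicit false

open scoped ContDiff

namespace Crest.Agent.Lib.BoxFlow

/-- A tower `F m` where `F (m+1)` is the derivative of `F m`, computably approximable at rational
points, with computable global bounds. -/
structure Tower (F : ℕ → ℝ → ℝ) : Prop where
  hasDeriv : ∀ m x, HasDerivAt (F m) (F (m + 1) x) x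
  comp : CompReal (fun p : ℕ × ℚ => F p.1 (p.2 : ℝ))
  bound : ∃ B : ℕ → ℕ, Computable B ∧ ∀ m x, |F m x| ≤ (B m : ℝ)

theorem tower_fabD : Tower fabD where
  hasDeriv := fabD_hasDerivAt
  comp := compReal_fabD
  bound := by
    refine ⟨fun m => 2 ^ ((m + 1) ^ 2), ?_, fun m x => ?_⟩
    · exact cNatPow (Computable.const 2) (cNatPow (cNatAdd Computable.id (Computable.const 1)) (Computable.const 2))
    · have := fabD_bound m x
      push_cast
      exact this

namespace Tower

variable {F G : ℕ → ℝ → ℝ}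

theorem contDiff (h : Tower F) (m : ℕ) : ContDiff ℝ ∞ (F m) := by
  rw [contDiff_infty]
  intro k
  induction k generalizing m with
  | zero =>
    have : Continuous (F m) := continuous_iff_continuousAt.2 fun x => (h.hasDeriv m x).continuousAt
    simpa using (contDiff_zero (𝕜 := ℝ)).2 this
  | succ k ih =>
    have e : deriv (F m) = F (m + 1) := funext fun x => (h.hasDeriv m x).deriv
    have h1 : ContDiff ℝ (k + 1 : ℕ) (F m) := by
      have : ((k + 1 : ℕ) : WithTop ℕ∞) = (k : WithTop ℕ∞) + 1 := by norm_cast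
      rw [this, contDiff_succ_iff_deriv]
      refine ⟨fun x => (h.hasDeriv m x).differentiableAt, ?_, ?_⟩
      · intro hk
        exact absurd hk (WithTop.natCast_ne_top k)
      · rw [e]
        exact ih (m + 1)
    exact h1

/-- Affine reparametrisation with rational coefficients. -/
theorem affine (h : Tower F) (c d : ℚ) :
    Tower (fun m x => (c : ℝ) ^ m * F m ((c : ℝ) * x + d)) where
  hasDeriv := by
    intro m x
    have h1 : HasDerivAt (fun x : ℝ => (c : ℝ) * x + d) (c : ℝ) x := by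
      simpa using ((hasDerivAt_id x).const_mul (c : ℝ)).add_const (d : ℝ)
    have h2 := (h.hasDeriv m ((c : ℝ) * x + d)).comp x h1
    have h3 := h2.const_mul ((c : ℝ) ^ m)
    refine (h3.congr_deriv ?_)
    rw [pow_succ]
    ring
  comp := by
    have hc : Computable (fun p : ℕ × ℚ => (c ^ p.1 : ℚ)) :=
      cRatPow (Computable.const c) Computable.fst
    have h1 : CompReal (fun p : ℕ × ℚ => ((c ^ p.1 : ℚ) : ℝ)) := CompReal.ofRat hc
    have hg : Computable (fun p : ℕ × ℚ => (p.1, c * p.2 + d)) :=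
      Computable.fst.pair (cRatAdd (cRatMul (Computable.const c) Computable.snd) (Computable.const d))
    have h2 := h.comp.comp hg
    refine (h1.mul h2).of_eq fun p => ?_
    push_cast
    rfl
  bound := by
    obtain ⟨B, hB, hb⟩ := h.bound
    refine ⟨fun m => qBd c ^ m * B m, ?_, fun m x => ?_⟩
    · exact cNatMul (cNatPow (Computable.const _) Computable.id) hB
    · push_cast
      rw [abs_mul, abs_pow]
      exact mul_le_mul (pow_le_pow_left₀ (abs_nonneg _) (abs_le_qBd c) m) (hb m _) (abs_nonneg _)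
        (by positivity)

/-- Index shift: derivative of a tower. -/
theorem shift (h : Tower F) : Tower (fun m => F (m + 1)) where
  hasDeriv := fun m x => h.hasDeriv (m + 1) x
  comp := by
    have hg : Computable (fun p : ℕ × ℚ => (p.1 + 1, p.2)) :=
      (cNatAdd Computable.fst (Computable.const 1)).pair Computable.snd
    exact h.comp.comp hg
  bound := by
    obtain ⟨B, hB, hb⟩ := h.bound
    exact ⟨fun m => B (m + 1), hB.comp (cNatAdd Computable.id (Computable.const 1)), fun m x => hb (m + 1) x⟩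

theorem add (h : Tower F) (k : Tower G) : Tower (fun m x => F m x + G m x) where
  hasDeriv := fun m x => (h.hasDeriv m x).add (k.hasDeriv m x)
  comp := h.comp.add k.comp
  bound := by
    obtain ⟨B, hB, hb⟩ := h.bound
    obtain ⟨C, hC, hc⟩ := k.bound
    refine ⟨fun m => B m + C m, cNatAdd hB hC, fun m x => ?_⟩
    push_cast
    exact (abs_add_le _ _).trans (add_le_add (hb m x) (hc m x))

theorem smul (h : Tower F) (c : ℚ) : Tower (fun m x => (c : ℝ) * F m x) where
  hasDeriv := fun m x => (h.hasDeriv m x).const_mul (c : ℝ)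
  comp := (CompReal.const c).mul h.comp
  bound := by
    obtain ⟨B, hB, hb⟩ := h.bound
    refine ⟨fun m => qBd c * B m, cNatMul (Computable.const _) hB, fun m x => ?_⟩
    push_cast
    rw [abs_mul]
    exact mul_le_mul (abs_le_qBd c) (hb m x) (abs_nonneg _) (by positivity)

theorem sub (h : Tower F) (k : Tower G) : Tower (fun m x => F m x - G m x) := by
  have := h.add (k.smul (-1))
  convert this using 3
  push_cast
  ring

end Tower

/-- All levels of the tower vanish at `x`. -/
def VanishAt (F : ℕ → ℝ → ℝ) (x : ℝ) : Prop := ∀ m, F m x = 0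

/-- Multiplication of a tower by the identity function. -/
def mulIdT (F : ℕ → ℝ → ℝ) : ℕ → ℝ → ℝ := fun m x => x * F m x + (m : ℝ) * F (m - 1) x

lemma mulIdT_zero (F : ℕ → ℝ → ℝ) (x : ℝ) : mulIdT F 0 x = x * F 0 x := by
  simp [mulIdT]

lemma mulIdT_one (F : ℕ → ℝ → ℝ) (x : ℝ) : mulIdT F 1 x = x * F 1 x + F 0 x := by
  simp [mulIdT]

lemma VanishAt.mulIdT {F : ℕ → ℝ → ℝ} {x : ℝ} (h : VanishAt F x) : VanishAt (mulIdT F) x := by
  intro m
  simp [BoxFlow.mulIdT, h m, h (m - 1)]

theorem Tower.mulId {F : ℕ → ℝ → ℝ} (h : Tower F) (R : ℕ)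
    (hR : ∀ x, (R : ℝ) < |x| → VanishAt F x) : Tower (mulIdT F) where
  hasDeriv := by
    intro m x
    have h1 : HasDerivAt (fun x => x * F m x) (1 * F m x + x * F (m + 1) x) x :=
      (hasDerivAt_id x).mul (h.hasDeriv m x)
    cases m with
    | zero =>
      have e : mulIdT F 0 = fun x => x * F 0 x := funext fun x => mulIdT_zero F x
      rw [e]
      refine h1.congr_deriv ?_
      simp [BoxFlow.mulIdT]
      ring
    | succ m =>
      have h2 := (h.hasDeriv m x).const_mul (((m + 1 : ℕ) : ℝ))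
      have h3 := h1.add h2
      have e : mulIdT F (m + 1) = fun x => x * F (m + 1) x + ((m + 1 : ℕ) : ℝ) * F m x := by
        funext y
        simp [BoxFlow.mulIdT]
      rw [e]
      refine h3.congr_deriv ?_
      simp [BoxFlow.mulIdT]
      ring
  comp := by
    have h1 : CompReal (fun p : ℕ × ℚ => ((p.2 : ℚ) : ℝ)) := CompReal.ofRat Computable.snd
    have h2 : CompReal (fun p : ℕ × ℚ => (((p.1 : ℕ) : ℚ) : ℝ)) :=
      CompReal.ofRat (cRatOfNat Computable.fst)
    have h3 : Computable (fun p : ℕ × ℚ => (p.1 - 1, p.2)) :=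
      (cNatSub Computable.fst (Computable.const 1)).pair Computable.snd
    refine (((h1.mul h.comp).add (h2.mul (h.comp.comp h3)))).of_eq fun p => ?_
    simp [BoxFlow.mulIdT]
  bound := by
    obtain ⟨B, hB, hb⟩ := h.bound
    refine ⟨fun m => R * B m + m * B (m - 1), ?_, fun m x => ?_⟩
    · exact cNatAdd (cNatMul (Computable.const _) hB)
        (cNatMul Computable.id (hB.comp (cNatSub Computable.id (Computable.const 1))))
    · push_cast
      simp only [BoxFlow.mulIdT]
      refine (abs_add_le _ _).trans (add_le_add ?_ ?_)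
      · rw [abs_mul]
        by_cases hx : (R : ℝ) < |x|
        · rw [hR x hx m]
          simp
          positivity
        · exact mul_le_mul (not_lt.1 hx) (hb m x) (abs_nonneg _) (by positivity)
      · rw [abs_mul, abs_of_nonneg (Nat.cast_nonneg m)]
        exact mul_le_mul_of_nonneg_left (hb (m - 1) x) (Nat.cast_nonneg m)

/-! ### Cut-off towers -/

/-- The cut-off tower: level zero is `S(c(x-A)+1) - S(c(x-B))`. -/
noncomputable def cutT (A B c : ℚ) : ℕ → ℝ → ℝ := fun m x =>
  (c : ℝ) ^ m * fabD m ((c : ℝ) * x + ((1 - c * A : ℚ) : ℝ)) - (c : ℝ) ^ m * fabD m ((c : ℝ) * x + ((- (c * B) : ℚ) : ℝ))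

theorem tower_cutT (A B c : ℚ) : Tower (cutT A B c) :=
  (tower_fabD.affine c (1 - c * A)).sub (tower_fabD.affine c (- (c * B)))

lemma cutT_arg1 (A c : ℚ) (x : ℝ) : (c : ℝ) * x + ((1 - c * A : ℚ) : ℝ) = c * (x - A) + 1 := by
  push_cast; ring

lemma cutT_arg2 (B c : ℚ) (x : ℝ) : (c : ℝ) * x + ((- (c * B) : ℚ) : ℝ) = c * (x - B) := by
  push_cast; ring

/-- On the flat part, level zero is one. -/
lemma cutT_flat0 {A B c : ℚ} (hc : 0 < c) {x : ℝ} (h1 : (A : ℝ) ≤ x) (h2 : x ≤ B) :
    cutT A B c 0 x = 1 := by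
  have hc' : (0 : ℝ) < c := by exact_mod_cast hc
  simp only [cutT, pow_zero, one_mul, fabD_zero, cutT_arg1, cutT_arg2]
  rw [fab_eq_one (by nlinarith), fab_eq_zero (by nlinarith)]
  simp

/-- On the flat part, higher levels vanish. -/
lemma cutT_flatS {A B c : ℚ} (hc : 0 < c) {x : ℝ} (h1 : (A : ℝ) ≤ x) (h2 : x ≤ B) (m : ℕ) :
    cutT A B c (m + 1) x = 0 := by
  have hc' : (0 : ℝ) < c := by exact_mod_cast hc
  simp only [cutT, cutT_arg1, cutT_arg2]
  rw [fabD_vanish m (Or.inr (by nlinarith)), fabD_vanish m (Or.inl (by nlinarith))]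
  simp

/-- Outside the support all levels vanish. -/
lemma cutT_vanish {A B c : ℚ} (hc : 0 < c) (hAB : A ≤ B) {x : ℝ}
    (h : x ≤ (A : ℝ) - 1 / c ∨ (B : ℝ) + 1 / c ≤ x) : VanishAt (cutT A B c) x := by
  have hc' : (0 : ℝ) < c := by exact_mod_cast hc
  have hAB' : (A : ℝ) ≤ B := by exact_mod_cast hAB
  have hci : (c : ℝ) * (1 / c) = 1 := by field_simp
  have hcinv : (0:ℝ) < 1 / c := by positivity
  intro m
  simp only [cutT, cutT_arg1, cutT_arg2]
  rcases h with h | h
  · have a1 : (c : ℝ) * (x - A) + 1 ≤ 0 := by nlinarith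
    have a2 : (c : ℝ) * (x - B) ≤ 0 := by nlinarith
    cases m with
    | zero =>
      simp only [pow_zero, one_mul, fabD_zero]
      rw [fab_eq_zero a1, fab_eq_zero a2]
      simp
    | succ m =>
      rw [fabD_vanish m (Or.inl a1), fabD_vanish m (Or.inl a2)]
      simp
  · have a1 : 1 ≤ (c : ℝ) * (x - A) + 1 := by nlinarith
    have a2 : 1 ≤ (c : ℝ) * (x - B) := by nlinarith
    cases m with
    | zero =>
      simp only [pow_zero, one_mul, fabD_zero]
      rw [fab_eq_one a1, fab_eq_one a2]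
      simp
    | succ m =>
      rw [fabD_vanish m (Or.inr a1), fabD_vanish m (Or.inr a2)]
      simp

/-- A natural radius for the support of the cut-off tower. -/
def cutR (A B c : ℚ) : ℕ := qBd (A - 1 / c) + qBd (B + 1 / c)

lemma cutT_vanish_R {A B c : ℚ} (hc : 0 < c) (hAB : A ≤ B) {x : ℝ}
    (h : ((cutR A B c : ℕ) : ℝ) < |x|) : VanishAt (cutT A B c) x := by
  apply cutT_vanish hc hAB
  have h1 := abs_le_qBd (A - 1 / c)
  have h2 := abs_le_qBd (B + 1 / c)
  have h3 : (0:ℝ) ≤ qBd (A - 1 / c) := Nat.cast_nonneg _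
  have h4 : (0:ℝ) ≤ qBd (B + 1 / c) := Nat.cast_nonneg _
  simp only [cutR] at h
  push_cast at h h1 h2
  rw [abs_le] at h1 h2
  rcases le_total 0 x with hx | hx
  · right
    rw [abs_of_nonneg hx] at h
    linarith [h2.2]
  · left
    rw [abs_of_nonpos hx] at h
    linarith [h1.1]

/-! ### The polynomial tower: level zero is `(α u + a u²/2) κ(u)`. -/

/-- Polynomial multiple of a cut-off tower. -/
noncomputable def polyT (α a : ℚ) (K : ℕ → ℝ → ℝ) : ℕ → ℝ → ℝ := fun m x =>
  (α : ℝ) * mulIdT K m x + ((a / 2 : ℚ) : ℝ) * mulIdT (mulIdT K) m x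

theorem tower_polyT (α a : ℚ) {K : ℕ → ℝ → ℝ} (hK : Tower K) (R : ℕ)
    (hR : ∀ x, (R : ℝ) < |x| → VanishAt K x) : Tower (polyT α a K) := by
  have h1 := hK.mulId R hR
  have h2 := h1.mulId R (fun x hx => (hR x hx).mulIdT)
  exact (h1.smul α).add (h2.smul (a / 2))

lemma VanishAt.polyT {K : ℕ → ℝ → ℝ} {x : ℝ} (h : VanishAt K x) (α a : ℚ) :
    VanishAt (polyT α a K) x := by
  intro m
  simp [BoxFlow.polyT, h.mulIdT m, h.mulIdT.mulIdT m]

lemma polyT_flat1 (α a : ℚ) {K : ℕ → ℝ → ℝ} {x : ℝ} (h0 : K 0 x = 1) (h1 : K 1 x = 0) :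
    polyT α a K 1 x = (α : ℝ) + a * x := by
  simp only [polyT, mulIdT_one, mulIdT_zero, h0, h1]
  push_cast
  ring

end Crest.Agent.Lib.BoxFlow
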