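import Crest.Agent.Lib.BoxFlow.StepField
import Crest.Agent.Lib.BoxFlow.Flow

/-!
# Tracking straight-line trajectories of the fields `fieldOf L`
-/

set_option autoImplicit false
open scoped ContDiff

namespace Crest.Agent.BF

open Set
open Crest.AnalysisR.BoxFlow
open Crest.Agent.Lib.BoxFlow

/-- Three-space. -/
abbrev E3 := Fin 3 → ℝ

/-- The velocity is constant along the straight segment from `p` to `p + stepV s p`. -/
def Clean (s : StepData) (p : E3) : Prop :=
  ∀ r ∈ Icc (0 : ℝ) 1, stepV s (p + r • stepV s p) = stepV s p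

/-- All steps of the list are clean along the itinerary. -/
def TrackOK : List StepData → E3 → Prop
  | [], _ => True
  | s :: L, p => Clean s p ∧ TrackOK L (p + stepV s p)

/-- The end point of the itinerary. -/
noncomputable def runL : List StepData → E3 → E3
  | [], p => p
  | s :: L, p => runL L (p + stepV s p)

theorem trackOK_append (L₁ L₂ : List StepData) (x : E3) (h₁ : TrackOK L₁ x)
    (h₂ : TrackOK L₂ (runL L₁ x)) : TrackOK (L₁ ++ L₂) x := by
  induction L₁ generalizing x with
  | nil => exact h₂
  | cons s L ih => exact ⟨h₁.1, ih _ h₁.2 h₂⟩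

theorem runL_append (L₁ L₂ : List StepData) (x : E3) :
    runL (L₁ ++ L₂) x = runL L₂ (runL L₁ x) := by
  induction L₁ generalizing x with
  | nil => rfl
  | cons s L ih => exact ih _

/-- The reversed itinerary. -/
def revL (L : List StepData) : List StepData := (L.map StepData.neg).reverse

theorem clean_back {s : StepData} {p : E3} (h : Clean s p) :
    Clean s.neg (p + stepV s p) ∧ (p + stepV s p) + stepV s.neg (p + stepV s p) = p := by
  have h1 : stepV s (p + stepV s p) = stepV s p := by
    have := h 1 (by simp)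
    simpa using this
  have h2 : stepV s.neg (p + stepV s p) = - stepV s p := by
    rw [stepV_neg, h1]
  refine ⟨fun r hr => ?_, by rw [h2]; abel⟩
  rw [h2, stepV_neg]
  have h3 : p + stepV s p + r • -stepV s p = p + (1 - r) • stepV s p := by
    rw [sub_smul, one_smul, smul_neg]; abel
  rw [h3, h (1 - r) ⟨by linarith [hr.2], by linarith [hr.1]⟩]

theorem trackOK_rev (L : List StepData) (x : E3) (h : TrackOK L x) :
    TrackOK (revL L) (runL L x) ∧ runL (revL L) (runL L x) = x := by
  induction L generalizing x with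
  | nil => exact ⟨trivial, rfl⟩
  | cons s L ih =>
    obtain ⟨h1, h2⟩ := h
    obtain ⟨h3, h4⟩ := ih _ h2
    obtain ⟨h5, h6⟩ := clean_back h1
    have e : revL (s :: L) = revL L ++ [s.neg] := by
      simp [revL]
    have e2 : runL (s :: L) x = runL L (x + stepV s x) := rfl
    rw [e, e2]
    refine ⟨trackOK_append _ _ _ h3 ?_, ?_⟩
    · rw [h4]
      exact ⟨h5, trivial⟩
    · rw [runL_append, h4]
      exact h6

/-! ### Displacements -/

/-- Displacement. -/
noncomputable def dispB (J : ℕ) : ℕ → List StepData → E3 → ℝ → E3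
  | _, [], _, _ => 0
  | o, s :: L, x, t => slotB J o t • stepV s x + dispB J (o + 1) L (x + stepV s x) t

/-- Its derivative. -/
noncomputable def dispβ (J : ℕ) : ℕ → List StepData → E3 → ℝ → E3
  | _, [], _, _ => 0
  | o, s :: L, x, t => slotβ J o t • stepV s x + dispβ J (o + 1) L (x + stepV s x) t

/-- The field of a suffix of a list. -/
noncomputable def fieldL (J : ℕ) : ℕ → List StepData → ℝ → E3 → E3
  | _, [], _, _ => 0
  | o, s :: L, t, y => slotβ J o t • stepV s y + fieldL J (o + 1) L t y

/-- Start of the `o`-th slot. -/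
noncomputable def slotT (J o : ℕ) : ℝ := 1 / 4 + (o : ℝ) / (2 * (J : ℝ))

theorem slotT_mono {J : ℕ} (hJ : 0 < J) {o o' : ℕ} (h : o ≤ o') : slotT J o ≤ slotT J o' := by
  unfold slotT
  have hJ' : (0 : ℝ) < J := by exact_mod_cast hJ
  have : (o : ℝ) ≤ o' := by exact_mod_cast h
  have h2 : (o : ℝ) / (2 * (J : ℝ)) ≤ (o' : ℝ) / (2 * (J : ℝ)) :=
    div_le_div_of_nonneg_right this (by positivity)
  linarith

theorem slotT_succ (J o : ℕ) : slotT J (o + 1) = 1 / 4 + ((o : ℝ) + 1) / (2 * (J : ℝ)) := by
  unfold slotT; push_cast; rfl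

theorem dispB_early {J : ℕ} (hJ : 0 < J) (L : List StepData) (o : ℕ) (x : E3) {t : ℝ}
    (h : t ≤ slotT J o) : dispB J o L x t = 0 := by
  induction L generalizing o x with
  | nil => rfl
  | cons s L ih =>
    have h1 : slotB J o t = 0 := slotB_zero hJ h
    have h2 := ih (o + 1) (x + stepV s x) (h.trans (slotT_mono hJ (Nat.le_succ o)))
    simp [dispB, h1, h2]

theorem dispβ_early {J : ℕ} (hJ : 0 < J) (L : List StepData) (o : ℕ) (x : E3) {t : ℝ}
    (h : t ≤ slotT J o) : dispβ J o L x t = 0 := by
  induction L generalizing o x with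
  | nil => rfl
  | cons s L ih =>
    have h1 : slotβ J o t = 0 := slotβ_zero hJ (Or.inl h)
    have h2 := ih (o + 1) (x + stepV s x) (h.trans (slotT_mono hJ (Nat.le_succ o)))
    simp [dispβ, h1, h2]

theorem fieldL_early {J : ℕ} (hJ : 0 < J) (L : List StepData) (o : ℕ) (y : E3) {t : ℝ}
    (h : t ≤ slotT J o) : fieldL J o L t y = 0 := by
  induction L generalizing o with
  | nil => rfl
  | cons s L ih =>
    have h1 : slotβ J o t = 0 := slotβ_zero hJ (Or.inl h)
    have h2 := ih (o + 1) (h.trans (slotT_mono hJ (Nat.le_succ o)))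
    simp [fieldL, h1, h2]

theorem dispB_late {J : ℕ} (hJ : 0 < J) (L : List StepData) (o : ℕ) (x : E3) {t : ℝ}
    (h : slotT J (o + L.length) ≤ t) : x + dispB J o L x t = runL L x := by
  induction L generalizing o x with
  | nil => simp [dispB, runL]
  | cons s L ih =>
    have h0 : slotT J (o + 1) ≤ t := by
      refine (slotT_mono hJ ?_).trans h
      simp only [List.length_cons]; omega
    have h1 : slotB J o t = 1 := slotB_one hJ (by rwa [slotT_succ] at h0)
    have h2 := ih (o + 1) (x + stepV s x) (by
      simp only [List.length_cons] at h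
      rwa [show o + 1 + L.length = o + (L.length + 1) by omega])
    simp only [dispB, runL, h1, one_smul]
    rw [← h2]
    abel

theorem hasDerivAt_dispB (J : ℕ) (L : List StepData) (o : ℕ) (x : E3) (t : ℝ) :
    HasDerivAt (dispB J o L x) (dispβ J o L x t) t := by
  induction L generalizing o x with
  | nil => exact hasDerivAt_const t (0 : E3)
  | cons s L ih =>
    have h1 := (hasDerivAt_slotB J o t).smul_const (stepV s x)
    exact h1.fun_add (ih (o + 1) (x + stepV s x))

theorem fieldL_track {J : ℕ} (hJ : 0 < J) (L : List StepData) (o : ℕ) (x : E3) (t : ℝ)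
    (h : TrackOK L x) : fieldL J o L t (x + dispB J o L x t) = dispβ J o L x t := by
  induction L generalizing o x with
  | nil => rfl
  | cons s L ih =>
    obtain ⟨hc, hL⟩ := h
    rcases le_total t (slotT J (o + 1)) with ht | ht
    · have h1 := dispB_early hJ L (o + 1) (x + stepV s x) ht
      have h2 := dispβ_early hJ L (o + 1) (x + stepV s x) ht
      have h3 := fun y => fieldL_early hJ L (o + 1) y ht
      simp only [dispB, dispβ, fieldL, h1, h2, h3, add_zero]
      rw [hc _ (slotB_mem J o t)]
    · have h1 : slotB J o t = 1 := slotB_one hJ (by rwa [slotT_succ] at ht)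
      have h2 : slotβ J o t = 0 := slotβ_zero hJ (Or.inr (by rwa [slotT_succ] at ht))
      simp only [dispB, dispβ, fieldL, h1, h2, one_smul, zero_smul, zero_add]
      rw [← add_assoc]
      exact ih (o + 1) (x + stepV s x) hL

theorem sum_eq_fieldL (J : ℕ) (L : List StepData) (o : ℕ) (t : ℝ) (y : E3) :
    ∑ j : Fin L.length, slotβ J (o + j) t • stepV (L.get j) y = fieldL J o L t y := by
  induction L generalizing o with
  | nil => simp [fieldL]
  | cons s L ih =>
    have e := Fin.sum_univ_succ (n := L.length)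
      (fun j : Fin (L.length + 1) => slotβ J (o + j) t • stepV ((s :: L).get j) y)
    simp only [List.length_cons] at *
    rw [e]
    simp only [fieldL, Fin.val_zero, add_zero, List.get_eq_getElem, Fin.val_succ]
    simp only [List.getElem_cons_zero, List.getElem_cons_succ]
    congr 1
    rw [← ih (o + 1)]
    refine Finset.sum_congr rfl fun j _ => ?_
    rw [show o + (j.1 + 1) = o + 1 + j.1 by omega]
    rfl

theorem fieldOf_eq_fieldL (L : List StepData) (t : ℝ) (y : E3) :
    fieldOf L (t, y) = fieldL L.length 0 L t y := by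
  rw [← sum_eq_fieldL]
  simp [fieldOf]

/-- A clean itinerary is a solution of the ODE. -/
theorem track_path (L : List StepData) (x : E3) (h : TrackOK L x) :
    ∃ γ : ℝ → E3, γ 0 = x ∧ γ 1 = runL L x ∧ ∀ t, HasDerivAt γ (fieldOf L (t, γ t)) t := by
  cases L with
  | nil =>
    refine ⟨fun _ => x, rfl, rfl, fun t => ?_⟩
    have : fieldOf [] (t, x) = 0 := by simp [fieldOf]
    rw [this]
    exact hasDerivAt_const t x
  | cons s L' =>
    set L := s :: L' with hL
    have hJ : 0 < L.length := by simp [hL]
    refine ⟨fun t => x + dispB L.length 0 L x t, ?_, ?_, fun t => ?_⟩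
    · have h0 : (0 : ℝ) ≤ slotT L.length 0 := by unfold slotT; simp
      simp only [dispB_early hJ L 0 x h0, add_zero]
    · have h0 : slotT L.length (0 + L.length) ≤ 1 := by
        have hJ' : (0 : ℝ) < L.length := by exact_mod_cast hJ
        unfold slotT
        rw [zero_add, show ((L.length : ℝ)) / (2 * (L.length : ℝ)) = 1 / 2 by field_simp]
        norm_num
      exact dispB_late hJ L 0 x h0
    · rw [fieldOf_eq_fieldL, fieldL_track hJ L 0 x t h]
      exact (hasDerivAt_dispB L.length L 0 x t).const_add x

/-- Assembly of the final statement from an itinerary. -/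
theorem exists_flow_of_list (L : List StepData) :
    ∃ Φ : ℝ → E3 → E3, IsFlow (fieldOf L) Φ ∧ ∀ x, TrackOK L x → Φ 1 x = runL L x := by
  obtain ⟨h1, h2, -, h4, -⟩ := fieldOf_props L
  obtain ⟨Φ, hΦ, huniq⟩ := exists_flow_unique (fieldOf L) h1 h2 h4
  refine ⟨Φ, hΦ, fun x hx => ?_⟩
  obtain ⟨γ, hγ0, hγ1, hγ⟩ := track_path L x hx
  rw [← huniq γ x hγ0 hγ 1, hγ1]

end Crest.Agent.BF
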